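import Vale.Agent.P095.McDuff.LimitRace
import Vale.Agent.P095.Nonunital.Gamma

/-!
# P095: the data of the race from a system with copies (owner: helper3)

Commuting equivariant copies of one separable invariant algebra containing approximate matrix units
and an almost invariant balanced approximate symmetry give `Data`.
-/

open Vale.P095.Tracial (IsTrace pullLin pullLin_apply)
open Vale.P095.Nonunital

namespace Vale.P095.McDuff

variable {G : Type*} [Group G]

theorem exists_data {E : Type*} [CStarAlgebra E] (sys : Sys G E) [Countable G] (Q : Finset G)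
    {d : ℝ} (_hd : 0 < d)
    (hpay : ∃ (S : Sub sys) (x : S.S), ‖x‖ ≤ 1 ∧ ∀ t : S.S →ₗ[ℝ] ℝ, IsTrace t →
      t (star (x * x) * (x * x)) ≤ d * t 1 ∧
      t (star (star x * x + x * star x - 1) * (star x * x + x * star x - 1)) ≤ d * t 1)
    (hgam : ∃ (S : Sub sys) (u : S.S), IsSelfAdjoint u ∧ ‖u‖ ≤ 1 ∧ ∀ t : S.S →ₗ[ℝ] ℝ, IsTrace t →
      t u = 0 ∧ t (1 - u * u) ≤ d * t 1 ∧
        ∀ g ∈ Q, t ((S.act g u - u) * (S.act g u - u)) ≤ d * t 1)
    (ι κ : Type*) [Finite ι] [Finite κ] : Nonempty (Data sys.act Q d ι κ) := by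
  obtain ⟨S₁, x, hx, hpx⟩ := hpay
  obtain ⟨S₂, u, husa, hu, hpu⟩ := hgam
  obtain ⟨c₁, hc₁, hd₁⟩ := S₁.sep
  obtain ⟨c₂, hc₂, hd₂⟩ := S₂.sep
  obtain ⟨S, hS⟩ := exists_sub_of_countable sys (c₁ ∪ c₂) (hc₁.union hc₂)
  have h₁ : S₁.S ≤ S.S := fun z hz =>
    closure_minimal (Set.subset_union_left.trans hS) S.closed (hd₁ hz)
  have h₂ : S₂.S ≤ S.S := fun z hz =>
    closure_minimal (Set.subset_union_right.trans hS) S.closed (hd₂ hz)
  let j₁ : S₁.S →⋆ₐ[ℂ] S.S := StarSubalgebra.inclusion h₁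
  let j₂ : S₂.S →⋆ₐ[ℂ] S.S := StarSubalgebra.inclusion h₂
  obtain ⟨S', π, hπ, hπe⟩ := exists_copies S (ι ⊕ κ)
  let φ : ι ⊕ κ → (S.S →⋆ₐ[ℂ] E) := fun p => S'.S.subtype.comp (π p)
  have hφn : ∀ p (b : S.S), ‖φ p b‖ ≤ ‖b‖ := fun p b => NonUnitalStarAlgHom.norm_apply_le (φ p) b
  have hφe : ∀ p g (b : S.S), φ p (S.act g b) = sys.act g (φ p b) := fun p g b =>
    congrArg Subtype.val (hπe p g b)
  have hj : ∀ g (b : S₂.S), S.act g (j₂ b) = j₂ (S₂.act g b) := fun g b => Subtype.ext rfl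
  have hφc : ∀ p q, p ≠ q → ∀ a b, Commute (φ p a) (φ q b) := fun p q hpq a b =>
    (hπ p q hpq a b).map S'.S.subtype
  refine ⟨{
    y := fun i => φ (Sum.inl i) (j₁ x)
    u := fun b => φ (Sum.inr b) (j₂ u)
    D := fun p => Set.range (φ p)
    y_mem := fun i g => ⟨S.act g (j₁ x), hφe _ g _⟩
    u_mem := fun b => ⟨_, rfl⟩
    star_mem := fun p z hz => by
      obtain ⟨b, rfl⟩ := hz
      exact ⟨star b, map_star _ _⟩
    comm := fun p q hpq z hz w hw => by
      obtain ⟨a, rfl⟩ := hz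
      obtain ⟨b, rfl⟩ := hw
      exact hφc p q hpq a b
    y_norm := fun i => ((hφn _ _).trans (NonUnitalStarAlgHom.norm_apply_le j₁ x)).trans hx
    u_norm := fun b => ((hφn _ _).trans (NonUnitalStarAlgHom.norm_apply_le j₂ u)).trans hu
    u_sa := fun b => (husa.map j₂).map (φ _)
    y_sq := fun t ht i => ?_
    y_unit := fun t ht i => ?_
    u_sq := fun t ht b => ?_
    u_inv := fun t ht g hg b => ?_
    u_bal := fun t ht b Z hZ => ?_ }⟩
  · have h := (hpx _ ((ht.pull (φ (Sum.inl i))).pull j₁)).1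
    simpa only [pullLin_apply, map_mul, map_star, map_one] using h
  · have h := (hpx _ ((ht.pull (φ (Sum.inl i))).pull j₁)).2
    simpa only [pullLin_apply, map_mul, map_star, map_one, map_add, map_sub] using h
  · have h := (hpu _ ((ht.pull (φ (Sum.inr b))).pull j₂)).2.1
    simp only [pullLin_apply, map_mul, map_one, map_sub] at h
    let _ := CStarAlgebra.spectralOrder E
    have _ := CStarAlgebra.spectralOrderedRing E
    set w : E := φ (Sum.inr b) (j₂ u) with hw
    have hws : IsSelfAdjoint w := (husa.map j₂).map (φ _)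
    have hwn : ‖w‖ ≤ 1 := ((hφn _ _).trans (NonUnitalStarAlgHom.norm_apply_le j₂ u)).trans hu
    have h0 : 0 ≤ w * w := by simpa [hws.star_eq] using star_mul_self_nonneg w
    have hle : w * w ≤ 1 := (CStarAlgebra.norm_le_one_iff_of_nonneg (w * w) h0).1
      ((norm_mul_le _ _).trans (mul_le_one₀ hwn (norm_nonneg _) hwn))
    have hz : 0 ≤ 1 - w * w := sub_nonneg.2 hle
    have hsq : (1 - w * w) * (1 - w * w) ≤ 1 - w * w := by
      rw [← sub_nonneg, show 1 - w * w - (1 - w * w) * (1 - w * w) = (w * w) * (1 - w * w) by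
        noncomm_ring]
      exact Commute.mul_nonneg h0 hz ((Commute.one_right _).sub_right (Commute.refl _))
    have hm := ht.mono hsq
    rw [hz.isSelfAdjoint.star_eq]
    rw [map_sub t 1] at hm
    linarith
  · have h := (hpu _ ((ht.pull (φ (Sum.inr b))).pull j₂)).2.2 g hg
    simp only [pullLin_apply, map_mul, map_one, map_sub, ← hj, hφe] at h
    have hws : IsSelfAdjoint (φ (Sum.inr b) (j₂ u)) := (husa.map j₂).map (φ _)
    rw [((hws.map (sys.act g)).sub hws).star_eq]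
    exact h
  · refine ht.balanced_mul (φ (Sum.inr b)) (husa.map j₂) (fun t' ht' => ?_) fun c => hZ _ ⟨c, rfl⟩
    exact (hpu _ (ht'.pull j₂)).1

end Vale.P095.McDuff
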