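import Vale.Agent.P095.McDuff.Layer
import Vale.Agent.P095.Tracial.TraceIneq
import Vale.Agent.P101.Basic

/-!
# P095 Theorem M: slicing and coverage of square-zero elements (owner: helper23)

Pure algebra in one C*-algebra, with exact relations.  `sliced q y` turns a square-zero contraction
into one whose support is nearly a projection of the same trace; `cover` exhausts the unit by
commuting square-zero partial isometries; `clip` forces norm one without changing contractions.
-/

open Vale.P095.Tracial

namespace Vale.P095.McDuff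

variable {B : Type*} [CStarAlgebra B]

/-! ### Square-zero partial isometries -/

/-- A square-zero partial isometry. -/
def SqZeroPI (x : B) : Prop := x * x = 0 ∧ x * star x * x = x

/-- What `x` and its range leave of the unit. -/
def res (x : B) : B := 1 - star x * x - x * star x

theorem res_isSelfAdjoint (x : B) : IsSelfAdjoint (res x) :=
  ((IsSelfAdjoint.one B).sub (IsSelfAdjoint.star_mul_self x)).sub (IsSelfAdjoint.mul_star_self x)

theorem res_zero : res (0 : B) = 1 := by simp [res]

theorem map_res {C : Type*} [CStarAlgebra C] (φ : B →⋆ₐ[ℂ] C) (x : B) : φ (res x) = res (φ x) := by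
  simp [res, map_sub, map_mul, map_star]

theorem res_mul_self {x : B} (hx : SqZeroPI x) :
    res x * x = 0 ∧ x * res x = 0 ∧ res x * res x = res x := by
  obtain ⟨h0, h1⟩ := hx
  have e1 : res x * x = 0 := by
    rw [res, sub_mul, sub_mul, one_mul, mul_assoc (star x), h0, mul_zero, sub_zero, h1, sub_self]
  have e2 : x * res x = 0 := by
    rw [res, mul_sub, mul_sub, mul_one, ← mul_assoc, h1, ← mul_assoc, h0, zero_mul, sub_self,
      sub_zero]
  have e3 : res x * star x = 0 := by
    have := congrArg star e2
    rwa [star_mul, star_zero, (res_isSelfAdjoint x).star_eq] at this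
  refine ⟨e1, e2, ?_⟩
  conv_lhs => arg 2; rw [res]
  rw [mul_sub, mul_sub, mul_one, ← mul_assoc, e3, ← mul_assoc, e1, zero_mul, zero_mul, sub_zero,
    sub_zero]

theorem continuous_starAlgHom {C : Type*} [CStarAlgebra C] (φ : B →⋆ₐ[ℂ] C) : Continuous φ :=
  AddMonoidHomClass.continuous_of_bound φ 1 fun x => by
    rw [one_mul]; exact NonUnitalStarAlgHom.norm_apply_le φ x

theorem SqZeroPI.support_idem {x : B} (hx : SqZeroPI x) :
    star x * x * (star x * x) = star x * x := by
  rw [mul_assoc, ← mul_assoc x, hx.2]

theorem SqZeroPI.norm_le_one {x : B} (hx : SqZeroPI x) : ‖x‖ ≤ 1 := by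
  have h : ‖star x * x‖ = ‖star x * x‖ * ‖star x * x‖ := by
    conv_lhs => rw [← hx.support_idem]
    rw [← CStarRing.norm_star_mul_self, (IsSelfAdjoint.star_mul_self x).star_eq]
  rw [CStarRing.norm_star_mul_self] at h
  nlinarith [norm_nonneg x, mul_self_nonneg (‖x‖ - 1)]

theorem commute_res {W x : B} (h : Commute W x) (h' : Commute W (star x)) : Commute W (res x) :=
  ((Commute.one_right W).sub_right (h'.mul_right h)).sub_right (h.mul_right h')

/-- One step of the exhaustion. -/
theorem cover_step {x y : B} (hx : SqZeroPI x) (hy : SqZeroPI y) (h : Commute x y)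
    (h' : Commute x (star y)) :
    SqZeroPI (x + res x * y) ∧
      res (x + res x * y) = res x * (1 - star y * y - y * star y) := by
  obtain ⟨e1, e2, e3⟩ := res_mul_self hx
  have e1' : star x * res x = 0 := by
    have := congrArg star e1
    rwa [star_mul, star_zero, (res_isSelfAdjoint x).star_eq] at this
  have e2' : res x * star x = 0 := by
    have := congrArg star e2
    rwa [star_mul, star_zero, (res_isSelfAdjoint x).star_eq] at this
  have hr : Commute (res x) y :=
    (commute_res h.symm (by simpa using h'.star_star.symm)).symm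
  have hr' : Commute (res x) (star y) := by
    simpa [(res_isSelfAdjoint x).star_eq] using hr.star_star
  have hs : star (x + res x * y) = star x + res x * star y := by
    rw [star_add, star_mul, (res_isSelfAdjoint x).star_eq, hr'.eq]
  have hyx : Commute (star x) y := by simpa using h'.star_star
  have hsq : (x + res x * y) * (x + res x * y) = 0 := by
    have a1 : x * (res x * y) = 0 := by rw [← mul_assoc, e2, zero_mul]
    have a2 : res x * y * x = 0 := by rw [mul_assoc, ← h.eq, ← mul_assoc, e1, zero_mul]
    have a3 : res x * y * (res x * y) = 0 := by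
      rw [mul_assoc, ← mul_assoc y, ← hr.eq, mul_assoc (res x) y y, hy.1, mul_zero, mul_zero]
    rw [add_mul, mul_add, mul_add, hx.1, a1, a2, a3, add_zero, add_zero]
  have hl : star (x + res x * y) * (x + res x * y) = star x * x + res x * (star y * y) := by
    have a1 : star x * (res x * y) = 0 := by rw [← mul_assoc, e1', zero_mul]
    have a2 : res x * star y * x = 0 := by rw [mul_assoc, ← h'.eq, ← mul_assoc, e1, zero_mul]
    have a3 : res x * star y * (res x * y) = res x * (star y * y) := by
      rw [mul_assoc, ← mul_assoc (star y), ← hr'.eq, mul_assoc (res x) (star y), ← mul_assoc, e3]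
    rw [hs, add_mul, mul_add, mul_add, a1, a2, a3, add_zero, zero_add]
  have hrr : (x + res x * y) * star (x + res x * y) = x * star x + res x * (y * star y) := by
    have a1 : x * (res x * star y) = 0 := by rw [← mul_assoc, e2, zero_mul]
    have a2 : res x * y * star x = 0 := by rw [mul_assoc, ← hyx.eq, ← mul_assoc, e2', zero_mul]
    have a3 : res x * y * (res x * star y) = res x * (y * star y) := by
      rw [mul_assoc, ← mul_assoc y, ← hr.eq, mul_assoc (res x) y, ← mul_assoc, e3]
    rw [hs, add_mul, mul_add, mul_add, a1, a2, a3, add_zero, zero_add]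
  refine ⟨⟨hsq, ?_⟩, ?_⟩
  · have a1 : x * (star x * x) = x := by rw [← mul_assoc, hx.2]
    have a2 : x * (res x * (star y * y)) = 0 := by rw [← mul_assoc, e2, zero_mul]
    have a3 : res x * y * (star x * x) = 0 := by
      rw [mul_assoc, ← mul_assoc y, ← hyx.eq, mul_assoc (star x), ← mul_assoc, e2', zero_mul]
    have a4 : res x * y * (res x * (star y * y)) = res x * y := by
      rw [mul_assoc, ← mul_assoc y, ← hr.eq, mul_assoc (res x) y, ← mul_assoc y, hy.2, ← mul_assoc,
        e3]
    rw [mul_assoc, hl, add_mul, mul_add, mul_add, a1, a2, a3, a4, add_zero, zero_add]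
  · conv_lhs => rw [res, hl, hrr]
    rw [mul_sub (res x), mul_sub (res x), mul_one]
    conv_rhs => arg 1; arg 1; rw [res]
    abel

/-- The exhaustion by a sequence. -/
def cover : ℕ → (ℕ → B) → B
  | 0, _ => 0
  | m + 1, y => cover m y + res (cover m y) * y m

theorem cover_zero (y : ℕ → B) : cover 0 y = 0 := rfl

theorem cover_succ (m : ℕ) (y : ℕ → B) :
    cover (m + 1) y = cover m y + res (cover m y) * y m := rfl

theorem map_cover {C : Type*} [CStarAlgebra C] (φ : B →⋆ₐ[ℂ] C) (y : ℕ → B) :
    ∀ m, φ (cover m y) = cover m fun i => φ (y i)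
  | 0 => map_zero φ
  | m + 1 => by rw [cover_succ, cover_succ, map_add, map_mul, map_res, map_cover φ y m]

theorem cover_mem (S : StarSubalgebra ℂ B) (y : ℕ → B) :
    ∀ m, (∀ i < m, y i ∈ S) → cover m y ∈ S
  | 0, _ => zero_mem S
  | m + 1, h => by
    have hm := cover_mem S y m fun i hi => h i (Nat.lt_succ_of_lt hi)
    exact add_mem hm (mul_mem (sub_mem (sub_mem (one_mem S) (mul_mem (star_mem hm) hm))
      (mul_mem hm (star_mem hm))) (h m (Nat.lt_succ_self m)))

theorem commute_cover (y : ℕ → B) {W : B} :
    ∀ m, (∀ i < m, Commute W (y i) ∧ Commute W (star (y i))) →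
      Commute W (cover m y) ∧ Commute W (star (cover m y))
  | 0, _ => by simp [cover_zero]
  | m + 1, h => by
    obtain ⟨h1, h2⟩ := commute_cover y m fun i hi => h i (Nat.lt_succ_of_lt hi)
    obtain ⟨g1, g2⟩ := h m (Nat.lt_succ_self m)
    have hr := commute_res h1 h2
    rw [cover_succ, star_add, star_mul, (res_isSelfAdjoint _).star_eq]
    exact ⟨h1.add_right (hr.mul_right g1), h2.add_right (g2.mul_right hr)⟩

theorem cover_spec (y : ℕ → B) :
    ∀ m, (∀ i < m, SqZeroPI (y i)) →
      (∀ i < m, ∀ j < m, i ≠ j → Commute (y i) (y j) ∧ Commute (y i) (star (y j))) →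
      SqZeroPI (cover m y)
  | 0, _, _ => ⟨by simp [cover_zero], by simp [cover_zero]⟩
  | m + 1, hy, hc => by
    have hx := cover_spec y m (fun i hi => hy i (Nat.lt_succ_of_lt hi)) fun i hi j hj =>
      hc i (Nat.lt_succ_of_lt hi) j (Nat.lt_succ_of_lt hj)
    have h1 := (commute_cover y m (W := y m) fun i hi =>
      hc m (Nat.lt_succ_self m) i (Nat.lt_succ_of_lt hi) (ne_of_gt hi)).1
    have h2 := (commute_cover y m (W := star (y m)) fun i hi => by
      have a := hc i (Nat.lt_succ_of_lt hi) m (Nat.lt_succ_self m) (ne_of_lt hi)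
      exact ⟨a.2.symm, a.1.star_star.symm⟩).1
    exact (cover_step hx (hy m (Nat.lt_succ_self m)) h1.symm h2.symm).1

/-- The exhaustion: what is left decays geometrically.  `D i` is the algebra of the `i`-th copy,
commuting with the earlier elements. -/
theorem trace_res_cover_le {t : B →ₗ[ℝ] ℝ} (ht : IsTrace t) (y : ℕ → B) (D : ℕ → Set B) {c : ℝ}
    {m : ℕ} (hy : ∀ i < m, SqZeroPI (y i))
    (hc : ∀ i < m, ∀ j < m, i ≠ j → Commute (y i) (y j) ∧ Commute (y i) (star (y j)))
    (hD : ∀ i < m, ∀ j < i, ∀ d ∈ D i, Commute d (y j) ∧ Commute d (star (y j)))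
    (hcond : ∀ i < m, ∀ W : B, IsSelfAdjoint W → W * W = W → (∀ d ∈ D i, Commute W d) →
      c * t W ≤ t (W * (star (y i) * y i))) (hc1 : c ≤ 1 / 2) :
    t (res (cover m y)) ≤ (1 - 2 * c) ^ m * t 1 := by
  induction m with
  | zero => simp [cover_zero, res_zero]
  | succ m ih =>
    have hlt := fun {i} (hi : i < m) => Nat.lt_succ_of_lt hi
    have hy' : ∀ i < m, SqZeroPI (y i) := fun i hi => hy i (hlt hi)
    have hc' := fun i (hi : i < m) j (hj : j < m) => hc i (hlt hi) j (hlt hj)
    have hx := cover_spec y m hy' hc'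
    have h1 := (commute_cover y m (W := y m) fun i hi =>
      hc m (Nat.lt_succ_self m) i (hlt hi) (ne_of_gt hi)).1
    have h2 := (commute_cover y m (W := star (y m)) fun i hi => by
      have a := hc i (hlt hi) m (Nat.lt_succ_self m) (ne_of_lt hi)
      exact ⟨a.2.symm, a.1.star_star.symm⟩).1
    have hW : ∀ d ∈ D m, Commute (res (cover m y)) d := fun d hd => by
      obtain ⟨g1, g2⟩ := commute_cover y m fun i hi => hD m (Nat.lt_succ_self m) i hi d hd
      exact (commute_res g1 g2).symm
    set r := res (cover m y) with hr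
    have hb := hcond m (Nat.lt_succ_self m) r (res_isSelfAdjoint _) (res_mul_self hx).2.2 hW
    have hyr : Commute (star (y m)) r := by
      have h3 : Commute (star (y m)) (star (cover m y)) :=
        (commute_cover y m (W := star (y m)) fun i hi => by
          have a := hc i (hlt hi) m (Nat.lt_succ_self m) (ne_of_lt hi)
          exact ⟨a.2.symm, a.1.star_star.symm⟩).2
      exact commute_res h2 h3
    have he : t (r * (y m * star (y m))) = t (r * (star (y m) * y m)) := by
      rw [← mul_assoc, ht.comm, ← mul_assoc, hyr.eq, mul_assoc]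
    rw [cover_succ, (cover_step hx (hy m (Nat.lt_succ_self m)) h1.symm h2.symm).2, mul_sub, mul_sub,
      mul_one, map_sub, map_sub, ← hr, he, pow_succ']
    have hi := ih hy' hc' (fun i hi => hD i (hlt hi)) (fun i hi => hcond i (hlt hi))
    calc t r - t (r * (star (y m) * y m)) - t (r * (star (y m) * y m)) ≤ (1 - 2 * c) * t r := by
          linarith
      _ ≤ (1 - 2 * c) * ((1 - 2 * c) ^ m * t 1) := mul_le_mul_of_nonneg_left hi (by linarith)
      _ = _ := by ring

/-- For the exact element the `M₂` defect is what is left of the unit. -/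
theorem defect_eq_res {x : B} (hx : SqZeroPI x) :
    (star x * x + x * star x - 1) * (star x * x + x * star x - 1) = res x ∧
      star (x * x) * (x * x) = 0 := by
  refine ⟨?_, by rw [hx.1, mul_zero]⟩
  rw [show star x * x + x * star x - 1 = -res x by rw [res]; abel, neg_mul_neg,
    (res_mul_self hx).2.2]

/-! ### Slicing -/

/-- `s * rise V k s ^ 2 = layer V k s`. -/
noncomputable def rise (V k : ℕ) (s : ℝ) : ℝ :=
  if k = 0 then √((V : ℝ) / max 1 ((V : ℝ) * s)) else √(layer V k s / max (1 / (V : ℝ)) s)

theorem continuous_rise {V : ℕ} (hV : 0 < V) (k : ℕ) : Continuous (rise V k) := by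
  have hV' : (0 : ℝ) < 1 / V := by positivity
  unfold rise
  split
  · exact Real.continuous_sqrt.comp (continuous_const.div (by fun_prop)
      fun s => (lt_of_lt_of_le one_pos (le_max_left _ _)).ne')
  · exact Real.continuous_sqrt.comp ((continuous_layer V k).div (by fun_prop)
      fun s => (lt_of_lt_of_le hV' (le_max_left _ _)).ne')

theorem rise_spec {V : ℕ} (hV : 0 < V) (k : ℕ) {s : ℝ} (hs : 0 ≤ s) :
    rise V k s * s * rise V k s = layer V k s := by
  have hV' : (0 : ℝ) < V := Nat.cast_pos.2 hV
  rw [mul_right_comm]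
  by_cases hk : k = 0
  · subst hk
    rw [rise, if_pos rfl, Real.mul_self_sqrt (by positivity), layer, Nat.cast_zero, sub_zero]
    rcases le_total ((V : ℝ) * s) 1 with h | h
    · rw [max_eq_left h, min_eq_right h, max_eq_right (by positivity), div_one]
    · have : s ≠ 0 := by rintro rfl; linarith
      rw [max_eq_right h, min_eq_left h, max_eq_right zero_le_one]
      field_simp
  · rw [rise, if_neg hk, Real.mul_self_sqrt (by have := layer_nonneg V k s; positivity)]
    rcases le_total s (1 / (V : ℝ)) with h | h
    · have h1 : (V : ℝ) * s - k ≤ 0 := by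
        have : (1 : ℝ) ≤ k := by exact_mod_cast Nat.one_le_iff_ne_zero.2 hk
        rw [le_div_iff₀ hV'] at h
        linarith
      rw [show layer V k s = 0 from max_eq_left ((min_le_right _ _).trans h1), zero_div, zero_mul]
    · have : s ≠ 0 := (lt_of_lt_of_le (by positivity) h).ne'
      rw [max_eq_right h, div_mul_cancel₀ _ this]

/-- The sliced element. -/
noncomputable def sliced {V : ℕ} (q : Fin V → B) (y : B) : B :=
  ∑ k : Fin V, q k * (y * cfc (rise V k) (star y * y))

theorem map_sliced {C : Type*} [CStarAlgebra C] (φ : B →⋆ₐ[ℂ] C) {V : ℕ} (hV : 0 < V)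
    (q : Fin V → B) (y : B) : φ (sliced q y) = sliced (fun k => φ (q k)) (φ y) := by
  simp only [sliced, map_sum, map_mul]
  refine Finset.sum_congr rfl fun k _ => ?_
  rw [StarAlgHomClass.map_cfc φ (rise V k) (star y * y) (continuous_rise hV k).continuousOn
    (continuous_starAlgHom φ) (IsSelfAdjoint.star_mul_self y) ((IsSelfAdjoint.star_mul_self y).map φ),
    map_mul, map_star]

theorem commute_sliced {V : ℕ} (q : Fin V → B) {y W : B} (hq : ∀ k, Commute W (q k))
    (h : Commute W y) (h' : Commute W (star y)) : Commute W (sliced q y) :=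
  Commute.sum_right _ _ _ fun k _ =>
    (hq k).mul_right (h.mul_right (((h'.mul_right h).symm.cfc_real _).symm))

section Slicing

variable {V : ℕ} {q : Fin V → B} {y : B} (hV : 0 < V) (hqs : ∀ k, IsSelfAdjoint (q k))
  (hqq : ∀ k, q k * q k = q k) (hqo : ∀ j k, j ≠ k → q j * q k = 0)
  (hqy : ∀ k, Commute (q k) y)

include hqs hqy in
theorem commute_q_star (k : Fin V) : Commute (q k) (star y) := by
  simpa [(hqs k).star_eq] using (hqy k).star_star

include hqs hqy in
theorem commute_q_cfc (k : Fin V) (f : ℝ → ℝ) : Commute (q k) (cfc f (star y * y)) :=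
  (((commute_q_star hqs hqy k).mul_right (hqy k)).symm.cfc_real f).symm

include hV hqs hqy in
theorem sliced_sq (hy : y * y = 0) : sliced q y * sliced q y = 0 := by
  have hz : ∀ k : ℕ, y * cfc (rise V k) (star y * y) * y = 0 := fun k => by
    have h := Vale.P101.intertwine_cfc (x := y) (IsSelfAdjoint.zero B)
      (IsSelfAdjoint.star_mul_self y) (by rw [mul_zero, mul_assoc, hy, mul_zero])
      (continuous_rise hV k)
    rw [cfc_apply_zero, Algebra.algebraMap_eq_smul_one, mul_smul_comm, mul_one] at h
    rw [mul_assoc, ← h, mul_smul_comm, hy, smul_zero]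
  rw [sliced, Finset.sum_mul]
  refine Finset.sum_eq_zero fun j _ => ?_
  rw [Finset.mul_sum]
  refine Finset.sum_eq_zero fun k _ => ?_
  have hc : Commute (y * cfc (rise V j) (star y * y)) (q k) :=
    ((hqy k).mul_right (commute_q_cfc hqs hqy k _)).symm
  rw [mul_assoc, ← mul_assoc (y * cfc (rise V j) (star y * y)), hc.eq, mul_assoc (q k),
    ← mul_assoc (y * cfc (rise V j) (star y * y)) y, hz, zero_mul, mul_zero, mul_zero]

include hV hqs hqq hqo hqy in
theorem star_sliced_mul :
    star (sliced q y) * sliced q y = ∑ k : Fin V, q k * cfc (layer V k) (star y * y) := by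
  let _ := CStarAlgebra.spectralOrder B
  have _ := CStarAlgebra.spectralOrderedRing B
  rw [sliced, star_sum, Finset.sum_mul]
  refine Finset.sum_congr rfl fun j _ => ?_
  set z : Fin V → B := fun k => y * cfc (rise V k) (star y * y) with hz
  have hqz : Commute (q j) (star (z j)) := by
    have := ((hqy j).mul_right (commute_q_cfc hqs hqy j (rise V j))).star_star
    rwa [(hqs j).star_eq] at this
  have hterm : ∀ k, star (q j * z j) * (q k * z k) = star (z j) * (q j * q k) * z k := fun k => by
    rw [star_mul, (hqs j).star_eq]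
    simp only [mul_assoc]
  rw [Finset.mul_sum, Finset.sum_eq_single j (fun k _ hk => by
    rw [hterm, hqo j k (Ne.symm hk), mul_zero, zero_mul]) (by simp)]
  rw [hterm, hqq, ← hqz.eq, mul_assoc]
  congr 1
  simp only [hz]
  rw [star_mul, (cfc_predicate (rise V j) (star y * y) : IsSelfAdjoint _).star_eq, mul_assoc,
    ← mul_assoc (star y), ← mul_assoc]
  calc cfc (rise V j) (star y * y) * (star y * y) * cfc (rise V j) (star y * y)
      = cfc (fun s => rise V j s * s * rise V j s) (star y * y) := by
        have hc := (continuous_rise hV (j : ℕ)).continuousOn (s := spectrum ℝ (star y * y))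
        rw [cfc_mul (fun s => rise V j s * s) (rise V j) _ (hc.mul continuousOn_id) hc,
          cfc_mul (rise V j) (fun s => s) _ hc continuousOn_id,
          cfc_id' ℝ (star y * y) (IsSelfAdjoint.star_mul_self y)]
    _ = cfc (layer V j) (star y * y) := cfc_congr fun s hs =>
        rise_spec hV j (spectrum_nonneg_of_nonneg (star_mul_self_nonneg y) hs)

include hV hqs hqq hqo hqy in
theorem norm_sliced_le (hq1 : ∑ k, q k = 1) : ‖sliced q y‖ ≤ 1 := by
  let _ := CStarAlgebra.spectralOrder B
  have _ := CStarAlgebra.spectralOrderedRing B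
  have hle : star (sliced q y) * sliced q y ≤ 1 := by
    rw [star_sliced_mul hV hqs hqq hqo hqy, ← sub_nonneg]
    have e : (1 : B) - ∑ k : Fin V, q k * cfc (layer V k) (star y * y) =
        ∑ k : Fin V, q k * (1 - cfc (layer V k) (star y * y)) := by
      simp [mul_sub, Finset.sum_sub_distrib, hq1]
    rw [e]
    refine Finset.sum_nonneg fun k _ => ?_
    have hc : Commute (q k) (1 - cfc (layer V k) (star y * y)) :=
      (Commute.one_right _).sub_right (commute_q_cfc hqs hqy k _)
    rw [← hqq k, mul_assoc, hc.eq, ← mul_assoc]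
    refine (hqs k).conjugate_nonneg (sub_nonneg.2 ?_)
    exact cfc_le_one (layer V k) _ fun s _ => layer_le_one V k s
  have h := (CStarAlgebra.norm_le_one_iff_of_nonneg _ (star_mul_self_nonneg _)).2 hle
  rw [CStarRing.norm_star_mul_self] at h
  nlinarith [norm_nonneg (sliced q y)]

include hV hqs hqq hqo hqy in
theorem trace_sliced {t : B →ₗ[ℝ] ℝ} (hy : ‖y‖ ≤ 1)
    (hfair : ∀ (k : Fin V) (f : ℝ → ℝ), Continuous f →
      t (q k * cfc f (star y * y)) = t (cfc f (star y * y)) / V) :
    t (star (sliced q y) * sliced q y) = t (star y * y) := by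
  rcases subsingleton_or_nontrivial B with h | h
  · exact congrArg t (Subsingleton.elim _ _)
  let _ := CStarAlgebra.spectralOrder B
  have _ := CStarAlgebra.spectralOrderedRing B
  have hV' : (0 : ℝ) < V := Nat.cast_pos.2 hV
  have e : ∑ k : Fin V, cfc (layer V k) (star y * y) = (V : ℝ) • (star y * y) := by
    rw [← cfc_sum_univ (fun k : Fin V => layer V k) _ fun k => (continuous_layer V k).continuousOn,
      cfc_congr (g := fun s => (V : ℝ) * s) fun s hs => ?_, cfc_const_mul_id (V : ℝ) _
        (IsSelfAdjoint.star_mul_self y)]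
    rw [Finset.sum_apply, Fin.sum_univ_eq_sum_range (fun k => layer V k s) V,
      sum_layer V V (spectrum_nonneg_of_nonneg (star_mul_self_nonneg y) hs)]
    refine min_eq_left (mul_le_of_le_one_right hV'.le ?_)
    have h1 := (le_abs_self s).trans (Real.norm_eq_abs s ▸ spectrum.norm_le_norm_of_mem hs)
    rw [CStarRing.norm_star_mul_self] at h1
    nlinarith [norm_nonneg y]
  rw [star_sliced_mul hV hqs hqq hqo hqy, map_sum,
    Finset.sum_congr rfl fun k _ => hfair k _ (continuous_layer V k), ← Finset.sum_div, ← map_sum,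
    e, map_smul, smul_eq_mul]
  field_simp

include hV hqs hqq hqo hqy in
theorem trace_sliced_near {t : B →ₗ[ℝ] ℝ} (ht : IsTrace t)
    (hfair : ∀ (k : Fin V) (f : ℝ → ℝ), Continuous f →
      t (q k * cfc f (star y * y)) = t (cfc f (star y * y)) / V) :
    t (star (sliced q y) * sliced q y -
      star (sliced q y) * sliced q y * (star (sliced q y) * sliced q y)) ≤ 2 / V * t 1 := by
  let _ := CStarAlgebra.spectralOrder B
  have _ := CStarAlgebra.spectralOrderedRing B
  have hV' : (0 : ℝ) < V := Nat.cast_pos.2 hV
  set a := star y * y with ha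
  set l : Fin V → B := fun k => cfc (layer V k) a with hl
  have hp : star (sliced q y) * sliced q y = ∑ k, q k * l k :=
    star_sliced_mul hV hqs hqq hqo hqy
  have hpp : (∑ k, q k * l k) * (∑ k, q k * l k) = ∑ k, q k * (l k * l k) := by
    rw [Finset.sum_mul]
    refine Finset.sum_congr rfl fun j _ => ?_
    have hterm : ∀ k, q j * l j * (q k * l k) = q j * q k * (l j * l k) := fun k =>
      (commute_q_cfc hqs hqy k _).symm.mul_mul_mul_comm _ _
    rw [Finset.mul_sum, Finset.sum_eq_single j (fun k _ hk => by
      rw [hterm, hqo j k (Ne.symm hk), zero_mul]) (by simp), hterm, hqq]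
  set g : Fin V → ℝ → ℝ := fun k s => layer V k s - layer V k s * layer V k s with hg
  have hgc : ∀ k, Continuous (g k) := fun k =>
    (continuous_layer V k).sub ((continuous_layer V k).mul (continuous_layer V k))
  have hgl : ∀ k, cfc (g k) a = l k - l k * l k := fun k => by
    have h := (continuous_layer V (k : ℕ)).continuousOn (s := spectrum ℝ a)
    simp only [hg, hl]
    rw [cfc_sub (layer V k) (fun s => layer V k s * layer V k s) a h (h.mul h),
      cfc_mul (layer V k) (layer V k) a h h]
  rw [hp, hpp, ← Finset.sum_sub_distrib, map_sum, Finset.sum_congr rfl fun k _ => by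
    rw [← mul_sub, ← hgl, hfair k _ (hgc k)], ← Finset.sum_div, ← map_sum,
    ← cfc_sum_univ g a fun k => (hgc k).continuousOn, div_mul_eq_mul_div]
  gcongr
  have hle : cfc (∑ k, g k) a ≤ algebraMap ℝ B 2 := by
    refine cfc_le_algebraMap _ _ _ (fun s hs => ?_)
      ?_ (IsSelfAdjoint.star_mul_self y)
    have hs0 : 0 ≤ s := spectrum_nonneg_of_nonneg (star_mul_self_nonneg y) hs
    rw [Finset.sum_apply]
    simp only [hg]
    rw [Fin.sum_univ_eq_sum_range (fun k => layer V k s - layer V k s * layer V k s) V]
    refine (sum_layer_near_proj V V hs0).trans ?_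
    have hd : (0 : ℝ) < V * s + 1 := by positivity
    have : (V : ℝ) * s / (V * s + 1) ≤ 1 := by rw [div_le_one hd]; linarith
    linarith
    · rw [Finset.sum_fn]
      exact (continuous_finsetSum _ fun k _ => hgc k).continuousOn
  refine (ht.mono hle).trans ?_
  rw [Algebra.algebraMap_eq_smul_one, map_smul, smul_eq_mul]

end Slicing

/-- In a faithful algebra a nearly projective contraction support is exact. -/
theorem sqZeroPI_of_trace {t : B →ₗ[ℝ] ℝ} (hf : ∀ z : B, t (star z * z) = 0 → z = 0) {x : B}
    (hx : ‖x‖ ≤ 1) (h0 : x * x = 0)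
    (h : t (star x * x - star x * x * (star x * x)) = 0) : SqZeroPI x := by
  let _ := CStarAlgebra.spectralOrder B
  have _ := CStarAlgebra.spectralOrderedRing B
  have hxx : x * star x ≤ 1 := by
    refine (CStarAlgebra.norm_le_one_iff_of_nonneg _ (mul_star_self_nonneg x)).1 ?_
    rw [CStarRing.norm_self_mul_star]
    nlinarith [norm_nonneg x]
  have hnn : 0 ≤ star x * x - star x * x * (star x * x) := by
    have := star_left_conjugate_nonneg (sub_nonneg.2 hxx) x
    rwa [mul_sub, sub_mul, mul_one, ← mul_assoc, mul_assoc (star x * x)] at this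
  set d := star x * x - star x * x * (star x * x) with hd
  have hs := CFC.sqrt_nonneg d
  have hz : CFC.sqrt d = 0 := hf _ (by
    rw [hs.isSelfAdjoint.star_eq, CFC.sqrt_mul_sqrt_self d hnn, h])
  have hd0 : d = 0 := by rw [← CFC.sqrt_mul_sqrt_self d hnn, hz, zero_mul]
  refine ⟨h0, sub_eq_zero.1 ((CStarRing.star_mul_self_eq_zero_iff _).1 ?_)⟩
  have hidem : star x * x * (star x * x) = star x * x := (sub_eq_zero.1 (hd ▸ hd0)).symm
  have e : star (x * star x * x - x) * (x * star x * x - x) =
      star x * x * (star x * x) * (star x * x) - star x * x * (star x * x)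
        - (star x * x * (star x * x) - star x * x) := by
    simp only [star_sub, star_mul, star_star, sub_mul, mul_sub, mul_assoc]
  rw [e, hidem, hidem, sub_self]

/-- Force a contraction. -/
noncomputable def clip (x : B) : B := x * cfc (fun s => (√(max 1 s))⁻¹) (star x * x)

theorem continuous_clipFun : Continuous fun s : ℝ => (√(max 1 s))⁻¹ :=
  (Real.continuous_sqrt.comp (by fun_prop)).inv₀ fun s =>
    (Real.sqrt_pos.2 (lt_of_lt_of_le one_pos (le_max_left _ _))).ne'

theorem map_clip {C : Type*} [CStarAlgebra C] (φ : B →⋆ₐ[ℂ] C) (x : B) :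
    φ (clip x) = clip (φ x) := by
  rw [clip, clip, map_mul, StarAlgHomClass.map_cfc φ _ (star x * x)
    continuous_clipFun.continuousOn (continuous_starAlgHom φ) (IsSelfAdjoint.star_mul_self x)
    ((IsSelfAdjoint.star_mul_self x).map φ), map_mul, map_star]

theorem norm_clip_le (x : B) : ‖clip x‖ ≤ 1 := by
  let _ := CStarAlgebra.spectralOrder B
  have _ := CStarAlgebra.spectralOrderedRing B
  set a := star x * x with ha
  set f : ℝ → ℝ := fun s => (√(max 1 s))⁻¹ with hf
  have hfc := continuous_clipFun.continuousOn (s := spectrum ℝ a)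
  have e : star (clip x) * clip x = cfc (fun s => f s * s * f s) a := by
    rw [cfc_mul (fun s => f s * s) f a (hfc.mul continuousOn_id) hfc,
      cfc_mul f (fun s => s) a hfc continuousOn_id, cfc_id' ℝ a (IsSelfAdjoint.star_mul_self x),
      clip, star_mul, (cfc_predicate f a : IsSelfAdjoint _).star_eq]
    simp only [ha, hf, mul_assoc]
  have hle : star (clip x) * clip x ≤ 1 := by
    rw [e]
    refine cfc_le_one _ _ fun s hs => ?_
    simp only [hf]
    rw [mul_right_comm, ← mul_inv, Real.mul_self_sqrt (le_trans zero_le_one (le_max_left _ _)),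
      inv_mul_le_iff₀ (lt_of_lt_of_le one_pos (le_max_left _ _)), mul_one]
    exact le_max_right _ _
  have h := (CStarAlgebra.norm_le_one_iff_of_nonneg _ (star_mul_self_nonneg _)).2 hle
  rw [CStarRing.norm_star_mul_self] at h
  nlinarith [norm_nonneg (clip x)]

theorem commute_clip {x W : B} (h : Commute W x) (h' : Commute W (star x)) : Commute W (clip x) :=
  h.mul_right (((h'.mul_right h).symm.cfc_real _).symm)

theorem clip_eq {x : B} (hx : ‖x‖ ≤ 1) : clip x = x := by
  rcases subsingleton_or_nontrivial B with h | h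
  · exact Subsingleton.elim _ _
  rw [clip, cfc_congr (g := fun _ => (1 : ℝ)) fun s hs => ?_,
    cfc_const_one ℝ (star x * x) (IsSelfAdjoint.star_mul_self x), mul_one]
  have h1 := (le_abs_self s).trans (Real.norm_eq_abs s ▸ spectrum.norm_le_norm_of_mem hs)
  rw [CStarRing.norm_star_mul_self] at h1
  have : s ≤ 1 := by nlinarith [norm_nonneg x]
  simp [max_eq_left this]

end Vale.P095.McDuff
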