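import Vale.Agent.P095.Tracial.TraceIneq

/-!
# P095: labels made of commuting symmetries (owner: helper3)

`label u lam` is the ordered product of the spectral projections `(1 ± u b) / 2`. Commuting
symmetries give a partition of unity, and balance of each symmetry against what is built from the
later ones makes it a fair one.
-/

open Vale.P095.Tracial

namespace Vale.P095.McDuff

variable {B : Type*} [CStarAlgebra B]

/-- The spectral projection of a symmetry for a sign. -/
noncomputable def bit (x : B) (s : Bool) : B :=
  (1 / 2 : ℝ) • (if s then 1 + x else 1 - x)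

/-- The product of the projections of a word of signs. -/
noncomputable def label {M : ℕ} (u : Fin M → B) (lam : Fin M → Bool) : B :=
  (List.ofFn fun b => bit (u b) (lam b)).prod

theorem label_zero (u : Fin 0 → B) (lam : Fin 0 → Bool) : label u lam = 1 := by
  simp [label]

theorem label_succ {M : ℕ} (u : Fin (M + 1) → B) (lam : Fin (M + 1) → Bool) :
    label u lam = bit (u 0) (lam 0) * label (u ∘ Fin.succ) (lam ∘ Fin.succ) := by
  simp [label, List.ofFn_succ, Function.comp_def]

theorem bit_isSelfAdjoint {x : B} (hx : IsSelfAdjoint x) (s : Bool) : IsSelfAdjoint (bit x s) := by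
  refine IsSelfAdjoint.smul (IsSelfAdjoint.all _) ?_
  cases s
  · exact (IsSelfAdjoint.one B).sub hx
  · exact (IsSelfAdjoint.one B).add hx

theorem bit_mul_self {x : B} (hx : x * x = 1) (s : Bool) : bit x s * bit x s = bit x s := by
  cases s <;>
    simp [bit, smul_mul_assoc, mul_smul_comm, sub_mul, mul_sub, add_mul, mul_add, hx] <;> module

theorem bit_mul_not {x : B} (hx : x * x = 1) (s : Bool) : bit x s * bit x (!s) = 0 := by
  cases s <;>
    simp [bit, smul_mul_assoc, mul_smul_comm, sub_mul, mul_sub, add_mul, mul_add, hx] <;> module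

theorem bit_add_not (x : B) : bit x true + bit x false = 1 := by
  simp [bit]
  module

theorem commute_bit {W x : B} (h : Commute W x) (s : Bool) : Commute W (bit x s) := by
  cases s
  · exact ((Commute.one_right W).sub_right h).smul_right _
  · exact ((Commute.one_right W).add_right h).smul_right _

/-- Whatever commutes with all symmetries commutes with the labels. -/
theorem commute_label {M : ℕ} (u : Fin M → B) (lam : Fin M → Bool) {W : B}
    (hW : ∀ b, Commute W (u b)) : Commute W (label u lam) := by
  induction M with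
  | zero => simp [label_zero]
  | succ M ih =>
    rw [label_succ]
    exact (commute_bit (hW 0) _).mul_right (ih _ _ fun b => hW b.succ)

/-- The labels lie in every star subalgebra containing the symmetries. -/
theorem label_mem {M : ℕ} (u : Fin M → B) (lam : Fin M → Bool) (S : StarSubalgebra ℂ B)
    (hS : ∀ b, u b ∈ S) : label u lam ∈ S := by
  induction M with
  | zero => simp [label_zero, one_mem]
  | succ M ih =>
    rw [label_succ]
    refine mul_mem ?_ (ih _ _ fun b => hS b.succ)
    rw [bit, ← Complex.coe_smul]
    refine SMulMemClass.smul_mem _ ?_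
    split
    · exact add_mem (one_mem _) (hS 0)
    · exact sub_mem (one_mem _) (hS 0)

theorem map_label {C : Type*} [CStarAlgebra C] (φ : B →⋆ₐ[ℂ] C) {M : ℕ} (u : Fin M → B)
    (lam : Fin M → Bool) : φ (label u lam) = label (fun b => φ (u b)) lam := by
  induction M with
  | zero => simp [label_zero]
  | succ M ih =>
    rw [label_succ, label_succ, map_mul, ih]
    congr 1
    cases lam 0 <;> simp [bit, ← Complex.coe_smul, map_smul, map_add, map_sub]

section Commuting

variable {M : ℕ} {u : Fin M → B} (hc : ∀ b b', Commute (u b) (u b'))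

include hc

theorem label_isSelfAdjoint (hu : ∀ b, IsSelfAdjoint (u b)) (lam : Fin M → Bool) :
    IsSelfAdjoint (label u lam) := by
  induction M with
  | zero => simp [label_zero, IsSelfAdjoint.one]
  | succ M ih =>
    rw [label_succ]
    have hs := ih (u := u ∘ Fin.succ) (fun b b' => hc _ _) (fun b => hu _) (lam ∘ Fin.succ)
    refine ((bit_isSelfAdjoint (hu 0) _).commute_iff hs).1 ?_
    exact (commute_bit (commute_label _ _ fun b => hc 0 b.succ).symm _).symm

theorem label_mul_self (hu : ∀ b, u b * u b = 1) (lam : Fin M → Bool) :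
    label u lam * label u lam = label u lam := by
  induction M with
  | zero => simp [label_zero]
  | succ M ih =>
    rw [label_succ]
    have hcomm : Commute (label (u ∘ Fin.succ) (lam ∘ Fin.succ)) (bit (u 0) (lam 0)) :=
      commute_bit (commute_label _ _ fun b => hc 0 b.succ).symm _
    rw [hcomm.mul_mul_mul_comm, bit_mul_self (hu 0),
      ih (u := u ∘ Fin.succ) (fun b b' => hc _ _) (fun b => hu _)]

theorem label_mul_of_ne (hu : ∀ b, u b * u b = 1) {lam mu : Fin M → Bool} (h : lam ≠ mu) :
    label u lam * label u mu = 0 := by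
  induction M with
  | zero => exact absurd (Subsingleton.elim lam mu) h
  | succ M ih =>
    rw [label_succ, label_succ]
    have hcomm : Commute (label (u ∘ Fin.succ) (lam ∘ Fin.succ)) (bit (u 0) (mu 0)) :=
      commute_bit (commute_label _ _ fun b => hc 0 b.succ).symm _
    rw [hcomm.mul_mul_mul_comm]
    by_cases h0 : lam 0 = mu 0
    · have hne : lam ∘ Fin.succ ≠ mu ∘ Fin.succ := fun he =>
        h (funext fun b => Fin.cases h0 (fun i => congrFun he i) b)
      rw [ih (u := u ∘ Fin.succ) (fun b b' => hc _ _) (fun b => hu _) hne, mul_zero]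
    · rw [show mu 0 = !(lam 0) by revert h0; cases lam 0 <;> cases mu 0 <;> simp,
        bit_mul_not (hu 0), zero_mul]

end Commuting

/-- The labels add up to one, for any family. -/
theorem sum_label {M : ℕ} (u : Fin M → B) : ∑ lam, label u lam = 1 := by
  induction M with
  | zero => simp [label_zero]
  | succ M ih =>
    rw [← (Fin.consEquiv fun _ : Fin (M + 1) => Bool).sum_comp, Fintype.sum_prod_type]
    have e : ∀ (s : Bool) (l : Fin M → Bool),
        label u (Fin.consEquiv (fun _ : Fin (M + 1) => Bool) (s, l)) =
          bit (u 0) s * label (u ∘ Fin.succ) l := fun s l => by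
      rw [label_succ]
      simp [Fin.consEquiv, Function.comp_def]
    simp only [e, ← Finset.mul_sum, ih, mul_one, Fintype.sum_bool, bit_add_not]

/-- Fairness: it suffices that each symmetry is balanced against what is built from the later ones
and `W`. -/
theorem trace_label_mul {t : B →ₗ[ℝ] ℝ} (ht : IsTrace t) {M : ℕ} (u : Fin M → B)
    (lam : Fin M → Bool) (C : Fin M → StarSubalgebra ℂ B) (hu : ∀ b j, b < j → u j ∈ C b)
    (hbal : ∀ b, ∀ Z ∈ C b, t (Z * u b) = 0) {W : B} (hW : ∀ b, W ∈ C b) :
    t (label u lam * W) = t W / 2 ^ M := by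
  induction M with
  | zero => simp [label_zero]
  | succ M ih =>
    have hZ : label (u ∘ Fin.succ) (lam ∘ Fin.succ) * W ∈ C 0 :=
      mul_mem (label_mem _ _ _ fun b => hu 0 b.succ (Fin.succ_pos b)) (hW 0)
    have h0 : t (u 0 * (label (u ∘ Fin.succ) (lam ∘ Fin.succ) * W)) = 0 := by
      rw [ht.comm]
      exact hbal 0 _ hZ
    have hi := ih (u ∘ Fin.succ) (lam ∘ Fin.succ) (C ∘ Fin.succ)
      (fun b j hbj => hu _ _ (Fin.succ_lt_succ_iff.2 hbj)) (fun b => hbal b.succ) fun b => hW b.succ
    rw [label_succ, mul_assoc, bit, smul_mul_assoc, map_smul, smul_eq_mul]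
    cases lam 0
    · simp only [Bool.false_eq_true, ↓reduceIte, sub_mul, one_mul, map_sub, h0, hi]
      ring
    · simp only [↓reduceIte, add_mul, one_mul, map_add, h0, hi]
      ring

/-- Fairness in commutant form: each symmetry is balanced against the commutant of a self-adjoint
set `D b`, which commutes with `W` and with the later symmetries. -/
theorem trace_label_mul_of_commute {t : B →ₗ[ℝ] ℝ} (ht : IsTrace t) {M : ℕ} (u : Fin M → B)
    (lam : Fin M → Bool) (D : Fin M → Set B) (hD : ∀ b, ∀ x ∈ D b, star x ∈ D b)
    (hu : ∀ b j, b < j → ∀ x ∈ D b, Commute (u j) x)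
    (hbal : ∀ b Z, (∀ x ∈ D b, Commute Z x) → t (Z * u b) = 0) {W : B}
    (hW : ∀ b, ∀ x ∈ D b, Commute W x) : t (label u lam * W) = t W / 2 ^ M := by
  refine trace_label_mul ht u lam (fun b => StarSubalgebra.centralizer ℂ (D b))
    (fun b j hbj => ?_) (fun b Z hZ => hbal b Z fun x hx => ?_) fun b => ?_
  · refine (StarSubalgebra.mem_centralizer_iff ℂ).2 fun g hg => ⟨?_, ?_⟩
    · exact (hu b j hbj g hg).symm
    · exact (hu b j hbj _ (hD b g hg)).symm
  · exact (((StarSubalgebra.mem_centralizer_iff ℂ).1 hZ x hx).1).symm
  · refine (StarSubalgebra.mem_centralizer_iff ℂ).2 fun g hg => ⟨?_, ?_⟩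
    · exact (hW b g hg).symm
    · exact (hW b _ (hD b g hg)).symm

end Vale.P095.McDuff
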