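import Vale.Agent.P095.Tracial.TraceIneq

/-!
A faithful model of a limit of tracial functionals along a sequence (owner: helper13).
-/

open scoped BoundedContinuousFunction Topology ComplexOrder
open Vale.P095.Tracial Filter

namespace Vale.P095.McDuff

universe u

/-- A limit of normalised traces along a sequence, realised faithfully. -/
structure LimitModel {A : Type u} [CStarAlgebra A] (ts : ℕ → A →ₗ[ℝ] ℝ) where
  /-- The algebra. -/
  B : Type u
  /-- Its structure. -/
  [inst : CStarAlgebra B]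
  /-- The map from bounded sequences. -/
  π : (ℕ →ᵇ A) →⋆ₐ[ℂ] B
  /-- The trace. -/
  t : B →ₗ[ℝ] ℝ
  trace : IsTrace t
  one : t 1 = 1
  /-- The ultrafilter. -/
  ω : Ultrafilter ℕ
  free : (ω : Filter ℕ) ≤ atTop
  lim : ∀ y, Tendsto (fun n => ts n (y n)) ω (𝓝 (t (π y)))
  faithful : ∀ z : B, t (star z * z) = 0 → z = 0

attribute [instance] LimitModel.inst

section Construction

variable {A : Type u} [CStarAlgebra A]

/-- A normalised trace is bounded by the norm. -/
theorem abs_trace_le {τ : A →ₗ[ℝ] ℝ} (hτ : IsTrace τ) (h1 : τ 1 = 1) (a : A) : |τ a| ≤ ‖a‖ := by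
  let _ := CStarAlgebra.spectralOrder A
  have _ := CStarAlgebra.spectralOrderedRing A
  have hcs := hτ.cauchy_schwarz 1 a
  rw [star_one, one_mul, one_mul, h1, one_mul] at hcs
  have hmono : τ (star a * a) ≤ ‖a‖ * ‖a‖ := by
    have := hτ.mono (IsSelfAdjoint.star_mul_self a).le_algebraMap_norm_self
    rwa [Algebra.algebraMap_eq_smul_one, map_smul, h1, smul_eq_mul, mul_one,
      CStarRing.norm_star_mul_self] at this
  rw [abs_le]
  constructor <;> nlinarith [norm_nonneg a]

variable {ts : ℕ → A →ₗ[ℝ] ℝ} (ht : ∀ n, IsTrace (ts n)) (h : ∀ n, ts n 1 = 1)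
include ht h

theorem exists_limit (ω : Ultrafilter ℕ) (y : ℕ →ᵇ A) :
    ∃ L : ℝ, Tendsto (fun n => ts n (y n)) ω (𝓝 L) := by
  obtain ⟨L, -, hL⟩ := (isCompact_Icc (a := -‖y‖) (b := ‖y‖)).ultrafilter_le_nhds
    (ω.map fun n => ts n (y n)) (by
      rw [Ultrafilter.coe_map, Filter.le_principal_iff, Filter.mem_map]
      exact Filter.univ_mem' fun n =>
        abs_le.1 ((abs_trace_le (ht n) (h n) _).trans (y.norm_coe_le_norm n)))
  rw [Ultrafilter.coe_map] at hL
  exact ⟨L, hL⟩

/-- The limit functional, complexified. -/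
theorem exists_limit_functional (ω : Ultrafilter ℕ) :
    ∃ f : (ℕ →ᵇ A) →ₗ[ℂ] ℂ,
      (∀ y, Tendsto (fun n => ts n (y n)) ω (𝓝 (f y).re)) ∧
      (∀ x y, f (x * y) = f (y * x)) ∧ (∀ y, (f (star y)).re = (f y).re) ∧
      (∀ y, 0 ≤ (f (star y * y)).re ∧ (f (star y * y)).im = 0) ∧ (f 1).re = 1 ∧ (f 1).im = 0 := by
  choose L hL using exists_limit ht h ω
  have uniq : ∀ (y : ℕ →ᵇ A) {c : ℝ}, Tendsto (fun n => ts n (y n)) ω (𝓝 c) → L y = c := fun y c hc =>
    tendsto_nhds_unique (hL y) hc
  have ladd : ∀ x y, L (x + y) = L x + L y := fun x y => uniq _ (by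
    simpa [map_add] using (hL x).add (hL y))
  have lsmul : ∀ (r : ℝ) y, L (r • y) = r * L y := fun r y => uniq _ (by
    simpa [map_smul] using (hL y).const_mul r)
  have lcomm : ∀ x y, L (x * y) = L (y * x) := fun x y => uniq _ (by
    simpa [(ht _).comm (x _)] using hL (y * x))
  have lstar : ∀ y, L (star y) = L y := fun y => uniq _ (by
    simpa [(ht _).map_star] using hL y)
  have lI : ∀ y, star y = y → L (Complex.I • y) = 0 := fun y hy => by
    have e := lstar (Complex.I • y)
    rw [star_smul, hy, Complex.star_def, Complex.conj_I, neg_smul, ← neg_one_smul ℝ (Complex.I • y),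
      lsmul] at e
    linarith
  have lnn : ∀ y, 0 ≤ L (star y * y) := fun y =>
    ge_of_tendsto' (hL _) fun n => by simpa using (ht n).nonneg (y n)
  have lsm : ∀ (c : ℂ) y, L (c • y) = c.re * L y + c.im * L (Complex.I • y) := fun c y => by
    rw [show c • y = c.re • y + c.im • (Complex.I • y) by
      rw [← Complex.coe_smul, ← Complex.coe_smul, smul_smul, ← add_smul, Complex.re_add_im],
      ladd, lsmul, lsmul]
  have lone : L 1 = 1 := uniq _ (by simp [h])
  refine ⟨{ toFun := fun y => ⟨L y, -L (Complex.I • y)⟩, map_add' := ?_, map_smul' := ?_ },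
    fun y => hL y, fun x y => ?_, fun y => lstar y, fun y => ⟨lnn y, ?_⟩, lone, ?_⟩
  · intro x y
    apply Complex.ext <;> simp [smul_add, ladd]
    ring
  · intro c y
    apply Complex.ext
    · simp [lsm c y]
    · simp [smul_smul, lsm (Complex.I * c) y]
  · apply Complex.ext
    · exact lcomm x y
    · show -L (Complex.I • (x * y)) = -L (Complex.I • (y * x))
      rw [← smul_mul_assoc, lcomm, mul_smul_comm]
  · show -L (Complex.I • (star y * y)) = 0
    rw [lI _ (by rw [star_mul, star_star]), neg_zero]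
  · show -L (Complex.I • (1 : ℕ →ᵇ A)) = 0
    rw [lI _ (star_one _), neg_zero]

omit ht h in
/-- The closure of a representation with a cyclic vector giving a trace is a faithful model. -/
theorem exists_model_of_cyclic {X H : Type u} [CStarAlgebra X] [NormedAddCommGroup H]
    [InnerProductSpace ℂ H] [CompleteSpace H] (ρ : X →⋆ₐ[ℂ] (H →L[ℂ] H)) (ξ : H) (f : X → ℂ)
    (hf : ∀ y, inner ℂ ξ (ρ y ξ) = f y) (hcyc : DenseRange fun y => ρ y ξ)
    (hcomm : ∀ x y, f (x * y) = f (y * x)) :
    ∃ (B : Type u) (_ : CStarAlgebra B) (π : X →⋆ₐ[ℂ] B) (t : B →ₗ[ℝ] ℝ), IsTrace t ∧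
      (∀ y, t (π y) = (f y).re) ∧ ∀ z : B, t (star z * z) = 0 → z = 0 := by
  let S : StarSubalgebra ℂ (H →L[ℂ] H) := ρ.range.topologicalClosure
  have : IsClosed (S : Set (H →L[ℂ] H)) := StarSubalgebra.isClosed_topologicalClosure _
  let π : X →⋆ₐ[ℂ] S := ρ.codRestrict S fun y =>
    StarSubalgebra.le_topologicalClosure _ ⟨y, rfl⟩
  have hdense : DenseRange π := by
    intro b
    rw [Topology.IsInducing.subtypeVal.closure_eq_preimage_closure_image, Set.mem_preimage,
      ← Set.range_comp]
    exact b.2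
  let e : (H →L[ℂ] H) →ₗ[ℝ] ℝ :=
    { toFun := fun b => (inner ℂ ξ (b ξ)).re
      map_add' := fun a b => by simp [inner_add_right]
      map_smul' := fun r b => by
        rw [← Complex.coe_smul, smul_apply, inner_smul_right]
        simp }
  let t : S →ₗ[ℝ] ℝ := e.comp (S.subtype.toAlgHom.toLinearMap.restrictScalars ℝ)
  have htv : ∀ b : S, t b = (inner ℂ ξ ((b : H →L[ℂ] H) ξ)).re := fun b => rfl
  have htc : Continuous t := by
    have h' : ⇑t = fun b : S => (inner ℂ ξ ((b : H →L[ℂ] H) ξ)).re := funext htv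
    rw [h']
    fun_prop
  have hval : ∀ y, ((π y : S) : H →L[ℂ] H) = ρ y := fun y => rfl
  have htπ : ∀ y, t (π y) = (f y).re := fun y => by rw [htv, hval, hf]
  have hnn : ∀ z : S, t (star z * z) = ‖(z : H →L[ℂ] H) ξ‖ ^ 2 := fun z => by
    rw [htv, MulMemClass.coe_mul, StarMemClass.coe_star, mul_apply_eq_comp,
      ContinuousLinearMap.star_eq_adjoint, ContinuousLinearMap.adjoint_inner_right,
      ← RCLike.re_to_complex, inner_self_eq_norm_sq]
  have hstar : ∀ z : S, t (star z) = t z := fun z => by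
    rw [htv, htv, StarMemClass.coe_star, ContinuousLinearMap.star_eq_adjoint,
      ContinuousLinearMap.adjoint_inner_right, ← inner_conj_symm, Complex.conj_re]
  have htr : IsTrace t := by
    refine ⟨fun z => by rw [hnn]; positivity, fun a b => ?_, hstar⟩
    refine DenseRange.induction_on₂ (p := fun v w : S => t (v * w) = t (w * v)) hdense
      (isClosed_eq (htc.comp (continuous_fst.mul continuous_snd))
        (htc.comp (continuous_snd.mul continuous_fst))) (fun x y => ?_) a b
    show t (π x * π y) = t (π y * π x)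
    rw [← map_mul, ← map_mul, htπ, htπ, hcomm]
  refine ⟨S, inferInstance, π, t, htr, htπ, fun z hz => ?_⟩
  let _ := CStarAlgebra.spectralOrder S
  have _ := CStarAlgebra.spectralOrderedRing S
  have hzero : ∀ p : S, ((z * p : S) : H →L[ℂ] H) ξ = 0 := fun p => by
    have hcs := htr.cauchy_schwarz (z * (p * star p)) z
    rw [hz, mul_zero] at hcs
    have e : t (star (z * (p * star p)) * z) = t (star (z * p) * (z * p)) := by
      rw [star_mul, star_mul, star_star, star_mul,
        show p * star p * star z * z = p * (star p * star z * z) by simp only [mul_assoc],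
        htr.comm, mul_assoc _ z p]
    rw [e] at hcs
    have h0 : t (star (z * p) * (z * p)) = 0 :=
      pow_eq_zero_iff two_ne_zero |>.1 (le_antisymm hcs (sq_nonneg _))
    rw [hnn] at h0
    simpa using h0
  apply Subtype.ext
  apply ContinuousLinearMap.ext
  intro v
  refine hcyc.induction_on v (isClosed_eq (by fun_prop) (by fun_prop)) fun y => ?_
  have := hzero (π y)
  rw [MulMemClass.coe_mul, mul_apply_eq_comp, hval] at this
  simpa using this

omit ht h in
/-- A tracial positive functional has a faithful model. -/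
theorem exists_faithful_model {X : Type u} [CStarAlgebra X] [PartialOrder X] [StarOrderedRing X]
    (φ : X →ₚ[ℂ] ℂ) (hcomm : ∀ x y, φ (x * y) = φ (y * x)) :
    ∃ (B : Type u) (_ : CStarAlgebra B) (π : X →⋆ₐ[ℂ] B) (t : B →ₗ[ℝ] ℝ), IsTrace t ∧
      (∀ y, t (π y) = (φ y).re) ∧ ∀ z : B, t (star z * z) = 0 → z = 0 := by
  have hgns : ∀ y, φ.gnsStarAlgHom y (φ.toPreGNS 1 : φ.GNS) = (φ.toPreGNS y : φ.GNS) := fun y => by
    show φ.gnsNonUnitalStarAlgHom y (φ.toPreGNS 1 : φ.GNS) = _
    rw [PositiveLinearMap.gnsNonUnitalStarAlgHom_apply_coe]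
    simp
  refine exists_model_of_cyclic φ.gnsStarAlgHom (φ.toPreGNS 1 : φ.GNS) (fun y => φ y) (fun y => ?_) ?_
    hcomm
  · rw [hgns, UniformSpace.Completion.inner_coe, PositiveLinearMap.preGNS_inner_def]
    simp
  · simp only [hgns]
    exact (UniformSpace.Completion.denseRange_coe).comp (φ.toPreGNS.surjective.denseRange)
      (UniformSpace.Completion.continuous_coe _)

theorem exists_limitModel_aux (ω : Ultrafilter ℕ) (hω : (ω : Filter ℕ) ≤ atTop) :
    Nonempty (LimitModel ts) := by
  obtain ⟨f, hlim, hcomm, hstar, hnn, h1, h1'⟩ := exists_limit_functional ht h ω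
  let _ := CStarAlgebra.spectralOrder (ℕ →ᵇ A)
  have _ := CStarAlgebra.spectralOrderedRing (ℕ →ᵇ A)
  let φ : (ℕ →ᵇ A) →ₚ[ℂ] ℂ := PositiveLinearMap.mk₀ f fun x hx => by
    have e : f x = f (star (CFC.sqrt x) * CFC.sqrt x) := by
      rw [(CFC.sqrt_nonneg x).isSelfAdjoint.star_eq, CFC.sqrt_mul_sqrt_self x hx]
    rw [e, Complex.nonneg_iff]
    exact ⟨(hnn _).1, (hnn _).2.symm⟩
  obtain ⟨B, _, π, t, htr, htπ, hf⟩ := exists_faithful_model φ hcomm
  have htf : ∀ y, t (π y) = (f y).re := htπ
  exact ⟨{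
    B := B
    π := π
    t := t
    trace := htr
    one := by rw [← map_one π, htf, h1]
    ω := ω
    free := hω
    lim := fun y => by rw [htf]; exact hlim y
    faithful := hf }⟩

end Construction

theorem exists_limitModel {A : Type u} [CStarAlgebra A] (ts : ℕ → A →ₗ[ℝ] ℝ) (ht : ∀ n, IsTrace (ts n))
    (h : ∀ n, ts n 1 = 1) :
    Nonempty (LimitModel ts) :=
  exists_limitModel_aux ht h (Filter.hyperfilter ℕ)
    ((Filter.hyperfilter_le_cofinite).trans Nat.cofinite_eq_atTop.le)

end Vale.P095.McDuff
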