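import Vale.Agent.P095.Nonunital.Gamma
import Vale.Agent.P095.McDuff.Cover
import Vale.Agent.P095.McDuff.Labels
import Vale.Agent.P095.McDuff.Model

/-!
# P095: a copy of the two by two matrices modulo traces (owner: helper19)

Both stages work by contradiction in the faithful model of a sequence of bad traces: almost
projections of mass bounded below by slicing, then the exhaustion of the unit by commuting copies.
-/

open scoped BoundedContinuousFunction Topology
open Filter Vale.P101
open Vale.P095.Tracial (IsTrace)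
open Vale.P095.Nonunital

noncomputable section

namespace Vale.P095.McDuff

/-! ## Sequences and models -/

section Seq

variable {A : Type*} [CStarAlgebra A]

/-- A sequence of contractions. -/
def seqOf (f : ℕ → A) (h : ∀ n, ‖f n‖ ≤ 1) : ℕ →ᵇ A :=
  BoundedContinuousFunction.ofNormedAddCommGroup f continuous_of_discreteTopology 1 h

@[simp] theorem seqOf_apply (f : ℕ → A) (h : ∀ n, ‖f n‖ ≤ 1) (n : ℕ) : seqOf f h n = f n := rfl

/-- Evaluation. -/
def evalHom (n : ℕ) : (ℕ →ᵇ A) →⋆ₐ[ℂ] A where
  toFun f := f n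
  map_one' := rfl
  map_mul' _ _ := rfl
  map_zero' := rfl
  map_add' _ _ := rfl
  commutes' _ := rfl
  map_star' _ := rfl

@[simp] theorem evalHom_apply (n : ℕ) (f : ℕ →ᵇ A) : evalHom n f = f n := rfl

/-- The constant sequences. -/
def constHom : A →⋆ₐ[ℂ] (ℕ →ᵇ A) where
  toFun a := BoundedContinuousFunction.const ℕ a
  map_one' := rfl
  map_mul' _ _ := rfl
  map_zero' := rfl
  map_add' _ _ := rfl
  commutes' _ := rfl
  map_star' _ := rfl

@[simp] theorem constHom_apply (a : A) (n : ℕ) : constHom a n = a := rfl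

theorem commute_seq {f g : ℕ →ᵇ A} (h : ∀ n, Commute (f n) (g n)) : Commute f g :=
  BoundedContinuousFunction.ext fun n => h n

variable {ts : ℕ → A →ₗ[ℝ] ℝ} (L : LimitModel ts)

theorem LimitModel.eq_zero_of_le {y : ℕ →ᵇ A}
    (h : ∀ n : ℕ, ts n (star (y n) * y n) ≤ 1 / ((n : ℝ) + 1)) : L.π y = 0 := by
  refine L.faithful _ (le_antisymm ?_ (L.trace.nonneg _))
  rw [← map_star L.π, ← map_mul L.π]
  refine le_of_tendsto_of_tendsto' (L.lim (star y * y))
    ((tendsto_one_div_add_atTop_nhds_zero_nat (𝕜 := ℝ)).mono_left L.free) fun n => h n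

end Seq

section Traces

variable {B : Type*} [CStarAlgebra B]

attribute [local instance] CStarAlgebra.spectralOrder CStarAlgebra.spectralOrderedRing

theorem trace_eq_zero {t : B →ₗ[ℝ] ℝ} (ht : IsTrace t) (h : t 1 = 0) (x : B) : t x = 0 := by
  have h2 := ht.cauchy_schwarz 1 x
  rw [star_one, one_mul, one_mul, h, zero_mul] at h2
  exact pow_eq_zero_iff two_ne_zero |>.1 (le_antisymm h2 (sq_nonneg _))

theorem trace_smul {t : B →ₗ[ℝ] ℝ} (ht : IsTrace t) {r : ℝ} (hr : 0 ≤ r) : IsTrace (r • t) where
  nonneg x := by simpa using mul_nonneg hr (ht.nonneg x)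
  comm x y := by simp [ht.comm x y]
  map_star x := by simp [ht.map_star x]

theorem sq_le_self_of_mem {x : B} (h0 : 0 ≤ x) (h1 : x ≤ 1) : x * x ≤ x := by
  have h : Commute x (1 - x) := (Commute.one_right x).sub_right (Commute.refl x)
  have h2 : 0 ≤ x * (1 - x) := h.mul_nonneg h0 (sub_nonneg.2 h1)
  rw [mul_sub, mul_one, sub_nonneg] at h2
  exact h2

/-- A defect of a contraction dominates its square. -/
theorem sq_defect_le {x : B} (hx : ‖x‖ ≤ 1) :
    star (1 - star x * x) * (1 - star x * x) ≤ 1 - star x * x ∧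
      star (star x * x - star x * x * (star x * x)) * (star x * x - star x * x * (star x * x)) ≤
        star x * x - star x * x * (star x * x) := by
  set p := star x * x with hp
  have hp0 : 0 ≤ p := star_mul_self_nonneg x
  have hp1 : p ≤ 1 := (CStarAlgebra.norm_le_one_iff_of_nonneg p hp0).1 (by
    rw [hp, CStarRing.norm_star_mul_self]; nlinarith [norm_nonneg x])
  have hq : 0 ≤ p - p * p := sub_nonneg.2 (sq_le_self_of_mem hp0 hp1)
  have hpp : 0 ≤ p * p := by
    simpa [hp0.isSelfAdjoint.star_eq] using star_mul_self_nonneg p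
  constructor
  · rw [(sub_nonneg.2 hp1).isSelfAdjoint.star_eq]
    exact sq_le_self_of_mem (sub_nonneg.2 hp1) (sub_le_self _ hp0)
  · rw [hq.isSelfAdjoint.star_eq]
    exact sq_le_self_of_mem hq ((sub_le_self _ hpp).trans hp1)

end Traces

/-! ## Fair symmetries in the model -/

section Symmetries

variable {A R : Type*} [CStarAlgebra A] [CStarAlgebra R] {ts : ℕ → A →ₗ[ℝ] ℝ}

theorem model_symmetries (hts : ∀ n, IsTrace (ts n)) (hts1 : ∀ n, ts n 1 = 1) (L : LimitModel ts)
    {M : ℕ} (π : Option (Fin M) → (R →⋆ₐ[ℂ] A))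
    (hπ : ∀ i j, i ≠ j → ∀ a b, Commute (π i a) (π j b)) (s : ℕ → R)
    (hssa : ∀ n, IsSelfAdjoint (s n)) (hs1 : ∀ n, ‖s n‖ ≤ 1)
    (hst : ∀ n, ∀ t : R →ₗ[ℝ] ℝ, IsTrace t →
      t (s n) = 0 ∧ t (1 - s n * s n) ≤ 1 / ((n : ℝ) + 1) * t 1)
    (U : Fin M → (ℕ →ᵇ A)) (hU : ∀ b n, U b n = π (some b) (s n)) (y : R) :
    (∀ b b', Commute (L.π (U b)) (L.π (U b'))) ∧ (∀ b, IsSelfAdjoint (L.π (U b))) ∧
      (∀ b, L.π (U b) * L.π (U b) = 1) ∧
      (∀ b, Commute (L.π (U b)) (L.π (constHom (π none y)))) ∧
      ∀ (lam : Fin M → Bool) (f : ℝ → ℝ), Continuous f →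
        L.t (label (fun b => L.π (U b)) lam *
            cfc f (star (L.π (constHom (π none y))) * L.π (constHom (π none y)))) =
          L.t (cfc f (star (L.π (constHom (π none y))) * L.π (constHom (π none y)))) / 2 ^ M := by
  have hsa : ∀ b n, IsSelfAdjoint (U b n) := fun b n => by
    rw [hU]; exact (hssa n).map _
  refine ⟨fun b b' => ?_, fun b => ?_, fun b => ?_, fun b => ?_, fun lam f hf => ?_⟩
  · rcases eq_or_ne b b' with rfl | hne
    · exact Commute.refl _
    · refine (commute_seq fun n => ?_).map L.π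
      rw [hU, hU]
      exact hπ _ _ (by simpa using hne) _ _
  · exact IsSelfAdjoint.map (BoundedContinuousFunction.ext fun n => hsa b n) L.π
  · have h0 : L.π (1 - U b * U b) = 0 := by
      refine L.eq_zero_of_le fun n => ?_
      show ts n (star (1 - U b n * U b n) * (1 - U b n * U b n)) ≤ _
      let _ := CStarAlgebra.spectralOrder A
      have _ := CStarAlgebra.spectralOrderedRing A
      have h2 := (hst n _ ((hts n).pull (π (some b)))).2
      simp only [Vale.P095.Tracial.pullLin_apply, map_one, map_sub, map_mul, hts1, mul_one,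
        ← hU b n] at h2
      have h3 := (sq_defect_le (x := U b n) (by
        rw [hU]; exact (NonUnitalStarAlgHom.norm_apply_le _ _).trans (hs1 n))).1
      rw [(hsa b n).star_eq] at h3
      refine ((hts n).mono h3).trans ?_
      simpa [map_sub, hts1] using h2
    rw [map_sub L.π, map_one, map_mul L.π, sub_eq_zero] at h0
    exact h0.symm
  · refine (commute_seq fun n => ?_).map L.π
    rw [hU, constHom_apply]
    exact hπ _ _ (by simp) _ _
  · let φ : R →⋆ₐ[ℂ] L.B := L.π.comp (constHom.comp (π none))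
    let C : Fin M → StarSubalgebra ℂ L.B := fun b =>
      (StarSubalgebra.centralizer ℂ (Set.range fun a : R => constHom (π (some b) a))).map L.π
    have hmemC : ∀ b (w : ℕ →ᵇ A), (∀ n a, Commute (w n) (π (some b) a)) → L.π w ∈ C b := by
      intro b w hw
      refine ⟨w, (StarSubalgebra.mem_centralizer_iff ℂ).2 ?_, rfl⟩
      rintro _ ⟨a, rfl⟩
      refine ⟨(commute_seq fun n => (hw n a).symm).eq, ?_⟩
      rw [← map_star constHom, ← map_star (π (some b))]
      exact (commute_seq fun n => (hw n _).symm).eq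
    have hc : cfc f (star (φ y) * φ y) = φ (cfc f (star y * y)) := by
      rw [← map_star, ← map_mul]
      exact (StarAlgHomClass.map_cfc φ f (star y * y) hf.continuousOn (continuous_starAlgHom φ)
        (IsSelfAdjoint.star_mul_self y) ((IsSelfAdjoint.star_mul_self y).map φ)).symm
    show L.t (label (fun b => L.π (U b)) lam * cfc f (star (φ y) * φ y)) =
      L.t (cfc f (star (φ y) * φ y)) / 2 ^ M
    rw [hc]
    refine trace_label_mul L.trace _ lam C (fun b j hbj => hmemC b _ fun n a => ?_) ?_ fun b =>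
      hmemC b _ fun n a => ?_
    · rw [hU]; exact hπ _ _ (by simpa using hbj.ne') _ _
    · rintro b _ ⟨w, hw, rfl⟩
      show L.t (L.π w * L.π (U b)) = 0
      rw [← map_mul]
      refine tendsto_nhds_unique (L.lim (w * U b)) (tendsto_const_nhds.congr fun n => ?_)
      symm
      show ts n (w n * U b n) = 0
      rw [hU]
      refine (hts n).balanced_mul (π (some b)) (hssa n) (fun t ht => (hst n t ht).1) fun a => ?_
      have := ((StarSubalgebra.mem_centralizer_iff ℂ).1 hw _ ⟨a, rfl⟩).1
      exact (congrArg (fun g : ℕ →ᵇ A => g n) this).symm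
    · exact hπ none (some b) (by simp) _ _

end Symmetries

/-! ## The two stages -/

section Stages

variable {G : Type*} [Group G] [Countable G] {E : Type*} [CStarAlgebra E] {sys : Sys G E}

/-- Countably many subalgebras lie in one. -/
theorem exists_sub_iUnion (S : ℕ → Sub sys) :
    ∃ (T : Sub sys) (ι : ∀ n, (S n).S →⋆ₐ[ℂ] T.S), ∀ n x, ((ι n x : T.S) : E) = (x : E) := by
  choose D hDS hD hSD using fun n => (S n).sep.exists_countable_dense_subset
  obtain ⟨T, hT⟩ := exists_sub_of_countable sys (⋃ n, D n) (Set.countable_iUnion hD)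
  have hle : ∀ n, (S n).S ≤ T.S := fun n x hx =>
    closure_minimal ((Set.subset_iUnion D n).trans hT) T.closed (hSD n hx)
  exact ⟨T, fun n => StarSubalgebra.inclusion (hle n), fun n x => rfl⟩

/-- Stage A: almost projections with mass bounded below. -/
def ProjAt (sys : Sys G E) (c δ : ℝ) : Prop :=
  ∃ (S : Sub sys) (z : S.S), ‖z‖ ≤ 1 ∧ ∀ t : S.S →ₗ[ℝ] ℝ, IsTrace t →
    t (star (z * z) * (z * z)) ≤ δ * t 1 ∧
    t (star (star z * z - star z * z * (star z * z)) * (star z * z - star z * z * (star z * z)))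
      ≤ δ * t 1 ∧
    c * t 1 ≤ t (star z * z)

theorem exists_lower (sys : Sys G E) (h : NoCharacters E) :
    ∃ (S : Sub sys) (y : S.S), y * y = 0 ∧ ‖y‖ ≤ 1 ∧ ∃ c : ℝ, 0 < c ∧
      ∀ t : S.S →ₗ[ℝ] ℝ, IsTrace t → c * t 1 ≤ t (star y * y) := by
  obtain ⟨y, hy, hfy⟩ := exists_full_square_zero sys.copyProp (full_of_noCharacters h)
  obtain ⟨n, u, s, v, hs, hsum⟩ := Full.exists_sum hfy
  simp only [Set.mem_singleton_iff] at hs
  simp only [hs] at hsum
  obtain ⟨S, hS⟩ := exists_sub_of_countable sys ({y} ∪ Set.range u ∪ Set.range v)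
    (((Set.finite_singleton y).union (Set.finite_range u)).union (Set.finite_range v)).countable
  let y' : S.S := ⟨y, hS (Or.inl (Or.inl rfl))⟩
  let u' : Fin n → S.S := fun i => ⟨u i, hS (Or.inl (Or.inr ⟨i, rfl⟩))⟩
  let v' : Fin n → S.S := fun i => ⟨v i, hS (Or.inr ⟨i, rfl⟩)⟩
  set w : S.S := ∑ i, v' i * u' i with hw
  set a : ℝ := ‖y'‖ + 1 with ha
  have ha0 : 0 < a := by positivity
  set k : ℝ := ‖w * star w‖ + 1 with hk
  have hk0 : 0 < k := by positivity
  have hy' : y' * y' = 0 := Subtype.ext hy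
  refine ⟨S, a⁻¹ • y', ?_, ?_, 1 / (k * a ^ 2), by positivity, fun t ht => ?_⟩
  · rw [smul_mul_smul_comm, hy', smul_zero]
  · rw [norm_smul, Real.norm_eq_abs, abs_of_pos (inv_pos.2 ha0), inv_mul_le_iff₀ ha0, mul_one, ha]
    linarith
  let _ := CStarAlgebra.spectralOrder S.S
  have _ := CStarAlgebra.spectralOrderedRing S.S
  have h1 : t 1 = t (w * y') := by
    have e : ∑ i, u' i * y' * v' i = 1 := Subtype.ext (by
      simp only [AddSubmonoidClass.coe_finsetSum, OneMemClass.coe_one, MulMemClass.coe_mul, u', v',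
        y']
      exact hsum)
    rw [← e, hw, Finset.sum_mul, map_sum, map_sum]
    exact Finset.sum_congr rfl fun i _ => by rw [ht.comm, mul_assoc]
  have hcs : t 1 ^ 2 ≤ k * t 1 * t (star y' * y') := by
    have h := ht.cauchy_schwarz (star w) y'
    rw [star_star, ← h1] at h
    refine h.trans (mul_le_mul_of_nonneg_right ?_ (ht.nonneg y'))
    have hwle := ht.mono (IsSelfAdjoint.mul_star_self w).le_algebraMap_norm_self
    rw [Algebra.algebraMap_eq_smul_one, map_smul, smul_eq_mul] at hwle
    exact hwle.trans (mul_le_mul_of_nonneg_right (by linarith) ht.one_nonneg)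
  rw [star_smul, star_trivial, smul_mul_smul_comm, map_smul, smul_eq_mul]
  rcases ht.one_nonneg.eq_or_lt with h0 | h0
  · rw [← h0, mul_zero]
    exact mul_nonneg (by positivity) (ht.nonneg y')
  · have hta : t 1 ≤ k * t (star y' * y') := by nlinarith
    calc 1 / (k * a ^ 2) * t 1 ≤ 1 / (k * a ^ 2) * (k * t (star y' * y')) := by gcongr
      _ = a⁻¹ * a⁻¹ * t (star y' * y') := by field_simp

theorem projAt (sys : Sys G E) (h : NoCharacters E) :
    ∃ c : ℝ, 0 < c ∧ ∀ δ : ℝ, 0 < δ → ProjAt sys c δ := by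
  obtain ⟨S₀, y, hy, hy1, c, hc, hlow⟩ := exists_lower sys h
  refine ⟨c / 2, half_pos hc, fun δ hδ => ?_⟩
  by_contra hbad
  obtain ⟨M, hM⟩ := exists_nat_gt (2 / δ)
  set V : ℕ := 2 ^ M with hV
  have hV0 : 0 < V := by positivity
  have hVδ : 2 / (V : ℝ) < δ := by
    have h2 : (M : ℝ) < V := by exact_mod_cast Nat.lt_two_pow_self
    rw [div_lt_iff₀ (by exact_mod_cast hV0)]
    rw [div_lt_iff₀ hδ] at hM
    nlinarith
  choose P s hssa hs1 hst using fun n : ℕ =>
    exists_payload sys h (show (0 : ℝ) < 1 / ((n : ℝ) + 1) by positivity)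
  obtain ⟨T, ι, hι⟩ := exists_sub_iUnion (fun n => Nat.casesOn n S₀ P)
  let ι₀ : S₀.S →⋆ₐ[ℂ] T.S := ι 0
  let ι' : ∀ n, (P n).S →⋆ₐ[ℂ] T.S := fun n => ι (n + 1)
  obtain ⟨S', π, hπ, -⟩ := exists_copies T (Option (Fin M))
  let Y : ℕ →ᵇ S'.S := constHom (π none (ι₀ y))
  let U : Fin M → (ℕ →ᵇ S'.S) := fun b => seqOf (fun n => π (some b) (ι' n (s n))) fun n =>
    ((NonUnitalStarAlgHom.norm_apply_le _ _).trans (NonUnitalStarAlgHom.norm_apply_le _ _)).trans
      (hs1 n)
  let e : Fin V ≃ (Fin M → Bool) := (Fintype.equivFinOfCardEq (by simp [hV])).symm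
  let Z : ℕ →ᵇ S'.S := clip (sliced (fun k => label U (e k)) Y)
  have hZ1 : ∀ n, ‖Z n‖ ≤ 1 := fun n => by
    rw [← evalHom_apply n Z, map_clip]; exact norm_clip_le _
  have hex : ∀ n, ∃ t : S'.S →ₗ[ℝ] ℝ, IsTrace t ∧ t 1 = 1 ∧
      ¬(t (star (Z n * Z n) * (Z n * Z n)) ≤ δ ∧
        t (star (star (Z n) * Z n - star (Z n) * Z n * (star (Z n) * Z n)) *
          (star (Z n) * Z n - star (Z n) * Z n * (star (Z n) * Z n))) ≤ δ ∧
        c / 2 ≤ t (star (Z n) * Z n)) := by
    intro n
    have hb : ¬∀ t : S'.S →ₗ[ℝ] ℝ, IsTrace t →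
        t (star (Z n * Z n) * (Z n * Z n)) ≤ δ * t 1 ∧
        t (star (star (Z n) * Z n - star (Z n) * Z n * (star (Z n) * Z n)) *
          (star (Z n) * Z n - star (Z n) * Z n * (star (Z n) * Z n))) ≤ δ * t 1 ∧
        c / 2 * t 1 ≤ t (star (Z n) * Z n) := fun hh => hbad ⟨S', Z n, hZ1 n, hh⟩
    push Not at hb
    obtain ⟨t, ht, hb⟩ := hb
    have h1 : 0 < t 1 := by
      rcases (Vale.P095.Tracial.one_nonneg_of ht).eq_or_lt with h0 | h0
      · exfalso
        simp only [trace_eq_zero ht h0.symm, mul_zero, le_refl, lt_irrefl, forall_const] at hb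
      · exact h0
    refine ⟨(t 1)⁻¹ • t, trace_smul ht (inv_nonneg.2 h1.le), by simp [h1.ne'], fun hh => ?_⟩
    simp only [LinearMap.smul_apply, smul_eq_mul, inv_mul_le_iff₀ h1, le_inv_mul_iff₀ h1] at hh
    have := hb (by linarith [hh.1]) (by linarith [hh.2.1])
    linarith [hh.2.2]
  choose ts hts hts1 hnot using hex
  obtain ⟨L⟩ := exists_limitModel ts hts hts1
  obtain ⟨hc2, hsa, hu1, huy, hfair⟩ := model_symmetries hts hts1 L π hπ (fun n => ι' n (s n))
    (fun n => (hssa n).map _) (fun n => (NonUnitalStarAlgHom.norm_apply_le _ _).trans (hs1 n))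
    (fun n t ht => by
      have := hst n _ (ht.pull (ι' n))
      simpa [Vale.P095.Tracial.pullLin_apply, map_sub, map_mul, map_one] using this)
    U (fun b n => rfl) (ι₀ y)
  set Yb := L.π Y with hYb
  set q : Fin V → L.B := fun k => label (fun b => L.π (U b)) (e k) with hq
  have hqs : ∀ k, IsSelfAdjoint (q k) := fun k => label_isSelfAdjoint hc2 hsa _
  have hqq : ∀ k, q k * q k = q k := fun k => label_mul_self hc2 hu1 _
  have hqo : ∀ j k, j ≠ k → q j * q k = 0 := fun j k hjk =>
    label_mul_of_ne hc2 hu1 fun he => hjk (e.injective he)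
  have hq1 : ∑ k, q k = 1 := by
    rw [hq, e.sum_comp (fun l => label (fun b => L.π (U b)) l)]; exact sum_label _
  have hqy : ∀ k, Commute (q k) Yb := fun k => (commute_label _ _ fun b => (huy b).symm).symm
  have hy2 : Yb * Yb = 0 := by
    rw [hYb, ← map_mul, ← map_mul, ← map_mul, ← map_mul, hy, map_zero, map_zero, map_zero, map_zero]
  have hyn : ‖Yb‖ ≤ 1 :=
    (((NonUnitalStarAlgHom.norm_apply_le _ _).trans (NonUnitalStarAlgHom.norm_apply_le _ _)).trans
      ((NonUnitalStarAlgHom.norm_apply_le _ _).trans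
        (NonUnitalStarAlgHom.norm_apply_le _ _))).trans hy1
  have hfair' : ∀ (k : Fin V) (f : ℝ → ℝ), Continuous f →
      L.t (q k * cfc f (star Yb * Yb)) = L.t (cfc f (star Yb * Yb)) / V := fun k f hf => by
    rw [show (V : ℝ) = 2 ^ M by simp [hV]]
    exact hfair (e k) f hf
  have hz2 := sliced_sq hV0 hqs hqy hy2
  have hz1 := norm_sliced_le hV0 hqs hqq hqo hqy hq1
  have hzt := trace_sliced hV0 hqs hqq hqo hqy hyn hfair'
  have hzp := trace_sliced_near hV0 hqs hqq hqo hqy L.trace hfair'
  have hZb : L.π Z = sliced q Yb := by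
    show L.π (clip (sliced (fun k => label U (e k)) Y)) = _
    rw [map_clip, map_sliced _ hV0]
    simp only [map_label]
    exact clip_eq hz1
  rw [← hZb] at hz2 hz1 hzt hzp
  rw [L.one, mul_one] at hzp
  have hyt : c ≤ L.t (L.π (star Y * Y)) := ge_of_tendsto' (L.lim (star Y * Y)) fun n => by
    have := hlow _ (((hts n).pull (π none)).pull ι₀)
    simp only [Vale.P095.Tracial.pullLin_apply, map_one, hts1, mul_one, map_mul, map_star] at this
    exact this
  let _ := CStarAlgebra.spectralOrder L.B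
  have _ := CStarAlgebra.spectralOrderedRing L.B
  have e1 : L.t (L.π (star (Z * Z) * (Z * Z))) < δ := by
    rw [map_mul, map_mul L.π Z Z, hz2, mul_zero, map_zero]; exact hδ
  have e2 : L.t (L.π (star (star Z * Z - star Z * Z * (star Z * Z)) *
      (star Z * Z - star Z * Z * (star Z * Z)))) < δ := by
    simp only [map_mul, map_sub, map_star]
    exact ((L.trace.mono (sq_defect_le hz1).2).trans hzp).trans_lt hVδ
  have e3 : c / 2 < L.t (L.π (star Z * Z)) := by
    rw [map_mul, map_star, hzt, hYb, ← map_star, ← map_mul]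
    linarith
  have hev := ((L.lim (star (Z * Z) * (Z * Z))).eventually (eventually_lt_nhds e1)).and
    (((L.lim _).eventually (eventually_lt_nhds e2)).and
      ((L.lim (star Z * Z)).eventually (eventually_gt_nhds e3)))
  obtain ⟨n, h1, h2, h3⟩ := hev.exists
  exact hnot n ⟨h1.le, h2.le, h3.le⟩

/-- A copy of the two by two matrices modulo traces. -/
theorem exists_payload2 (sys : Sys G E) (h : NoCharacters E) {ε : ℝ} (hε : 0 < ε) :
    ∃ (S : Sub sys) (x : S.S), ‖x‖ ≤ 1 ∧ ∀ t : S.S →ₗ[ℝ] ℝ, IsTrace t →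
      t (star (x * x) * (x * x)) ≤ ε * t 1 ∧
      t ((star x * x + x * star x - 1) * (star x * x + x * star x - 1)) ≤ ε * t 1 := by
  obtain ⟨c, hc, hproj⟩ := projAt sys h
  choose P z hz1 hzt using fun n : ℕ => hproj _ (show (0 : ℝ) < 1 / ((n : ℝ) + 1) by positivity)
  set c₁ : ℝ := min c (1 / 4) with hc₁
  have hc₁0 : 0 < c₁ := lt_min hc (by norm_num)
  have hb0 : 0 ≤ 1 - 2 * c₁ := by linarith [min_le_right c (1 / 4)]
  obtain ⟨m, hm⟩ := exists_pow_lt_of_lt_one hε (show 1 - 2 * c₁ < 1 by linarith)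
  by_contra hbad
  obtain ⟨T, ι, hι⟩ := exists_sub_iUnion P
  obtain ⟨S', π, hπ, -⟩ := exists_copies T (Fin (m + 1))
  let π' : ℕ → (T.S →⋆ₐ[ℂ] S'.S) := fun i => π (Fin.ofNat (m + 1) i)
  have hπ' : ∀ i j, i < m → j < m → i ≠ j → ∀ a b, Commute (π' i a) (π' j b) := by
    intro i j hi hj hij a b
    refine hπ _ _ (fun he => hij ?_) a b
    have := congrArg Fin.val he
    rwa [Fin.val_ofNat, Fin.val_ofNat, Nat.mod_eq_of_lt (by omega), Nat.mod_eq_of_lt (by omega)]
      at this
  let Y : ℕ → (ℕ →ᵇ S'.S) := fun i => seqOf (fun n => π' i (ι n (z n))) fun n =>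
    ((NonUnitalStarAlgHom.norm_apply_le _ _).trans (NonUnitalStarAlgHom.norm_apply_le _ _)).trans
      (hz1 n)
  let X : ℕ →ᵇ S'.S := clip (cover m Y)
  have hX1 : ∀ n, ‖X n‖ ≤ 1 := fun n => by
    rw [← evalHom_apply n X, map_clip]; exact norm_clip_le _
  have hex : ∀ n, ∃ t : S'.S →ₗ[ℝ] ℝ, IsTrace t ∧ t 1 = 1 ∧
      ¬(t (star (X n * X n) * (X n * X n)) ≤ ε ∧
        t ((star (X n) * X n + X n * star (X n) - 1) *
          (star (X n) * X n + X n * star (X n) - 1)) ≤ ε) := by
    intro n
    have hb : ¬∀ t : S'.S →ₗ[ℝ] ℝ, IsTrace t →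
        t (star (X n * X n) * (X n * X n)) ≤ ε * t 1 ∧
        t ((star (X n) * X n + X n * star (X n) - 1) *
          (star (X n) * X n + X n * star (X n) - 1)) ≤ ε * t 1 :=
      fun hh => hbad ⟨S', X n, hX1 n, hh⟩
    push Not at hb
    obtain ⟨t, ht, hb⟩ := hb
    have h1 : 0 < t 1 := by
      rcases (Vale.P095.Tracial.one_nonneg_of ht).eq_or_lt with h0 | h0
      · exfalso
        simp only [trace_eq_zero ht h0.symm, mul_zero, le_refl, lt_irrefl, forall_const] at hb
      · exact h0
    refine ⟨(t 1)⁻¹ • t, trace_smul ht (inv_nonneg.2 h1.le), by simp [h1.ne'], fun hh => ?_⟩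
    simp only [LinearMap.smul_apply, smul_eq_mul, inv_mul_le_iff₀ h1] at hh
    have := hb (by linarith [hh.1])
    linarith [hh.2]
  choose ts hts hts1 hnot using hex
  obtain ⟨L⟩ := exists_limitModel ts hts hts1
  set y : ℕ → L.B := fun i => L.π (Y i) with hy
  -- each copy is a square-zero partial isometry in the model
  have hpull : ∀ n i, IsTrace
      (Vale.P095.Tracial.pullLin (Vale.P095.Tracial.pullLin (ts n) (π' i)) (ι n)) :=
    fun n i => ((hts n).pull _).pull _
  have hyn : ∀ i, ‖y i‖ ≤ 1 := fun i =>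
    (NonUnitalStarAlgHom.norm_apply_le _ _).trans
      (BoundedContinuousFunction.norm_ofNormedAddCommGroup_le _ zero_le_one _)
  have hyPI : ∀ i, SqZeroPI (y i) := fun i => by
    refine sqZeroPI_of_trace L.faithful (hyn i) ?_ ?_
    · show L.π (Y i) * L.π (Y i) = 0
      rw [← map_mul]
      refine L.eq_zero_of_le fun n => ?_
      have := (hzt n _ (hpull n i)).1
      simp only [Vale.P095.Tracial.pullLin_apply, map_one, hts1, mul_one] at this
      show ts n (star (π' i (ι n (z n)) * π' i (ι n (z n))) * _) ≤ _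
      simpa [Y, map_mul, map_star] using this
    · have h0 : L.π (star (Y i) * Y i - star (Y i) * Y i * (star (Y i) * Y i)) = 0 := by
        refine L.eq_zero_of_le fun n => ?_
        have := (hzt n _ (hpull n i)).2.1
        simp only [Vale.P095.Tracial.pullLin_apply, map_one, hts1, mul_one] at this
        show ts n (star (star (π' i (ι n (z n))) * π' i (ι n (z n)) - _) * _) ≤ _
        simpa [Y, map_mul, map_star, map_sub] using this
      simp only [map_sub, map_mul, map_star] at h0
      simp only [hy, h0, map_zero]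
  have hyc : ∀ i < m, ∀ j < m, i ≠ j →
      Commute (y i) (y j) ∧ Commute (y i) (star (y j)) := by
    intro i hi j hj hij
    refine ⟨(commute_seq fun n => hπ' i j hi hj hij _ _).map L.π, ?_⟩
    show Commute (L.π (Y i)) (star (L.π (Y j)))
    rw [← map_star]
    refine (commute_seq fun n => ?_).map L.π
    show Commute (π' i (ι n (z n))) (star (π' j (ι n (z n))))
    rw [← map_star]
    exact hπ' i j hi hj hij _ _
  -- the recursion
  have key : ∀ i, i ≤ m → L.t (res (cover i y)) ≤ (1 - 2 * c₁) ^ i := by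
    intro i
    induction i with
    | zero => intro _; simp [cover_zero, res_zero, L.one]
    | succ i ih =>
      intro hi
      have hx : SqZeroPI (cover i y) := cover_spec y i (fun l _ => hyPI l) fun l hl j hj =>
        hyc l (by omega) j (by omega)
      have h1 : Commute (y i) (cover i y) ∧ Commute (y i) (star (cover i y)) :=
        commute_cover y i fun l hl => hyc i (by omega) l (by omega) (by omega)
      have h2 : Commute (star (y i)) (cover i y) := by simpa using h1.2.star_star
      have hyr : Commute (star (y i)) (res (cover i y)) :=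
        commute_res h2 (by simpa using h1.1.star_star)
      set R : ℕ →ᵇ S'.S := res (cover i Y) with hR
      set r : L.B := res (cover i y) with hr
      have hrR : r = L.π R := by rw [hr, hR, map_res, map_cover]
      have hrr : r * r = r := (res_mul_self hx).2.2
      have hrsa : star r = r := (res_isSelfAdjoint _).star_eq
      have hlow : 2 * c₁ * L.t r ≤ L.t (r * (star (y i) * y i + y i * star (y i))) := by
        have hn : ∀ n, 2 * c₁ * ts n ((star R * R) n) ≤
            ts n ((star R * (star (Y i) * Y i + Y i * star (Y i)) * R) n) := by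
          intro n
          have hRc : ∀ a, Commute (R n) (((π' i).comp (ι n)) a) := fun a => by
            rw [hR, ← evalHom_apply n (res (cover i Y)), map_res, map_cover]
            obtain ⟨g1, g2⟩ := commute_cover (fun l => evalHom n (Y l)) (W := π' i (ι n a)) i
              fun l hl => ⟨hπ' i l (by omega) (by omega) (by omega) _ _, by
                show Commute _ (star (π' l (ι n (z n))))
                rw [← map_star]
                exact hπ' i l (by omega) (by omega) (by omega) _ _⟩
            exact (commute_res g1 g2).symm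
          have hw := (hts n).weight ((π' i).comp (ι n)) hRc
          have h3 := (hzt n _ hw).2.2
          have h4 := hw.comm (z n) (star (z n))
          simp only [Vale.P095.Tracial.weightLin_apply, map_one, mul_one] at h3 h4
          simp only [StarAlgHom.coe_comp, Function.comp_apply, map_mul, map_star] at h3 h4
          show 2 * c₁ * ts n (star (R n) * R n) ≤ ts n (star (R n) * (star (π' i (ι n (z n))) *
            π' i (ι n (z n)) + π' i (ι n (z n)) * star (π' i (ι n (z n)))) * R n)
          rw [mul_add, add_mul, map_add]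
          have h5 : 0 ≤ ts n (star (R n) * R n) := (hts n).nonneg _
          nlinarith [min_le_left c (1 / 4)]
        have := le_of_tendsto_of_tendsto' ((L.lim (star R * R)).const_mul (2 * c₁))
          (L.lim (star R * (star (Y i) * Y i + Y i * star (Y i)) * R)) hn
        simp only [map_mul, map_star, map_add, ← hrR, hrsa, hrr] at this
        rwa [L.trace.comm _ r, ← mul_assoc, hrr] at this
      have he : L.t (r * (y i * star (y i))) = L.t (r * (star (y i) * y i)) := by
        rw [← mul_assoc, L.trace.comm, ← mul_assoc, hyr.eq, mul_assoc]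
      rw [mul_add, map_add, he] at hlow
      show L.t (res (cover i y + res (cover i y) * y i)) ≤ _
      rw [(cover_step hx (hyPI i) h1.1.symm h2.symm).2, mul_sub, mul_sub, mul_one, map_sub, map_sub,
        ← hr, he, pow_succ]
      nlinarith [ih (by omega), hb0]
  have hx : SqZeroPI (cover m y) := cover_spec y m (fun l _ => hyPI l) hyc
  have hXb : L.π X = cover m y := by
    show L.π (clip _) = _
    rw [map_clip, map_cover]
    exact clip_eq hx.norm_le_one
  obtain ⟨g2, g1⟩ := defect_eq_res hx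
  have e1 : L.t (L.π (star (X * X) * (X * X))) < ε := by
    simp only [map_mul, map_star, hXb, g1, map_zero]
    exact hε
  have e2 : L.t (L.π ((star X * X + X * star X - 1) * (star X * X + X * star X - 1))) < ε := by
    simp only [map_mul, map_sub, map_add, map_star, map_one, hXb, g2]
    exact (key m le_rfl).trans_lt hm
  have hev := ((L.lim (star (X * X) * (X * X))).eventually (eventually_lt_nhds e1)).and
    ((L.lim _).eventually (eventually_lt_nhds e2))
  obtain ⟨n, h1, h2⟩ := hev.exists
  exact hnot n ⟨h1.le, h2.le⟩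

end Stages

end Vale.P095.McDuff
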