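import Vale.Agent.P095.Tracial.Limit

/-!
# P095 Theorem M: from the central sequence algebra to a sequence in `A`

Trace estimates on `F_ω(A)` for an element `x` with `x ^ 2 = 0`, `x* x + x x* = 1` and `α g x = x`
(approximately, in every trace) pass to a sequence of contractions of `A` with the same estimates
uniformly over the tracial states.
-/

open scoped BoundedContinuousFunction
open Filter Topology

namespace Vale.P095.McDuff

open Vale.P101 Vale.P095.Tracial

noncomputable section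

variable {A : Type*} [CStarAlgebra A] {ω : Ultrafilter ℕ}

/-- A contraction has a representative by contractions. -/
theorem exists_rep_contraction {u : Central A ω} (hn : ‖u‖ ≤ 1) :
    ∃ f : ℕ →ᵇ A, cls ω f = (u : Ultrapower A ω) ∧ ∀ n, ‖f n‖ ≤ 1 := by
  obtain ⟨h, hcl⟩ := cls_surjective ω (u : Ultrapower A ω)
  let r : ℕ → ℝ := fun n => (max 1 ‖h n‖)⁻¹
  have hr : ∀ n, 0 ≤ r n ∧ r n ≤ 1 := fun n =>
    ⟨by positivity, inv_le_one_of_one_le₀ (le_max_left _ _)⟩
  have hb : ∀ n, ‖(r n : ℂ) • h n‖ ≤ 1 := fun n => by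
    rw [norm_smul, Complex.norm_real, Real.norm_of_nonneg (hr n).1,
      inv_mul_le_iff₀ (lt_max_of_lt_left one_pos), mul_one]
    exact le_max_right _ _
  refine ⟨BoundedContinuousFunction.ofNormedAddCommGroup (fun n => (r n : ℂ) • h n)
    continuous_of_discreteTopology 1 hb, ?_, hb⟩
  rw [← hcl, cls_eq_cls, mem_nullSeq]
  have hlim : Tendsto (fun n => max 1 ‖h n‖) ω (𝓝 1) := by
    have := (tendsto_const_nhds (x := (1 : ℝ))).max (tendsto_limNorm ω h)
    have e : limNorm ω h = ‖u‖ := by rw [← norm_cls, hcl]; rfl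
    rwa [e, max_eq_left hn] at this
  refine squeeze_zero (fun n => norm_nonneg _) (fun n => ?_)
    (g := fun n => (1 - (max 1 ‖h n‖)⁻¹) * ‖h‖)
    (by simpa using ((hlim.inv₀ one_ne_zero).const_sub 1).mul_const ‖h‖)
  have e : ((r n : ℂ) • h n) - h n = -((1 - r n : ℝ) : ℂ) • h n := by
    push_cast
    module
  show ‖((r n : ℂ) • h n) - h n‖ ≤ _
  rw [e, norm_smul, norm_neg, Complex.norm_real, Real.norm_of_nonneg (sub_nonneg.2 (hr n).2)]
  exact mul_le_mul_of_nonneg_left (h.norm_coe_le_norm n) (sub_nonneg.2 (hr n).2)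

variable [TopologicalSpace.SeparableSpace A] {G : Type*} [Group G] [Countable G]
  (α : G →* (A ≃⋆ₐ[ℂ] A))

omit [TopologicalSpace.SeparableSpace A] [Countable G] in
/-- One element of `A`: finitely many conditions at once. -/
theorem exists_element (D : Finset A) (S : Finset G) {ε : ℝ} (hε : 0 < ε)
    {x : FOmega A ω} (hn : ‖x‖ ≤ 1)
    (hx : ∀ t : FOmega A ω →ₗ[ℝ] ℝ, IsTrace t →
      t (star (x * x) * (x * x)) ≤ ε * t 1 ∧
      t ((star x * x + x * star x - 1) * (star x * x + x * star x - 1)) ≤ ε * t 1 ∧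
      ∀ g ∈ S, t (star (act α g x - x) * (act α g x - x)) ≤ ε * t 1) :
    ∃ a : A, ‖a‖ ≤ 1 ∧ (∀ d ∈ D, ‖a * d - d * a‖ ≤ ε) ∧
      ∀ τ : TracialState A,
        (τ.toLin (star (a * a) * (a * a))).re ≤ 2 * ε ∧
        (τ.toLin ((star a * a + a * star a - 1) * (star a * a + a * star a - 1))).re ≤ 2 * ε ∧
        ∀ g ∈ S, (τ.toLin (star (α g a - a) * (α g a - a))).re ≤ 2 * ε := by
  obtain ⟨f, hf, hfn⟩ := exists_rep_contraction hn
  have e1 : ∀ᶠ n in (ω : Filter ℕ), ∀ d ∈ D, ‖f n * d - d * f n‖ ≤ ε := by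
    rw [eventually_all_finset]
    intro d _
    have := tendsto_of_commute_cls ω (f := f) (g := BoundedContinuousFunction.const ℕ d)
      (by rw [hf]; exact ((mem_central ω).1 x.2 d).symm)
    exact (by simpa using this : Tendsto (fun n => ‖f n * d - d * f n‖) ω (𝓝 0)).eventually
      (eventually_le_nhds hε)
  have e2 := eventually_re_small ω hε (x := star (x * x) * (x * x))
    (fun φ => (hx φ.real φ.isTrace_real).1) (f := star (f * f) * (f * f))
    (by rw [map_mul, ← star_cls, map_mul, hf]; rfl)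
  have e3 := eventually_re_small ω hε
    (x := (star x * x + x * star x - 1) * (star x * x + x * star x - 1))
    (fun φ => (hx φ.real φ.isTrace_real).2.1)
    (f := (star f * f + f * star f - 1) * (star f * f + f * star f - 1))
    (by rw [map_mul, map_sub, map_add, map_mul, map_mul, map_one, ← star_cls, hf]; rfl)
  have e4 : ∀ᶠ n in (ω : Filter ℕ), ∀ g ∈ S, ∀ τ : TracialState A,
      (τ.toLin (star (α g (f n) - f n) * (α g (f n) - f n))).re ≤ 2 * ε := by
    rw [eventually_all_finset]
    intro g hg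
    let f' : ℕ →ᵇ A := BoundedContinuousFunction.ofNormedAddCommGroup (fun n => α g (f n))
      continuous_of_discreteTopology ‖f‖ fun n =>
        (NonUnitalStarAlgHom.norm_apply_le (α g) (f n)).trans (f.norm_coe_le_norm n)
    have := eventually_re_small ω hε (x := star (act α g x - x) * (act α g x - x))
      (fun φ => (hx φ.real φ.isTrace_real).2.2 g hg) (f := star (f' - f) * (f' - f))
      (by rw [map_mul, ← star_cls, map_sub, hf, ← act_cls α g x f f' hf fun n => rfl]; rfl)
    filter_upwards [this] with n hnn τ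
    have h7 := hnn τ
    simp only [f', BoundedContinuousFunction.mul_apply, BoundedContinuousFunction.star_apply,
      BoundedContinuousFunction.sub_apply,
      BoundedContinuousFunction.coe_ofNormedAddCommGroup] at h7
    exact h7
  obtain ⟨n, hn1, hn2, hn3, hn4⟩ := (e1.and (e2.and (e3.and e4))).exists
  exact ⟨f n, hfn n, hn1,
    fun τ => ⟨by simpa using hn2 τ, by simpa using hn3 τ, fun g hg => hn4 g hg τ⟩⟩

/-- The sequence of approximate `M₂` generators, uniformly over the tracial states. -/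
theorem exists_sequence
    (h : ∀ (S : Finset G) (ε : ℝ), 0 < ε → ∃ x : FOmega A ω, ‖x‖ ≤ 1 ∧
      ∀ t : FOmega A ω →ₗ[ℝ] ℝ, IsTrace t →
        t (star (x * x) * (x * x)) ≤ ε * t 1 ∧
        t ((star x * x + x * star x - 1) * (star x * x + x * star x - 1)) ≤ ε * t 1 ∧
        ∀ g ∈ S, t (star (act α g x - x) * (act α g x - x)) ≤ ε * t 1) :
    ∃ x : ℕ → A, (∀ n, ‖x n‖ ≤ 1) ∧
      (∀ a, Tendsto (fun n => ‖x n * a - a * x n‖) atTop (𝓝 0)) ∧
      (∀ ε : ℝ, 0 < ε → ∀ᶠ n in atTop, ∀ τ : TracialState A,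
        (τ.toLin (star (x n * x n) * (x n * x n))).re ≤ ε) ∧
      (∀ ε : ℝ, 0 < ε → ∀ᶠ n in atTop, ∀ τ : TracialState A,
        (τ.toLin ((star (x n) * x n + x n * star (x n) - 1) *
          (star (x n) * x n + x n * star (x n) - 1))).re ≤ ε) ∧
      ∀ g, ∀ ε : ℝ, 0 < ε → ∀ᶠ n in atTop, ∀ τ : TracialState A,
        (τ.toLin (star (α g (x n) - x n) * (α g (x n) - x n))).re ≤ ε := by
  classical
  obtain ⟨d, hd⟩ := TopologicalSpace.exists_dense_seq A
  obtain ⟨enc, henc⟩ := Countable.exists_injective_nat G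
  let S : ℕ → Finset G := fun k => (Finset.range (k + 1)).preimage enc henc.injOn
  have hδ : ∀ k : ℕ, (0 : ℝ) < 1 / ((k : ℝ) + 1) := fun k => by positivity
  choose v hno ht using fun k => h (S k) _ (hδ k)
  choose x hx1 hx2 hx3 using fun k =>
    exists_element α ((Finset.range (k + 1)).image d) (S k) (hδ k) (hno k) (ht k)
  have hsmall : ∀ ε > (0 : ℝ), ∀ᶠ k : ℕ in atTop, 2 * (1 / ((k : ℝ) + 1)) ≤ ε := fun ε hε => by
    have := (tendsto_one_div_add_atTop_nhds_zero_nat (𝕜 := ℝ)).const_mul (2 : ℝ)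
    rw [mul_zero] at this
    exact this.eventually (eventually_le_nhds hε)
  refine ⟨x, hx1, fun a => ?_, fun ε hε => ?_, fun ε hε => ?_, fun g ε hε => ?_⟩
  · rw [Metric.tendsto_nhds]
    intro ε hε
    obtain ⟨j, hj⟩ := hd.exists_dist_lt a (show (0 : ℝ) < ε / 4 by linarith)
    filter_upwards [eventually_ge_atTop j, hsmall (ε / 4) (by linarith)] with k hk hk'
    have h := hx2 k (d j) (Finset.mem_image.2 ⟨j, Finset.mem_range.2 (by omega), rfl⟩)
    rw [dist_eq_norm] at hj
    have e : x k * a - a * x k =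
        (x k * d j - d j * x k) + (x k * (a - d j) - (a - d j) * x k) := by
      noncomm_ring
    rw [Real.dist_eq, sub_zero, abs_of_nonneg (norm_nonneg _), e]
    have h5 : ‖x k * (a - d j)‖ ≤ ‖a - d j‖ :=
      (norm_mul_le _ _).trans (mul_le_of_le_one_left (norm_nonneg _) (hx1 k))
    have h6 : ‖(a - d j) * x k‖ ≤ ‖a - d j‖ :=
      (norm_mul_le _ _).trans (mul_le_of_le_one_right (norm_nonneg _) (hx1 k))
    have := norm_add_le (x k * d j - d j * x k) (x k * (a - d j) - (a - d j) * x k)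
    have := norm_sub_le (x k * (a - d j)) ((a - d j) * x k)
    linarith
  · filter_upwards [hsmall ε hε] with k hk τ
    exact (hx3 k τ).1.trans hk
  · filter_upwards [hsmall ε hε] with k hk τ
    exact (hx3 k τ).2.1.trans hk
  · filter_upwards [eventually_ge_atTop (enc g), hsmall ε hε] with k hk hk' τ
    exact ((hx3 k τ).2.2 g (Finset.mem_preimage.2 (Finset.mem_range.2 (by omega)))).trans hk'

end

end Vale.P095.McDuff
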