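import Vale.Agent.P095.McDuff.Main
import Vale.Agent.P095.McDuff.DataSys
import Vale.Agent.P095.McDuff.Payload
import Vale.Agent.P095.McDuff.Sequence
import Vale.Agent.P095.Nonunital.FA

/-!
Theorem M for systems, and its form for sequences in a unital algebra (helper13).
-/

open Filter Topology
open Vale.P101
open Vale.P095.Tracial (IsTrace IsFolner TracialState)
open Vale.P095.Nonunital

noncomputable section

namespace Vale.P095.McDuff

variable {G : Type*} [Group G] [Countable G]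

theorem isSelfAdjoint_unitDefect {B : Type*} [CStarAlgebra B] (x : B) :
    IsSelfAdjoint (star x * x + x * star x - 1) :=
  ((IsSelfAdjoint.star_mul_self x).add (IsSelfAdjoint.mul_star_self x)).sub (IsSelfAdjoint.one B)

/-- **Theorem M**: without characters there are approximately invariant approximate matrix units,
uniformly in all traces. -/
theorem exists_mcduff_sys {E : Type*} [CStarAlgebra E] (sys : Sys G E) (hchar : NoCharacters E)
    (hG : IsFolner G) (Q : Finset G) {ε : ℝ} (hε : 0 < ε) :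
    ∃ x : E, ‖x‖ ≤ 1 ∧ ∀ t : E →ₗ[ℝ] ℝ, IsTrace t →
      t (star (x * x) * (x * x)) ≤ ε * t 1 ∧
      t (star (star x * x + x * star x - 1) * (star x * x + x * star x - 1)) ≤ ε * t 1 ∧
      ∀ g ∈ Q, t (star (sys.act g x - x) * (sys.act g x - x)) ≤ ε * t 1 := by
  refine exists_mcduff (fun g h x => (sys.mul g h x).symm) hG Q (fun δ hδ ι κ _ _ => ?_) hε
  refine exists_data sys Q hδ ?_ (exists_almost_invariant_sub sys hchar hG Q δ hδ) ι κ
  obtain ⟨S, x, hx, h⟩ := exists_payload2 sys hchar hδ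
  refine ⟨S, x, hx, fun t ht => ⟨(h t ht).1, ?_⟩⟩
  rw [(isSelfAdjoint_unitDefect x).star_eq]
  exact (h t ht).2

variable {A : Type*} [CStarAlgebra A] [TopologicalSpace.SeparableSpace A] {ω : Ultrafilter ℕ}

/-- Equivariant uniform McDuff property of a unital algebra, as a sequence. -/
theorem exists_mcduff_sequence (hω : (ω : Filter ℕ) ≤ cofinite) (α : G →* (A ≃⋆ₐ[ℂ] A))
    (hchar : NoCharacters (FOmega A ω)) (hG : IsFolner G) :
    ∃ x : ℕ → A, (∀ n, ‖x n‖ ≤ 1) ∧
      (∀ a, Tendsto (fun n => ‖x n * a - a * x n‖) atTop (𝓝 0)) ∧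
      (∀ ε : ℝ, 0 < ε → ∀ᶠ n in atTop, ∀ τ : TracialState A,
        (τ.toLin (star (x n * x n) * (x n * x n))).re ≤ ε) ∧
      (∀ ε : ℝ, 0 < ε → ∀ᶠ n in atTop, ∀ τ : TracialState A,
        (τ.toLin ((star (x n) * x n + x n * star (x n) - 1) *
          (star (x n) * x n + x n * star (x n) - 1))).re ≤ ε) ∧
      ∀ g, ∀ ε : ℝ, 0 < ε → ∀ᶠ n in atTop, ∀ τ : TracialState A,
        (τ.toLin (star (α g (x n) - x n) * (α g (x n) - x n))).re ≤ ε := by
  refine exists_sequence (A := A) (ω := ω) (G := G) α ?_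
  intro S ε hε
  obtain ⟨x, hx, h⟩ := exists_mcduff_sys (sysFOmega hω α) hchar hG S hε
  refine ⟨x, hx, fun t ht => ⟨(h t ht).1, ?_, (h t ht).2.2⟩⟩
  have h2 := (h t ht).2.1
  rwa [(isSelfAdjoint_unitDefect x).star_eq] at h2

end Vale.P095.McDuff
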