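import Vale.Agent.P095.Tracial.TraceIneq

/-!
The race: a sequence of rounds, each spread over fair random labels (owner: helper3).

Round `r` selects the label `lam` with the projection `q r lam`; its content is `c r lam`, its mass
`th r lam`. The algebras `U r` contain everything of the rounds `≥ r`; `T r` everything except
the labels `q r`.
-/

open Vale.P095.Tracial

namespace Vale.P095.McDuff

variable {B : Type*} [CStarAlgebra B] {Λ : Type*} [Fintype Λ]

/-- The outcome of `R` rounds, starting with round `r`. -/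
def race (q c th : ℕ → Λ → B) : ℕ → ℕ → B
  | _, 0 => 0
  | r, R + 1 => ∑ lam, q r lam * (c r lam + (1 - th r lam) * race q c th (r + 1) R)

variable [PartialOrder B] [StarOrderedRing B]

/-- The hypotheses of the race. -/
structure IsRace (t : B →ₗ[ℝ] ℝ) (κ e₁ e₂ : ℝ) (T U : ℕ → StarSubalgebra ℂ B) (q c th : ℕ → Λ → B) :
    Prop where
  trace : IsTrace t
  le : ∀ r, T r ≤ U r
  next_le : ∀ r, U (r + 1) ≤ T r
  q_mem : ∀ r lam, q r lam ∈ U r
  c_mem : ∀ r lam, c r lam ∈ T r
  th_mem : ∀ r lam, th r lam ∈ T r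
  q_sa : ∀ r lam, IsSelfAdjoint (q r lam)
  q_idem : ∀ r lam, q r lam * q r lam = q r lam
  q_orth : ∀ r lam mu, lam ≠ mu → q r lam * q r mu = 0
  q_sum : ∀ r, ∑ lam, q r lam = 1
  q_comm : ∀ r lam, ∀ z ∈ T r, Commute (q r lam) z
  fair : ∀ r lam, ∀ z ∈ T r, t (q r lam * z) = t z / Fintype.card Λ
  c_sa : ∀ r lam, IsSelfAdjoint (c r lam)
  th_nonneg : ∀ r lam, 0 ≤ th r lam
  th_le_one : ∀ r lam, th r lam ≤ 1
  c_le : ∀ r lam, c r lam ≤ th r lam
  neg_le_c : ∀ r lam, -th r lam ≤ c r lam
  c_comm : ∀ r lam, ∀ z ∈ U (r + 1), Commute (c r lam) z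
  th_comm : ∀ r lam, ∀ z ∈ U (r + 1), Commute (th r lam) z
  balance : ∀ r lam, ∀ z ∈ U (r + 1),
    t ((1 - th r lam) * z * c r lam) = 0 ∧ t (z * (1 - th r lam) * c r lam) = 0
  mass : ∀ r, ∀ z ∈ U (r + 1), ∑ lam, t (th r lam * z) = Fintype.card Λ * κ * t z
  near_proj : ∀ r, ∑ lam, t (th r lam - th r lam * th r lam) ≤ e₁ * (Fintype.card Λ * κ) * t 1
  coherent : ∀ r, ∑ lam, (t (th r lam * th r lam) - t (c r lam * c r lam)) ≤
    e₂ * (Fintype.card Λ * κ) * t 1

/-- Between `-1` and `1`, the square is at most `1`. -/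
theorem mul_self_le_one {x : B} (h₁ : x ≤ 1) (h₂ : -1 ≤ x) : x * x ≤ 1 := by
  have hc : Commute (1 - x) (1 + x) :=
    ((Commute.one_left 1).add_right (Commute.one_left x)).sub_left
      ((Commute.one_right x).add_right (Commute.refl x))
  have h := Commute.mul_nonneg (sub_nonneg.2 h₁) (neg_le_iff_add_nonneg'.1 h₂) hc
  rw [show (1 - x) * (1 + x) = 1 - x * x by noncomm_ring] at h
  exact sub_nonneg.1 h

theorem norm_le_one_of_bounds {x : B} (h₁ : x ≤ 1) (h₂ : -1 ≤ x) : ‖x‖ ≤ 1 := by
  have hs : IsSelfAdjoint x := by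
    have h := (sub_nonneg.2 h₁).isSelfAdjoint
    simpa using (IsSelfAdjoint.one B).sub h
  have hsq : 0 ≤ x * x := by simpa [hs.star_eq] using star_mul_self_nonneg x
  have h := (CStarAlgebra.norm_le_one_iff_of_nonneg (x * x) hsq).2 (mul_self_le_one h₁ h₂)
  rw [hs.norm_mul_self] at h
  nlinarith [norm_nonneg x]

variable [Nonempty Λ] {t : B →ₗ[ℝ] ℝ} {κ e₁ e₂ : ℝ} {T U : ℕ → StarSubalgebra ℂ B}
  {q c th : ℕ → Λ → B}

theorem race_mem (h : IsRace t κ e₁ e₂ T U q c th) (R : ℕ) :
    ∀ r, race q c th r R ∈ U r := by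
  induction R with
  | zero => exact fun r => zero_mem _
  | succ R ih =>
    refine fun r => sum_mem fun lam _ => mul_mem (h.q_mem r lam) ?_
    exact h.le r (add_mem (h.c_mem r lam)
      (mul_mem (sub_mem (one_mem _) (h.th_mem r lam)) (h.next_le r (ih (r + 1)))))

/-- The bracket of a round lies below the labels. -/
theorem body_mem (h : IsRace t κ e₁ e₂ T U q c th) (r R : ℕ) (lam : Λ) :
    c r lam + (1 - th r lam) * race q c th (r + 1) R ∈ T r :=
  add_mem (h.c_mem r lam)
    (mul_mem (sub_mem (one_mem _) (h.th_mem r lam)) (h.next_le r (race_mem h R (r + 1))))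

theorem q_nonneg (h : IsRace t κ e₁ e₂ T U q c th) (r : ℕ) (lam : Λ) : 0 ≤ q r lam := by
  simpa [(h.q_sa r lam).star_eq, h.q_idem r lam] using star_mul_self_nonneg (q r lam)

theorem race_bounds (h : IsRace t κ e₁ e₂ T U q c th) (R : ℕ) :
    ∀ r, race q c th r R ≤ 1 ∧ -1 ≤ race q c th r R := by
  induction R with
  | zero => exact fun r => ⟨zero_le_one, neg_nonpos.2 zero_le_one⟩
  | succ R ih =>
    intro r
    have hX := ih (r + 1)
    have key : ∀ lam, c r lam + (1 - th r lam) * race q c th (r + 1) R ≤ 1 ∧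
        -1 ≤ c r lam + (1 - th r lam) * race q c th (r + 1) R := by
      intro lam
      have hw : 0 ≤ 1 - th r lam := sub_nonneg.2 (h.th_le_one r lam)
      have hc : Commute (1 - th r lam) (race q c th (r + 1) R) :=
        (Commute.one_left _).sub_left (h.th_comm r lam _ (race_mem h R (r + 1)))
      constructor
      · have hp := Commute.mul_nonneg hw (sub_nonneg.2 hX.1)
          ((Commute.one_right _).sub_right hc)
        rw [mul_sub, mul_one, sub_nonneg] at hp
        calc _ ≤ th r lam + (1 - th r lam) := add_le_add (h.c_le r lam) hp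
          _ = 1 := by abel
      · have hp := Commute.mul_nonneg hw (neg_le_iff_add_nonneg'.1 hX.2)
          ((Commute.one_right _).add_right hc)
        rw [mul_add, mul_one, ← neg_le_iff_add_nonneg'] at hp
        calc (-1 : B) = -th r lam + -(1 - th r lam) := by abel
          _ ≤ _ := add_le_add (h.neg_le_c r lam) hp
    have hbody := body_mem h r R
    constructor
    · show ∑ lam, q r lam * _ ≤ (1 : B)
      conv_rhs => rw [← h.q_sum r]
      refine Finset.sum_le_sum fun lam _ => ?_
      have hp := Commute.mul_nonneg (q_nonneg h r lam) (sub_nonneg.2 (key lam).1)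
        ((Commute.one_right _).sub_right (h.q_comm r lam _ (hbody lam)))
      rwa [mul_sub, mul_one, sub_nonneg] at hp
    · show (-1 : B) ≤ ∑ lam, q r lam * _
      rw [show (-1 : B) = ∑ lam, -q r lam by rw [Finset.sum_neg_distrib, h.q_sum r]]
      refine Finset.sum_le_sum fun lam _ => ?_
      have hp := Commute.mul_nonneg (q_nonneg h r lam) (neg_le_iff_add_nonneg'.1 (key lam).2)
        ((Commute.one_right _).add_right (h.q_comm r lam _ (hbody lam)))
      rwa [mul_add, mul_one, ← neg_le_iff_add_nonneg'] at hp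

theorem race_isSelfAdjoint (h : IsRace t κ e₁ e₂ T U q c th) (r R : ℕ) :
    IsSelfAdjoint (race q c th r R) := by
  have := (sub_nonneg.2 (race_bounds h R r).1).isSelfAdjoint
  simpa using (IsSelfAdjoint.one B).sub this

theorem norm_race_le (h : IsRace t κ e₁ e₂ T U q c th) (r R : ℕ) : ‖race q c th r R‖ ≤ 1 :=
  norm_le_one_of_bounds (race_bounds h R r).1 (race_bounds h R r).2

/-- Squares of sums over labels. -/
theorem sum_q_mul_self (h : IsRace t κ e₁ e₂ T U q c th) (r : ℕ) (Y : Λ → B)
    (hY : ∀ lam, Y lam ∈ T r) :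
    (∑ lam, q r lam * Y lam) * (∑ lam, q r lam * Y lam) = ∑ lam, q r lam * (Y lam * Y lam) := by
  rw [Finset.sum_mul_sum]
  refine Finset.sum_congr rfl fun lam _ => ?_
  rw [Finset.sum_eq_single lam]
  · rw [mul_assoc, ← mul_assoc (Y lam), ← (h.q_comm r lam _ (hY lam)).eq]
    simp only [← mul_assoc, h.q_idem]
  · intro mu _ hne
    rw [mul_assoc, ← mul_assoc (Y lam), ← (h.q_comm r mu _ (hY lam)).eq]
    simp only [← mul_assoc, h.q_orth r lam mu hne.symm, zero_mul]
  · simp

theorem tr_sum_q (h : IsRace t κ e₁ e₂ T U q c th) (r : ℕ) (Y : Λ → B)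
    (hY : ∀ lam, Y lam ∈ T r) :
    t (∑ lam, q r lam * Y lam) = (∑ lam, t (Y lam)) / Fintype.card Λ := by
  rw [map_sum, Finset.sum_div]
  exact Finset.sum_congr rfl fun lam _ => h.fair r lam _ (hY lam)

theorem race_defect (h : IsRace t κ e₁ e₂ T U q c th) (hκ : 0 < κ) (hκ1 : κ ≤ 1) (he₁ : 0 ≤ e₁)
    (he₂ : 0 ≤ e₂) (r R : ℕ) :
    t (1 - race q c th r R * race q c th r R) ≤ ((1 - κ) ^ R + 2 * e₁ + e₂) * t 1 := by
  have h1 := h.trace.one_nonneg
  induction R generalizing r with
  | zero =>
    simp only [race, mul_zero, sub_zero, pow_zero]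
    nlinarith
  | succ R ih =>
    set X := race q c th (r + 1) R with hXdef
    have hX : X ∈ U (r + 1) := race_mem h R (r + 1)
    have hX2 : X * X ≤ 1 := mul_self_le_one (race_bounds h R (r + 1)).1 (race_bounds h R (r + 1)).2
    have hmem := fun lam => body_mem h r R lam
    have hd : t (1 - race q c th r (R + 1) * race q c th r (R + 1)) =
        (∑ lam, t (1 - (c r lam + (1 - th r lam) * X) * (c r lam + (1 - th r lam) * X))) /
          Fintype.card Λ := by
      show t (1 - (∑ lam, q r lam * _) * (∑ lam, q r lam * _)) = _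
      have e : ∀ Z : Λ → B, 1 - ∑ lam, q r lam * Z lam = ∑ lam, q r lam * (1 - Z lam) := by
        intro Z
        simp only [mul_sub, mul_one, Finset.sum_sub_distrib, h.q_sum r]
      rw [sum_q_mul_self h r _ hmem, e,
        tr_sum_q h r _ fun lam => sub_mem (one_mem _) (mul_mem (hmem lam) (hmem lam))]
    have hlab : ∀ lam, t (1 - (c r lam + (1 - th r lam) * X) * (c r lam + (1 - th r lam) * X)) ≤
        (t 1 - t (X * X)) + t (th r lam * (X * X)) - t (th r lam)
          + 2 * t (th r lam - th r lam * th r lam)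
          + (t (th r lam * th r lam) - t (c r lam * c r lam)) := by
      intro lam
      set w := 1 - th r lam with hw
      have hw0 : 0 ≤ w := sub_nonneg.2 (h.th_le_one r lam)
      have hwX : Commute w X := (Commute.one_left _).sub_left (h.th_comm r lam _ hX)
      have hb := (h.balance r lam X hX).1
      have hb' : t (c r lam * (w * X)) = 0 := by rw [h.trace.comm]; exact hb
      have hsq : w * X * (w * X) = X * X - th r lam * (X * X)
          - (th r lam - th r lam * th r lam) * (X * X) := by
        rw [mul_assoc, ← mul_assoc X, ← hwX.eq, hw]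
        noncomm_ring
      have hu : 0 ≤ th r lam - th r lam * th r lam := by
        have := Commute.mul_nonneg (h.th_nonneg r lam) (sub_nonneg.2 (h.th_le_one r lam))
          ((Commute.one_right _).sub_right (Commute.refl _))
        rwa [mul_sub, mul_one] at this
      have hcu : Commute (th r lam - th r lam * th r lam) (1 - X * X) := by
        have hthX := h.th_comm r lam _ hX
        exact (Commute.one_right _).sub_right
          (((hthX.mul_right hthX)).sub_left ((hthX.mul_right hthX).mul_left (hthX.mul_right hthX)))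
      have hle : t ((th r lam - th r lam * th r lam) * (X * X)) ≤
          t (th r lam - th r lam * th r lam) := by
        have := h.trace.of_nonneg (Commute.mul_nonneg hu (sub_nonneg.2 hX2) hcu)
        rw [mul_sub, mul_one, map_sub] at this
        linarith
      simp only [add_mul, mul_add, map_sub, map_add, hb, hb', hsq] at hle ⊢
      linarith
    have hsum := Finset.sum_le_sum fun lam (_ : lam ∈ Finset.univ) => hlab lam
    have hm := h.mass r (X * X) (mul_mem hX hX)
    have hm1 := h.mass r 1 (one_mem _)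
    simp only [mul_one] at hm1
    simp only [Finset.sum_add_distrib, Finset.sum_sub_distrib, ← Finset.mul_sum, Finset.sum_const,
      Finset.card_univ, nsmul_eq_mul, hm, hm1] at hsum
    have hnp := h.near_proj r
    have hco := h.coherent r
    simp only [Finset.sum_sub_distrib] at hco
    have hn : (0 : ℝ) < Fintype.card Λ := by exact_mod_cast Fintype.card_pos
    have hih := ih (r + 1)
    rw [← hXdef, map_sub] at hih
    rw [hd, div_le_iff₀ hn, pow_succ]
    nlinarith [mul_le_mul_of_nonneg_left hih (mul_nonneg hn.le (sub_nonneg.2 hκ1))]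

theorem race_stable {c' th' : ℕ → Λ → B} (h : IsRace t κ e₁ e₂ T U q c th)
    (h' : IsRace t κ e₁ e₂ T U q c' th') (hκ : 0 < κ) (hκ1 : κ ≤ 1) {e₃ : ℝ} (he₃ : 0 ≤ e₃)
    (a : ℕ → Λ → ℝ)
    (ha : ∀ r lam (z : B), |t (z * (c' r lam - c r lam))| ≤ a r lam * ‖z‖ ∧
      |t (z * (th' r lam - th r lam))| ≤ a r lam * ‖z‖)
    (hsum : ∀ r, ∑ lam, a r lam ≤ e₃ * (Fintype.card Λ * κ) * t 1) (r R : ℕ) :
    t ((race q c' th' r R - race q c th r R) * (race q c' th' r R - race q c th r R)) ≤
      16 * e₃ * t 1 := by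
  have h1 := h.trace.one_nonneg
  rcases subsingleton_or_nontrivial B with hB | hB
  · rw [Subsingleton.elim (_ * _ : B) 0, map_zero]
    positivity
  induction R generalizing r with
  | zero =>
    simp only [race, sub_zero, mul_zero, map_zero]
    positivity
  | succ R ih =>
    set X := race q c th (r + 1) R with hXdef
    set X' := race q c' th' (r + 1) R with hXdef'
    have hX : X ∈ U (r + 1) := race_mem h R (r + 1)
    have hX' : X' ∈ U (r + 1) := race_mem h' R (r + 1)
    set D := X' - X with hD
    have hDm : D ∈ U (r + 1) := sub_mem hX' hX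
    have hX'n : ‖X'‖ ≤ 1 := norm_race_le h' (r + 1) R
    have hDn : ‖D‖ ≤ 2 := (norm_sub_le _ _).trans
      (by linarith [norm_race_le h (r + 1) R])
    have hDs : IsSelfAdjoint D :=
      (race_isSelfAdjoint h' (r + 1) R).sub (race_isSelfAdjoint h (r + 1) R)
    have hbody := fun lam => body_mem h r R lam
    have hbody' := fun lam => body_mem h' r R lam
    let Δ : Λ → B := fun lam =>
      (c' r lam + (1 - th' r lam) * X') - (c r lam + (1 - th r lam) * X)
    have hd : t ((race q c' th' r (R + 1) - race q c th r (R + 1)) *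
        (race q c' th' r (R + 1) - race q c th r (R + 1))) =
        (∑ lam, t (Δ lam * Δ lam)) / Fintype.card Λ := by
      have e : race q c' th' r (R + 1) - race q c th r (R + 1) = ∑ lam, q r lam * Δ lam := by
        simp only [race, Δ, mul_sub, Finset.sum_sub_distrib]
        rfl
      rw [e, sum_q_mul_self h r Δ fun lam => sub_mem (hbody' lam) (hbody lam), tr_sum_q h r _
        fun lam => mul_mem (sub_mem (hbody' lam) (hbody lam)) (sub_mem (hbody' lam) (hbody lam))]
    have hlab : ∀ lam, t (Δ lam * Δ lam) ≤ 14 * a r lam + (t (D * D) - t (th r lam * (D * D))) := by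
      intro lam
      set w := 1 - th r lam with hw
      set dc := c' r lam - c r lam with hdc
      set dt := th' r lam - th r lam with hdt
      have ha0 : 0 ≤ a r lam := by
        have := (ha r lam 1).1
        exact nonneg_of_mul_nonneg_left ((abs_nonneg _).trans this)
          (norm_pos_iff.2 one_ne_zero)
      have hbd : ∀ (z : B) (k : ℝ), ‖z‖ ≤ k →
          |t (z * dc)| ≤ a r lam * k ∧ |t (z * dt)| ≤ a r lam * k := fun z k hz =>
        ⟨(ha r lam z).1.trans (mul_le_mul_of_nonneg_left hz ha0),
          (ha r lam z).2.trans (mul_le_mul_of_nonneg_left hz ha0)⟩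
      have hcn : ∀ (c₀ th₀ : B), c₀ ≤ th₀ → -th₀ ≤ c₀ → th₀ ≤ 1 → ‖c₀‖ ≤ 1 :=
        fun c₀ th₀ a₁ a₂ a₃ => norm_le_one_of_bounds (a₁.trans a₃) ((neg_le_neg a₃).trans a₂)
      have hdcn : ‖dc‖ ≤ 2 := (norm_sub_le _ _).trans (by
        linarith [hcn _ _ (h.c_le r lam) (h.neg_le_c r lam) (h.th_le_one r lam),
          hcn _ _ (h'.c_le r lam) (h'.neg_le_c r lam) (h'.th_le_one r lam)])
      have hdtn : ‖dt‖ ≤ 1 := by
        refine norm_le_one_of_bounds ?_ ?_
        · calc dt ≤ th' r lam - 0 := sub_le_sub_left (h.th_nonneg r lam) _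
            _ ≤ 1 := by simpa using h'.th_le_one r lam
        · calc (-1 : B) = 0 - 1 := (zero_sub _).symm
            _ ≤ dt := sub_le_sub (h'.th_nonneg r lam) (h.th_le_one r lam)
      have hwn : ‖w‖ ≤ 1 := norm_le_one_of_bounds (sub_le_self _ (h.th_nonneg r lam))
        ((neg_nonpos.2 zero_le_one).trans (sub_nonneg.2 (h.th_le_one r lam)))
      set E := dc - dt * X' with hE
      have hEn : ‖E‖ ≤ 3 := (norm_sub_le _ _).trans (by
        have := (norm_mul_le dt X').trans (mul_le_mul hdtn hX'n (norm_nonneg _) zero_le_one)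
        linarith)
      have hΔ : Δ lam = E + w * D := by
        simp only [Δ, hE, hdc, hdt, hw, hD]
        noncomm_ring
      have hwDn : ‖w * D‖ ≤ 2 := (norm_mul_le _ _).trans
        (le_trans (mul_le_mul hwn hDn (norm_nonneg _) zero_le_one) (by norm_num))
      have mulX : ∀ (z : B) (k : ℝ), ‖z‖ ≤ k → ‖X' * z‖ ≤ k := fun z k hz =>
        (norm_mul_le _ _).trans (le_trans (mul_le_mul hX'n hz (norm_nonneg _) zero_le_one)
          (one_mul k).le)
      have hzE : ∀ (z : B) (k : ℝ), ‖z‖ ≤ k → |t (z * E)| ≤ a r lam * (2 * k) := by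
        intro z k hz
        have e : t (z * E) = t (z * dc) - t (X' * z * dt) := by
          rw [hE, mul_sub, map_sub, mul_assoc X', h.trace.comm X', mul_assoc]
        rw [e]
        have b₁ := (hbd z k hz).1
        have b₂ := (hbd (X' * z) k (mulX z k hz)).2
        rw [abs_le] at b₁ b₂ ⊢
        constructor <;> linarith
      have hw0 : 0 ≤ w := sub_nonneg.2 (h.th_le_one r lam)
      have hwD : Commute w D := (Commute.one_left _).sub_left (h.th_comm r lam _ hDm)
      have hww : t (w * D * (w * D)) ≤ t (D * D) - t (th r lam * (D * D)) := by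
        have e : w * D * (w * D) = D * D - th r lam * (D * D) - th r lam * w * (D * D) := by
          rw [mul_assoc, ← mul_assoc D, ← hwD.eq, hw]
          noncomm_ring
        have hthD := h.th_comm r lam _ hDm
        have hu : 0 ≤ th r lam * w := Commute.mul_nonneg (h.th_nonneg r lam) hw0
          ((Commute.one_right _).sub_right (Commute.refl _))
        have := h.trace.of_nonneg (Commute.mul_nonneg hu
          (show 0 ≤ D * D by simpa [hDs.star_eq] using star_mul_self_nonneg D)
          ((hthD.mul_right hthD).mul_left (hwD.mul_right hwD)))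
        rw [e, map_sub, map_sub]
        linarith
      have bE := (abs_le.1 (hzE E 3 hEn)).2
      have bD := (abs_le.1 (hzE (w * D) 2 hwDn)).2
      rw [hΔ, add_mul, mul_add, mul_add, map_add, map_add, map_add, h.trace.comm E (w * D)]
      linarith
    have hs := Finset.sum_le_sum fun lam (_ : lam ∈ Finset.univ) => hlab lam
    simp only [Finset.sum_add_distrib, Finset.sum_sub_distrib, ← Finset.mul_sum, Finset.sum_const,
      Finset.card_univ, nsmul_eq_mul, h.mass r (D * D) (mul_mem hDm hDm)] at hs
    have hn : (0 : ℝ) < Fintype.card Λ := by exact_mod_cast Fintype.card_pos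
    have hih := ih (r + 1)
    rw [← hXdef, ← hXdef', ← hD] at hih
    have hr := hsum r
    rw [hd, div_le_iff₀ hn]
    nlinarith [mul_le_mul_of_nonneg_left hih (mul_nonneg hn.le (sub_nonneg.2 hκ1)),
      mul_nonneg (mul_nonneg hn.le hκ.le) (mul_nonneg he₃ h1)]

omit [Nonempty Λ] [PartialOrder B] [StarOrderedRing B] in
theorem race_linear (q c c' th : ℕ → Λ → B) (a b : ℝ) (r R : ℕ) :
    race q (fun r lam => a • c r lam + b • c' r lam) th r R =
      a • race q c th r R + b • race q c' th r R := by
  induction R generalizing r with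
  | zero => simp [race]
  | succ R ih =>
    simp only [race, ih, mul_add, mul_smul_comm, Finset.smul_sum, ← Finset.sum_add_distrib,
      smul_add]
    exact Finset.sum_congr rfl fun lam _ => by abel

omit [Nonempty Λ] [PartialOrder B] [StarOrderedRing B] in
theorem map_race {C : Type*} [CStarAlgebra C] (φ : B →⋆ₐ[ℂ] C) (q c th : ℕ → Λ → B) (r R : ℕ) :
    φ (race q c th r R) =
      race (fun r lam => φ (q r lam)) (fun r lam => φ (c r lam)) (fun r lam => φ (th r lam)) r R := by
  induction R generalizing r with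
  | zero => simp [race]
  | succ R ih => simp [race, ih, map_sum]

end Vale.P095.McDuff
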