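import Mathlib

/-!
The layers `θ_k (u) = clamp (K u - k)` and their odd square roots, on the line.
-/

namespace Vale.P095.McDuff

/-- The layers of `u ↦ K u`. -/
noncomputable def layer (K k : ℕ) (u : ℝ) : ℝ := max 0 (min 1 (K * u - k))

/-- The odd square root of a layer at `s ^ 2`. -/
noncomputable def oddLayer (K k : ℕ) (s : ℝ) : ℝ :=
  √(layer K k (max s 0 ^ 2)) - √(layer K k (max (-s) 0 ^ 2))

theorem layer_nonneg (K k : ℕ) (u : ℝ) : 0 ≤ layer K k u := le_max_left _ _

theorem layer_le_one (K k : ℕ) (u : ℝ) : layer K k u ≤ 1 := max_le zero_le_one (min_le_left _ _)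

theorem continuous_layer (K k : ℕ) : Continuous (layer K k) := by unfold layer; fun_prop

theorem continuous_oddLayer (K k : ℕ) : Continuous (oddLayer K k) := by
  unfold oddLayer layer; fun_prop

theorem layer_mono (K k : ℕ) : Monotone (layer K k) := fun u w h => by
  refine max_le_max le_rfl (min_le_min le_rfl ?_)
  have := mul_le_mul_of_nonneg_left h (Nat.cast_nonneg (α := ℝ) K)
  linarith

theorem layer_zero (K k : ℕ) : layer K k 0 = 0 := by
  have h : (K : ℝ) * 0 - k ≤ 0 := by simp
  rw [layer, max_eq_left ((min_le_right _ _).trans h)]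

theorem abs_layer_sub_le (K k : ℕ) (u w : ℝ) : |layer K k u - layer K k w| ≤ K * |u - w| := by
  unfold layer
  refine (abs_max_sub_max_le_max _ _ _ _).trans (max_le (by rw [sub_self, abs_zero]; positivity) ?_)
  refine (abs_min_sub_min_le_max _ _ _ _).trans (max_le (by rw [sub_self, abs_zero]; positivity) ?_)
  rw [show (K : ℝ) * u - k - (K * w - k) = K * (u - w) by ring, abs_mul, Nat.abs_cast]

theorem oddLayer_of_nonneg (K k : ℕ) {s : ℝ} (h : 0 ≤ s) :
    oddLayer K k s = √(layer K k (s ^ 2)) := by
  simp [oddLayer, h, layer_zero]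

theorem oddLayer_neg (K k : ℕ) (s : ℝ) : oddLayer K k (-s) = -oddLayer K k s := by
  simp [oddLayer]

theorem oddLayer_mul_self (K k : ℕ) (s : ℝ) :
    oddLayer K k s * oddLayer K k s = layer K k (s ^ 2) := by
  rcases le_total 0 s with h | h
  · rw [oddLayer_of_nonneg K k h, Real.mul_self_sqrt (layer_nonneg _ _ _)]
  · have := oddLayer_of_nonneg K k (neg_nonneg.2 h)
    rw [oddLayer_neg, neg_sq] at this
    rw [← neg_mul_neg, this, Real.mul_self_sqrt (layer_nonneg _ _ _)]

theorem sum_layer (K V : ℕ) {u : ℝ} (hu : 0 ≤ u) :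
    ∑ k ∈ Finset.range V, layer K k u = min (K * u) V := by
  have hx : 0 ≤ (K : ℝ) * u := by positivity
  induction V with
  | zero => simp [hx]
  | succ V ih =>
    rw [Finset.sum_range_succ, ih, Nat.cast_succ, layer]
    rcases le_total ((K : ℝ) * u) V with h | h
    · rw [min_eq_left h, max_eq_left ((min_le_right _ _).trans (sub_nonpos.2 h)),
        min_eq_left (h.trans (le_add_of_nonneg_right zero_le_one)), add_zero]
    · rw [min_eq_right h, max_eq_right (le_min zero_le_one (sub_nonneg.2 h))]
      rcases le_total ((K : ℝ) * u) (V + 1) with h2 | h2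
      · rw [min_eq_left h2, min_eq_right (by linarith)]; ring
      · rw [min_eq_right h2, min_eq_left (by linarith)]

theorem sum_layer_le (K V : ℕ) {u : ℝ} (hu : 0 ≤ u) :
    ∑ k ∈ Finset.range V, layer K k u ≤ K * u :=
  (sum_layer K V hu).trans_le (min_le_left _ _)

theorem layer_mul_le (K k : ℕ) (u : ℝ) :
    layer K k u - layer K k u * layer K k u ≤ layer K k u - layer K (k + 1) u := by
  by_cases h : (K : ℝ) * u - k ≤ 1
  · have h1 : layer K (k + 1) u = 0 := by
      rw [layer]
      refine max_eq_left ((min_le_right _ _).trans ?_)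
      push_cast; linarith
    rw [h1]
    nlinarith [layer_nonneg K k u]
  · have h1 : layer K k u = 1 := by
      rw [layer, min_eq_left (le_of_not_ge h), max_eq_right zero_le_one]
    rw [h1]
    linarith [layer_le_one K (k + 1) u]

theorem sum_layer_near_proj (K V : ℕ) {u : ℝ} (hu : 0 ≤ u) :
    ∑ k ∈ Finset.range V, (layer K k u - layer K k u * layer K k u) ≤
      2 * (K * u / (K * u + 1)) := by
  refine (Finset.sum_le_sum fun k _ => layer_mul_le K k u).trans ?_
  rw [Finset.sum_range_sub' fun k => layer K k u]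
  have hx : 0 ≤ (K : ℝ) * u := by positivity
  refine (sub_le_self _ (layer_nonneg _ _ _)).trans ?_
  rw [layer, Nat.cast_zero, sub_zero, mul_div_assoc', le_div_iff₀ (by linarith)]
  rcases le_total ((K : ℝ) * u) 1 with h | h
  · rw [min_eq_right h, max_eq_right hx]; nlinarith
  · rw [min_eq_left h, max_eq_right zero_le_one]; linarith

/-- The joint bound that drives stability. -/
theorem sum_sq_oddLayer_sub (K V : ℕ) (s t : ℝ) :
    ∑ k : Fin V, (oddLayer K k s - oddLayer K k t) ^ 2 ≤ 2 * K * |s - t| * (|s| + |t|) := by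
  rw [Fin.sum_univ_eq_sum_range (fun k => (oddLayer K k s - oddLayer K k t) ^ 2) V]
  wlog hts : t ≤ s generalizing s t
  · have := this t s (le_of_not_ge hts)
    rw [abs_sub_comm, add_comm] at this
    refine le_trans (le_of_eq (Finset.sum_congr rfl fun k _ => ?_)) this
    ring
  have pos : ∀ s t : ℝ, 0 ≤ t → t ≤ s →
      ∑ k ∈ Finset.range V, (oddLayer K k s - oddLayer K k t) ^ 2 ≤
        2 * K * |s - t| * (|s| + |t|) := by
    intro s t ht hts
    have hs := ht.trans hts
    have hst : t ^ 2 ≤ s ^ 2 := pow_le_pow_left₀ ht hts 2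
    calc ∑ k ∈ Finset.range V, (oddLayer K k s - oddLayer K k t) ^ 2
        ≤ ∑ k ∈ Finset.range V, (layer K k (s ^ 2) - layer K k (t ^ 2)) :=
          Finset.sum_le_sum fun k _ => by
            rw [oddLayer_of_nonneg K k hs, oddLayer_of_nonneg K k ht]
            have hm : layer K k (t ^ 2) ≤ layer K k (s ^ 2) := layer_mono K k hst
            have h1 := Real.mul_self_sqrt (layer_nonneg K k (s ^ 2))
            have h2 := Real.mul_self_sqrt (layer_nonneg K k (t ^ 2))
            have h3 := Real.sqrt_nonneg (layer K k (t ^ 2))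
            have h4 := Real.sqrt_le_sqrt hm
            nlinarith
      _ ≤ K * (s ^ 2 - t ^ 2) := by
          rw [Finset.sum_sub_distrib, sum_layer K V (sq_nonneg s), sum_layer K V (sq_nonneg t),
            mul_sub]
          have h6 : (K : ℝ) * t ^ 2 ≤ K * s ^ 2 :=
            mul_le_mul_of_nonneg_left hst (Nat.cast_nonneg _)
          rcases le_total ((K : ℝ) * s ^ 2) V with h | h
          · rw [min_eq_left h, min_eq_left (h6.trans h)]
          · rw [min_eq_right h]
            rcases le_total ((K : ℝ) * t ^ 2) V with h' | h'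
            · rw [min_eq_left h']; linarith
            · rw [min_eq_right h']; linarith
      _ ≤ 2 * K * |s - t| * (|s| + |t|) := by
          rw [abs_of_nonneg (sub_nonneg.2 hts), abs_of_nonneg hs, abs_of_nonneg ht]
          nlinarith [mul_nonneg (mul_nonneg (Nat.cast_nonneg (α := ℝ) K) (sub_nonneg.2 hts))
            (add_nonneg hs ht)]
  by_cases ht : 0 ≤ t
  · exact pos s t ht hts
  by_cases hs : 0 ≤ s
  · have ht' : t ≤ 0 := le_of_not_ge ht
    calc ∑ k ∈ Finset.range V, (oddLayer K k s - oddLayer K k t) ^ 2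
        ≤ ∑ k ∈ Finset.range V, 2 * (layer K k (s ^ 2) + layer K k (t ^ 2)) :=
          Finset.sum_le_sum fun k _ => by
            rw [← oddLayer_mul_self K k s, ← oddLayer_mul_self K k t]
            nlinarith [sq_nonneg (oddLayer K k s + oddLayer K k t)]
      _ ≤ 2 * (K * s ^ 2 + K * t ^ 2) := by
          rw [← Finset.mul_sum, Finset.sum_add_distrib]
          linarith [sum_layer_le K V (sq_nonneg s), sum_layer_le K V (sq_nonneg t)]
      _ ≤ 2 * K * |s - t| * (|s| + |t|) := by
          rw [abs_of_nonneg hs, abs_of_nonpos ht', abs_of_nonneg (by linarith : 0 ≤ s - t)]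
          nlinarith [mul_nonneg (Nat.cast_nonneg (α := ℝ) K) (mul_nonneg hs (neg_nonneg.2 ht'))]
  · have h := pos (-t) (-s) (neg_nonneg.2 (le_of_not_ge hs)) (neg_le_neg hts)
    simp only [oddLayer_neg, abs_neg, neg_sub_neg] at h
    rw [add_comm |s|]
    exact h

end Vale.P095.McDuff
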