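import Vale.Agent.P095.McDuff.Mat
import Vale.Agent.P095.McDuff.Layer

/-!
One label of a round: slicing a column by the layers `θ_k (s) = clamp (K s - k)`.

With `F` the odd layer of the dilation of the column, `W i = F (some i) none`, the content is
`∑ W i* σ i W i` and the mass `∑ W i* W i`; the latter is the corner of `F * F = θ_k (a * a)`.
-/

open Vale.P095.Tracial

namespace Vale.P095.McDuff

section Fn

attribute [local instance] CStarAlgebra.spectralOrder CStarAlgebra.spectralOrderedRing

variable {ι B : Type*} [Fintype ι] [DecidableEq ι] [CStarAlgebra B]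

omit [Fintype ι] [DecidableEq ι] in
theorem eq_zero_of_eq_neg {x : B} (h : x = -x) : x = 0 := by
  have h2 : (2 : ℝ) • x = 0 := by rw [two_smul]; nth_rewrite 2 [h]; exact add_neg_cancel x
  exact (smul_eq_zero.1 h2).resolve_left two_ne_zero

/-- The odd layer of the dilation. -/
noncomputable def layerMat (K k : ℕ) (v : ι → B) : CStarMatrix (Option ι) (Option ι) B :=
  cfc (oddLayer K k) (colDil v)

/-- The square of the odd layer: the layer of the squared dilation. -/
noncomputable def layerSq (K k : ℕ) (v : ι → B) : CStarMatrix (Option ι) (Option ι) B :=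
  cfc (fun s : ℝ => layer K k (s ^ 2)) (colDil v)

/-- The sliced column: entries of the odd layer of the dilation. -/
noncomputable def slice (K k : ℕ) (v : ι → B) (i : ι) : B := layerMat K k v (some i) none

theorem isSelfAdjoint_layerMat (K k : ℕ) (v : ι → B) : IsSelfAdjoint (layerMat K k v) :=
  IsSelfAdjoint.cfc

theorem layerMat_none_some (K k : ℕ) (v : ι → B) (i : ι) :
    layerMat K k v none (some i) = star (slice K k v i) :=
  (congrFun₂ (isSelfAdjoint_layerMat K k v).star_eq none (some i)).symm

/-- The grading. -/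
noncomputable def grading : CStarMatrix (Option ι) (Option ι) B :=
  diagMat fun x => x.elim 1 fun _ => -1

theorem grading_colDil (v : ι → B) :
    (grading : CStarMatrix (Option ι) (Option ι) B) * colDil v = -colDil v * grading := by
  refine CStarMatrix.ext fun a b => ?_
  rw [grading, diagMat_mul_apply, mul_diagMat_apply]
  rcases a with _ | i <;> rcases b with _ | j <;> simp

theorem layerMat_even (K k : ℕ) (v : ι → B) :
    layerMat K k v none none = 0 ∧ ∀ i j, layerMat K k v (some i) (some j) = 0 := by
  have hneg : cfc (oddLayer K k) (-colDil v) = -layerMat K k v := by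
    rw [layerMat, ← cfc_comp_neg (R := ℝ) (oddLayer K k) (colDil v)
      (continuous_oddLayer K k).continuousOn (colDil_isSelfAdjoint v), ← cfc_neg]
    exact cfc_congr fun s _ => oddLayer_neg K k s
  have h : grading * layerMat K k v = -layerMat K k v * grading := by
    have h' := Vale.P101.intertwine_cfc (colDil_isSelfAdjoint v) (colDil_isSelfAdjoint v).neg
      (grading_colDil v) (continuous_oddLayer K k)
    exact h'.trans (congrArg (· * grading) hneg)
  have e : ∀ a b, (Option.elim a (1 : B) fun _ => -1) * layerMat K k v a b =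
      -(layerMat K k v a b * Option.elim b (1 : B) fun _ => -1) := fun a b => by
    have := congrFun₂ h a b
    rwa [grading, diagMat_mul_apply, neg_mul, CStarMatrix.neg_apply,
      mul_diagMat_apply] at this
  refine ⟨?_, fun i j => ?_⟩
  · have := e none none
    simp only [Option.elim, one_mul, mul_one] at this
    exact eq_zero_of_eq_neg this
  · have := e (some i) (some j)
    simp only [Option.elim, neg_mul, one_mul, mul_neg, mul_one, neg_neg] at this
    exact eq_zero_of_eq_neg this.symm

theorem layerMat_mul_self (K k : ℕ) (v : ι → B) :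
    layerMat K k v * layerMat K k v = layerSq K k v := by
  rw [layerMat, layerSq, ← cfc_mul (R := ℝ) _ _ _ (continuous_oddLayer K k).continuousOn
    (continuous_oddLayer K k).continuousOn]
  exact cfc_congr fun s _ => oddLayer_mul_self K k s

theorem layerSq_apply (K k : ℕ) (v : ι → B) :
    layerSq K k v none none = ∑ i, star (slice K k v i) * slice K k v i ∧
    (∀ i, layerSq K k v none (some i) = 0) ∧
    (∀ i, layerSq K k v (some i) none = 0) ∧
    ∀ i j, layerSq K k v (some i) (some j) = slice K k v i * star (slice K k v j) := by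
  obtain ⟨h0, h1⟩ := layerMat_even K k v
  simp only [← layerMat_mul_self, CStarMatrix.mul_apply, Fintype.sum_option, h0, h1,
    layerMat_none_some]
  refine ⟨?_, fun i => ?_, fun i => ?_, fun i j => ?_⟩ <;> simp [slice]

/-- The content of a label. -/
noncomputable def cOf (K k : ℕ) (v σ : ι → B) : B :=
  ∑ i, star (slice K k v i) * σ i * slice K k v i

/-- The mass of a label. -/
noncomputable def thOf (K k : ℕ) (v : ι → B) : B :=
  ∑ i, star (slice K k v i) * slice K k v i

theorem slice_commute (K k : ℕ) (v : ι → B) {W : B}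
    (h : ∀ i, Commute W (v i) ∧ Commute W (star (v i))) (i : ι) :
    Commute W (slice K k v i) ∧ Commute W (star (slice K k v i)) := by
  have hW : diagMat (fun _ : Option ι => W) * colDil v =
      colDil v * diagMat (fun _ : Option ι => W) := by
    refine CStarMatrix.ext fun a b => ?_
    rw [diagMat_mul_apply, mul_diagMat_apply]
    rcases a with _ | x <;> rcases b with _ | y <;> simp [(h _).1.eq, (h _).2.eq]
  have h2 : diagMat (fun _ : Option ι => W) * layerMat K k v =
      layerMat K k v * diagMat (fun _ : Option ι => W) :=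
    Vale.P101.intertwine_cfc (colDil_isSelfAdjoint v) (colDil_isSelfAdjoint v) hW
      (continuous_oddLayer K k)
  have e : ∀ a b, W * layerMat K k v a b = layerMat K k v a b * W := fun a b => by
    have := congrFun₂ h2 a b
    rwa [diagMat_mul_apply, mul_diagMat_apply] at this
  refine ⟨e (some i) none, ?_⟩
  have := e none (some i)
  rwa [layerMat_none_some] at this

theorem thOf_commute (K k : ℕ) (v : ι → B) {W : B}
    (h : ∀ i, Commute W (v i) ∧ Commute W (star (v i))) : Commute W (thOf K k v) :=
  Commute.sum_right _ _ _ fun i _ =>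
    (slice_commute K k v h i).2.mul_right (slice_commute K k v h i).1

theorem cOf_commute (K k : ℕ) (v σ : ι → B) {W : B}
    (h : ∀ i, Commute W (v i) ∧ Commute W (star (v i))) (hσ : ∀ i, Commute W (σ i)) :
    Commute W (cOf K k v σ) :=
  Commute.sum_right _ _ _ fun i _ =>
    ((slice_commute K k v h i).2.mul_right (hσ i)).mul_right (slice_commute K k v h i).1

theorem cOf_balance {t : B →ₗ[ℝ] ℝ} (ht : IsTrace t) (K k : ℕ) (v σ : ι → B) (M : B)
    (h : ∀ i (w : B), (∀ z : B, (∀ j, Commute z (v j) ∧ Commute z (star (v j))) →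
      Commute z M → Commute z w) → t (w * σ i) = 0) :
    t (M * cOf K k v σ) = 0 := by
  rw [cOf, Finset.mul_sum, map_sum]
  refine Finset.sum_eq_zero fun i _ => ?_
  rw [← mul_assoc, ht.comm, ← mul_assoc, ← mul_assoc]
  exact h i _ fun z hz hM =>
    ((slice_commute K k v hz i).1.mul_right hM).mul_right (slice_commute K k v hz i).2

theorem slice_map {C : Type*} [CStarAlgebra C] (φ : B →⋆ₐ[ℂ] C) (K k : ℕ) (v : ι → B) (i : ι) :
    φ (slice K k v i) = slice K k (fun i => φ (v i)) i := by
  let Φ : CStarMatrix (Option ι) (Option ι) B →⋆ₐ[ℂ] CStarMatrix (Option ι) (Option ι) C :=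
    { toFun := fun M => M.map φ
      map_one' := by
        refine CStarMatrix.ext fun a b => ?_
        simp only [CStarMatrix.map_apply, CStarMatrix.one_apply]
        split <;> simp
      map_mul' := fun M N => by
        refine CStarMatrix.ext fun a b => ?_
        simp [CStarMatrix.mul_apply, CStarMatrix.map_apply, map_sum]
      map_zero' := by refine CStarMatrix.ext fun a b => ?_; simp [CStarMatrix.map_apply]
      map_add' := fun M N => by
        refine CStarMatrix.ext fun a b => ?_; simp [CStarMatrix.map_apply]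
      commutes' := fun c => by
        refine CStarMatrix.ext fun a b => ?_
        simp only [CStarMatrix.map_apply, CStarMatrix.algebraMap_apply]
        split <;> simp [AlgHomClass.commutes]
      map_star' := fun M => by
        refine CStarMatrix.ext fun a b => ?_
        simp [CStarMatrix.map_apply, CStarMatrix.star_apply, map_star] }
  have hd : Φ (colDil v) = colDil fun i => φ (v i) := by
    refine CStarMatrix.ext fun a b => ?_
    change φ (colDil v a b) = _
    rcases a with _ | x <;> rcases b with _ | y <;> simp [map_star]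
  have h := StarAlgHomClass.map_cfc Φ (oddLayer K k) (colDil v)
    (continuous_oddLayer K k).continuousOn (map_continuous Φ) (colDil_isSelfAdjoint v)
    ((colDil_isSelfAdjoint v).map Φ)
  rw [hd] at h
  exact congrFun₂ h (some i) none

theorem thOf_map {C : Type*} [CStarAlgebra C] (φ : B →⋆ₐ[ℂ] C) (K k : ℕ) (v : ι → B) :
    φ (thOf K k v) = thOf K k (fun i => φ (v i)) := by
  simp [thOf, map_sum, map_star, slice_map]

theorem cOf_map {C : Type*} [CStarAlgebra C] (φ : B →⋆ₐ[ℂ] C) (K k : ℕ) (v σ : ι → B) :
    φ (cOf K k v σ) = cOf K k (fun i => φ (v i)) (fun i => φ (σ i)) := by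
  simp [cOf, map_sum, map_star, slice_map]

theorem slice_perm (K k : ℕ) (v : ι → B) (e : Equiv.Perm ι) (i : ι) :
    slice K k (v ∘ e) i = slice K k v (e i) := by
  set P : CStarMatrix (Option ι) (Option ι) B :=
    CStarMatrix.ofMatrix fun a b => if a = e.optionCongr b then 1 else 0 with hP
  have hPe : ∀ a b, P a b = if a = e.optionCongr b then (1 : B) else 0 := fun _ _ => rfl
  have hPl : ∀ (M : CStarMatrix (Option ι) (Option ι) B) a b,
      (P * M) (e.optionCongr a) b = M a b := fun M a b => by
    simp only [CStarMatrix.mul_apply, hPe, EmbeddingLike.apply_eq_iff_eq]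
    simp
  have hPr : ∀ (M : CStarMatrix (Option ι) (Option ι) B) a b,
      (M * P) a b = M a (e.optionCongr b) := fun M a b => by
    simp only [CStarMatrix.mul_apply, hPe]
    simp
  have hd : P * colDil (v ∘ e) = colDil v * P := by
    refine CStarMatrix.ext fun a b => ?_
    obtain ⟨a, rfl⟩ := e.optionCongr.surjective a
    rw [hPl, hPr]
    rcases a with _ | x <;> rcases b with _ | y <;> simp
  have h' : P * layerMat K k (v ∘ e) = layerMat K k v * P :=
    Vale.P101.intertwine_cfc (colDil_isSelfAdjoint (v ∘ e)) (colDil_isSelfAdjoint v) hd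
      (continuous_oddLayer K k)
  have h := congrFun₂ h' (e.optionCongr (some i)) none
  rwa [hPl, hPr] at h

theorem thOf_perm (K k : ℕ) (v : ι → B) (e : Equiv.Perm ι) :
    thOf K k (v ∘ e) = thOf K k v := by
  simp only [thOf, slice_perm]
  exact Equiv.sum_comp e fun i => star (slice K k v i) * slice K k v i

theorem cOf_perm (K k : ℕ) (v σ : ι → B) (e : Equiv.Perm ι) :
    cOf K k (v ∘ e) (σ ∘ e) = cOf K k v σ := by
  simp only [cOf, slice_perm, Function.comp_apply]
  exact Equiv.sum_comp e fun i => star (slice K k v i) * σ i * slice K k v i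

theorem cOf_linear (K k : ℕ) (v σ σ' : ι → B) (a b : ℝ) :
    cOf K k v (fun i => a • σ i + b • σ' i) = a • cOf K k v σ + b • cOf K k v σ' := by
  simp [cOf, mul_add, add_mul, Finset.sum_add_distrib, Finset.smul_sum]

omit [DecidableEq ι] in
theorem norm_colDil_le [DecidableEq ι] (v : ι → B)
    (hv : ∀ i, IsSelfAdjoint (v i) ∧ v i * v i = v i) :
    ‖colDil v‖ ≤ (Fintype.card ι : ℝ) := by
  have hsum : colDil v = ∑ i, colDil (Pi.single i (v i)) := by
    refine CStarMatrix.ext fun a b => ?_
    rcases a with _ | x <;> rcases b with _ | y <;>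
      simp [mat_sum_apply, Pi.single_apply, apply_ite star]
  rw [hsum]
  refine (norm_sum_le _ _).trans ((Finset.sum_le_sum fun i _ => ?_).trans
    (le_of_eq (by simp : ∑ _i : ι, (1 : ℝ) = Fintype.card ι)))
  set E := colDil (Pi.single i (v i))
  have hE : IsSelfAdjoint E := colDil_isSelfAdjoint _
  have hidem : (E * E) * (E * E) = E * E := by
    have hvi : v i * v i = v i := (hv i).2
    refine CStarMatrix.ext fun a b => ?_
    rcases a with _ | x <;> rcases b with _ | y <;>
      simp [E, CStarMatrix.mul_apply, Fintype.sum_option, Pi.single_apply, apply_ite star,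
        (hv i).1.star_eq, hvi, ← mul_assoc]
  have h1 : ‖E * E‖ = ‖E‖ ^ 2 := by
    rw [pow_two, ← CStarRing.norm_star_mul_self, hE.star_eq]
  have h2 : ‖E * E‖ ^ 2 = ‖E * E‖ := by
    have hs : IsSelfAdjoint (E * E) := by simpa [hE.star_eq] using IsSelfAdjoint.star_mul_self E
    conv_rhs => rw [← hidem]
    rw [pow_two, ← CStarRing.norm_star_mul_self, hs.star_eq]
  have h3 : ‖E * E‖ ≤ 1 := by nlinarith [norm_nonneg (E * E)]
  rw [h1] at h3
  nlinarith [norm_nonneg E]

/-- Entries of nonnegative functions of the dilation have nonnegative trace. -/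
theorem trace_cfc_entry_nonneg {t : B →ₗ[ℝ] ℝ} (ht : IsTrace t) (v : ι → B) {G : ℝ → ℝ}
    (hG : Continuous G) (h0 : ∀ s, 0 ≤ G s) (a : Option ι) :
    0 ≤ t ((cfc G (colDil v)) a a) := by
  set Y := cfc (fun s => Real.sqrt (G s)) (colDil v) with hY
  have e : cfc G (colDil v) = star Y * Y := by
    rw [(IsSelfAdjoint.cfc : IsSelfAdjoint Y).star_eq, hY, ← cfc_mul (R := ℝ) _ _ _]
    exact cfc_congr fun s _ => (Real.mul_self_sqrt (h0 s)).symm
  rw [e, star_mul_apply, map_sum]
  exact Finset.sum_nonneg fun l _ => ht.nonneg _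

/-- The layers of each diagonal entry are dominated by `K` times the squared dilation. -/
theorem trace_sum_layerSq_le {t : B →ₗ[ℝ] ℝ} (ht : IsTrace t) (K V : ℕ) (v : ι → B)
    (a : Option ι) :
    ∑ k ∈ Finset.range V, t (layerSq K k v a a) ≤ K * t ((colDil v * colDil v) a a) := by
  set G : ℝ → ℝ := fun s => (K : ℝ) * (s * s) - ∑ k ∈ Finset.range V, layer K k (s ^ 2) with hG
  have hl : ∀ k ∈ Finset.range V,
      ContinuousOn (fun s : ℝ => layer K k (s ^ 2)) (spectrum ℝ (colDil v)) := fun k _ =>
    ((continuous_layer K k).comp (continuous_pow 2)).continuousOn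
  have hc : Continuous fun s : ℝ => ∑ k ∈ Finset.range V, layer K k (s ^ 2) :=
    continuous_finsetSum _ fun k _ => (continuous_layer K k).comp (continuous_pow 2)
  have h := trace_cfc_entry_nonneg ht v (G := G) (by fun_prop) (fun s => sub_nonneg.2 (by
    rw [← pow_two]; exact sum_layer_le K V (sq_nonneg s))) a
  have e : cfc G (colDil v) =
      (K : ℝ) • (colDil v * colDil v) - ∑ k ∈ Finset.range V, layerSq K k v := by
    rw [hG, cfc_sub (R := ℝ) _ _ _ (by fun_prop) hc.continuousOn, cfc_const_mul (R := ℝ) _ _ _,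
      cfc_mul (R := ℝ) _ _ _, cfc_id' ℝ (colDil v) (colDil_isSelfAdjoint v)]
    congr 1
    have := cfc_sum (a := colDil v) (fun k s => layer K k (s ^ 2)) (Finset.range V) hl
    rw [show (fun s => ∑ k ∈ Finset.range V, layer K k (s ^ 2)) =
      ∑ k ∈ Finset.range V, fun s => layer K k (s ^ 2) by funext s; rw [Finset.sum_apply], this]
    rfl
  rw [e, CStarMatrix.sub_apply, CStarMatrix.smul_apply, mat_sum_apply, map_sub,
    map_smul, smul_eq_mul, map_sum] at h
  linarith

/-- The layers add up to `K` times the column's square. -/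
theorem sum_thOf {K V : ℕ} (v : ι → B) (hv : ∀ i, IsSelfAdjoint (v i) ∧ v i * v i = v i)
    (hV : K * Fintype.card ι ^ 2 ≤ V) :
    ∑ k ∈ Finset.range V, thOf K k v = (K : ℝ) • ∑ i, v i := by
  rcases subsingleton_or_nontrivial B with h | h
  · exact Subsingleton.elim _ _
  have hl : ∀ k ∈ Finset.range V,
      ContinuousOn (fun s : ℝ => layer K k (s ^ 2)) (spectrum ℝ (colDil v)) := fun k _ =>
    ((continuous_layer K k).comp (continuous_pow 2)).continuousOn
  have e : ∑ k ∈ Finset.range V, layerSq K k v = (K : ℝ) • (colDil v * colDil v) := by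
    simp only [layerSq]
    rw [← cfc_sum (a := colDil v) _ _ hl]
    calc cfc (∑ k ∈ Finset.range V, fun s : ℝ => layer K k (s ^ 2)) (colDil v)
        = cfc (fun s : ℝ => (K : ℝ) * (s * s)) (colDil v) := cfc_congr fun s hs => by
          rw [Finset.sum_apply, sum_layer K V (sq_nonneg s), ← pow_two]
          refine min_eq_left ?_
          have h1 := (Real.norm_eq_abs s ▸ spectrum.norm_le_norm_of_mem hs).trans
            (norm_colDil_le v hv)
          have h2 : s ^ 2 ≤ (Fintype.card ι : ℝ) ^ 2 := by
            rw [← sq_abs]; exact pow_le_pow_left₀ (abs_nonneg _) h1 2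
          calc (K : ℝ) * s ^ 2 ≤ K * (Fintype.card ι : ℝ) ^ 2 :=
                mul_le_mul_of_nonneg_left h2 (Nat.cast_nonneg _)
            _ ≤ V := by exact_mod_cast hV
      _ = _ := by
          rw [cfc_const_mul (R := ℝ) _ _ _, cfc_mul (R := ℝ) _ _ _,
            cfc_id' ℝ (colDil v) (colDil_isSelfAdjoint v)]
  have := congrFun₂ e none none
  rw [mat_sum_apply, CStarMatrix.smul_apply, (colDil_mul_self_apply v).1] at this
  simp only [(layerSq_apply K _ v).1, (hv _).1.star_eq, (hv _).2] at this
  exact this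

/-- The layers are nearly projections. -/
theorem thOf_near_proj {t : B →ₗ[ℝ] ℝ} (ht : IsTrace t) {K V : ℕ} (hK : 0 < K) (v : ι → B)
    (hv : ∀ i, IsSelfAdjoint (v i) ∧ v i * v i = v i) :
    ∑ k ∈ Finset.range V, t (thOf K k v - thOf K k v * thOf K k v) ≤ 2 * ∑ i, t (v i) := by
  have hK' : (0 : ℝ) < K := Nat.cast_pos.2 hK
  set a := colDil v with ha
  have has : IsSelfAdjoint a := colDil_isSelfAdjoint v
  have hp : ∀ s : ℝ, 0 < (K : ℝ) * (s * s) + 1 := fun s => by
    have := mul_self_nonneg s; positivity
  set q : ℝ → ℝ := fun s => ((K : ℝ) * (s * s) + 1)⁻¹ with hq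
  have hqc : Continuous q := Continuous.inv₀ (by fun_prop) fun s => (hp s).ne'
  set R := cfc q a with hR
  set r := R none none with hr
  have hl : ∀ k, Continuous fun s : ℝ => layer K k (s ^ 2) := fun k =>
    (continuous_layer K k).comp (continuous_pow 2)
  have hnum : cfc (fun s : ℝ => (K : ℝ) * (s * s) + 1) a = (K : ℝ) • (a * a) + 1 := by
    rw [cfc_add (R := ℝ) (a := a) (fun s => (K : ℝ) * (s * s)) (fun _ => 1), cfc_const_mul (R := ℝ) _ _ _,
      cfc_mul (R := ℝ) _ _ _, cfc_id' ℝ a has, cfc_const_one ℝ a]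
  -- `r` inverts `K N + 1`
  have hinv : (R * ((K : ℝ) • (a * a) + 1)) none none = 1 := by
    rw [hR, ← hnum, ← cfc_mul (R := ℝ) q _ a hqc.continuousOn (by fun_prop),
      cfc_congr (g := fun _ => 1) fun s _ => inv_mul_cancel₀ (hp s).ne', cfc_const_one ℝ a,
      CStarMatrix.one_apply_eq]
  have hN : r * ((K : ℝ) • ∑ j, v j) = 1 - r := by
    rw [eq_sub_iff_add_eq]
    refine Eq.trans ?_ hinv
    rw [CStarMatrix.mul_apply, Fintype.sum_option]
    simp only [CStarMatrix.add_apply, CStarMatrix.smul_apply, ha, (colDil_mul_self_apply v).1,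
      (colDil_mul_self_apply v).2.2.1, (hv _).1.star_eq, (hv _).2, CStarMatrix.one_apply, if_true,
      reduceCtorEq, if_false, smul_zero, add_zero, mul_zero, Finset.sum_const_zero]
    rw [mul_add, mul_one]
  have hrs : IsSelfAdjoint r := congrFun₂ (IsSelfAdjoint.cfc : IsSelfAdjoint R).star_eq none none
  -- `K t (v i r) ≤ t (v i)`
  have hi : ∀ i, K * t (r * v i) ≤ t (v i) := by
    intro i
    set y := t (r * v i) with hy
    have hvi : star (v i) = v i := (hv i).1.star_eq
    have hpos : ∀ j, 0 ≤ t (r * v i * r * v j) := fun j => by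
      have h := ht.nonneg (v i * r * v j)
      rw [star_mul, star_mul, hvi, hrs.star_eq, (hv j).1.star_eq] at h
      refine le_of_le_of_eq h ?_
      calc t (v j * (r * v i) * (v i * r * v j)) = t (v j * (r * (v i * v i) * r * v j)) := by
            simp only [mul_assoc]
        _ = t ((r * v i * r * v j) * v j) := by rw [(hv i).2, ht.comm]
        _ = t (r * v i * r * v j) := by rw [mul_assoc, (hv j).2]
    have hpos' : 0 ≤ t (r * v i * r) := by
      have h := ht.nonneg (v i * r)
      rw [star_mul, hvi, hrs.star_eq] at h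
      calc (0 : ℝ) ≤ t (r * v i * (v i * r)) := h
        _ = t (r * (v i * v i) * r) := by simp only [mul_assoc]
        _ = t (r * v i * r) := by rw [(hv i).2]
    have hz : K * t (r * v i * r * v i) ≤ y := by
      have h2 : t (r * v i * r * ∑ j, v j) ≥ t (r * v i * r * v i) := by
        rw [Finset.mul_sum, map_sum]
        exact Finset.single_le_sum (fun j _ => hpos j) (Finset.mem_univ i)
      have h3 : t (r * v i * r * ((K : ℝ) • ∑ j, v j)) = y - t (r * v i * r) := by
        rw [mul_assoc (r * v i), hN, mul_sub, mul_one, map_sub]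
      rw [mul_smul_comm, map_smul, smul_eq_mul] at h3
      nlinarith
    have hcs : y ^ 2 ≤ t (v i) * t (r * v i * r * v i) := by
      let := CStarAlgebra.spectralOrder B
      have := CStarAlgebra.spectralOrderedRing B
      have h := ht.cauchy_schwarz (v i) (v i * r * v i)
      rw [hvi, (hv i).2] at h
      have e1 : t (v i * (v i * r * v i)) = y := by
        rw [← mul_assoc, ← mul_assoc, (hv i).2, ht.comm, ← mul_assoc, (hv i).2, ht.comm]
      have e2 : t (star (v i * r * v i) * (v i * r * v i)) = t (r * v i * r * v i) := by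
        simp only [star_mul, hvi, hrs.star_eq]
        calc t (v i * (r * v i) * (v i * r * v i)) = t (v i * (r * (v i * v i) * r * v i)) := by
              simp only [mul_assoc]
          _ = t (r * v i * r * v i * v i) := by rw [(hv i).2, ht.comm]
          _ = _ := by rw [mul_assoc, (hv i).2]
      rwa [e1, e2] at h
    have htv : 0 ≤ t (v i) := by
      have h := ht.nonneg (v i); rwa [hvi, (hv i).2] at h
    rcases le_or_gt y 0 with h | h
    · nlinarith
    · have : (K : ℝ) * y * y ≤ t (v i) * y := by nlinarith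
      exact le_of_mul_le_mul_right this h
  -- domination of the near-projection defect
  set G : ℝ → ℝ := fun s => 2 * (1 - q s) -
    ∑ k ∈ Finset.range V, (layer K k (s ^ 2) - layer K k (s ^ 2) * layer K k (s ^ 2)) with hG
  have hG0 : ∀ s, 0 ≤ G s := fun s => by
    have h := sum_layer_near_proj K V (sq_nonneg s)
    have e : (K : ℝ) * s ^ 2 / (K * s ^ 2 + 1) = 1 - q s := by
      rw [hq, pow_two]; field_simp [(hp s).ne']; ring
    rw [e] at h
    exact sub_nonneg.2 h
  have h := trace_cfc_entry_nonneg ht v (G := G)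
    ((continuous_const.mul (continuous_const.sub hqc)).sub
      (continuous_finsetSum _ fun k _ => (hl k).sub ((hl k).mul (hl k)))) hG0 none
  have eG : cfc G a = (2 : ℝ) • (1 - R) -
      ∑ k ∈ Finset.range V, (layerSq K k v - layerSq K k v * layerSq K k v) := by
    rw [hG, cfc_sub (R := ℝ) (fun s => 2 * (1 - q s)) (fun s => ∑ k ∈ Finset.range V,
      (layer K k (s ^ 2) - layer K k (s ^ 2) * layer K k (s ^ 2))) a
      (continuous_const.mul (continuous_const.sub hqc)).continuousOn
      (continuous_finsetSum _ fun k _ => (hl k).sub ((hl k).mul (hl k))).continuousOn,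
      cfc_const_mul (R := ℝ) 2 (fun s => 1 - q s) a (continuous_const.sub hqc).continuousOn,
      cfc_sub (R := ℝ) (fun _ => (1 : ℝ)) q a (by fun_prop) hqc.continuousOn,
      cfc_const_one ℝ a]
    congr 1
    rw [show (fun s : ℝ => ∑ k ∈ Finset.range V,
        (layer K k (s ^ 2) - layer K k (s ^ 2) * layer K k (s ^ 2))) =
      ∑ k ∈ Finset.range V, fun s => layer K k (s ^ 2) - layer K k (s ^ 2) * layer K k (s ^ 2) by
        funext s; rw [Finset.sum_apply],
      cfc_sum (a := a) (fun k s => layer K k (s ^ 2) - layer K k (s ^ 2) * layer K k (s ^ 2))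
        (Finset.range V) fun k _ => ((hl k).sub ((hl k).mul (hl k))).continuousOn]
    refine Finset.sum_congr rfl fun k _ => ?_
    rw [cfc_sub (R := ℝ) (fun s => layer K k (s ^ 2))
        (fun s => layer K k (s ^ 2) * layer K k (s ^ 2)) a (hl k).continuousOn
        ((hl k).mul (hl k)).continuousOn,
      cfc_mul (R := ℝ) (fun s => layer K k (s ^ 2)) (fun s => layer K k (s ^ 2)) a
        (hl k).continuousOn (hl k).continuousOn]
    rfl
  have ek : ∀ k, (layerSq K k v - layerSq K k v * layerSq K k v) none none =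
      thOf K k v - thOf K k v * thOf K k v := fun k => by
    rw [CStarMatrix.sub_apply, CStarMatrix.mul_apply, Fintype.sum_option]
    simp [(layerSq_apply K k v).1, (layerSq_apply K k v).2.1, thOf]
  rw [← ha, eG, CStarMatrix.sub_apply, CStarMatrix.smul_apply, CStarMatrix.sub_apply,
    CStarMatrix.one_apply_eq, mat_sum_apply, map_sub, map_smul, map_sum, ← hr, ← hN,
    mul_smul_comm, map_smul, Finset.mul_sum, map_sum, smul_eq_mul, smul_eq_mul,
    Finset.mul_sum] at h
  simp only [ek] at h
  have := Finset.sum_le_sum fun i (_ : i ∈ Finset.univ) => hi i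
  linarith

/-- The loss of coherence is controlled by the commutator with the Gram matrix. -/
theorem cOf_coherence {t : B →ₗ[ℝ] ℝ} (ht : IsTrace t) (K k : ℕ) (v σ : ι → B)
    (hv : ∀ i, IsSelfAdjoint (v i) ∧ v i * v i = v i)
    (hσ : ∀ i, IsSelfAdjoint (σ i) ∧ σ i * σ i = 1) (hc : ∀ i j, Commute (σ i) (v j)) :
    t (thOf K k v * thOf K k v) - t (cOf K k v σ * cOf K k v σ) ≤
      (K : ℝ) ^ 2 * ∑ i, ∑ j, t ((σ i - σ j) * (σ i - σ j) * (v i * v j * v i)) := by
  set W := slice K k v with hW
  set P : ι → ι → B := fun i j => W i * star (W j) with hP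
  set a := colDil v with ha
  have has : IsSelfAdjoint a := colDil_isSelfAdjoint v
  have haa : IsSelfAdjoint (a * a) := by simpa [has.star_eq] using IsSelfAdjoint.star_mul_self a
  set S : CStarMatrix (Option ι) (Option ι) B := diagMat fun x => x.elim 1 σ with hS
  have hSs : IsSelfAdjoint S := isSelfAdjoint_diagMat fun x => by
    cases x with
    | none => exact IsSelfAdjoint.one _
    | some i => exact (hσ i).1
  have hSS : S * S = 1 := diagMat_mul_self fun x => by
    cases x with
    | none => exact one_mul _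
    | some i => exact (hσ i).2
  have hΘ : layerSq K k v = cfc (layer K k) (a * a) := by
    rw [layerSq, cfc_comp' (R := ℝ) (layer K k) (fun s => s ^ 2) a
      (continuous_layer K k).continuousOn (by fun_prop), cfc_pow_id (R := ℝ) a 2, pow_two]
  set Q := layerSq K k v * S - S * layerSq K k v with hQ
  set C := (a * a) * S - S * (a * a) with hC
  have hT := isTrace_matTr (κ := Option ι) ht
  -- the commutator with the layer is dominated by the commutator with the square
  have hQC : matTr t (star Q * Q) ≤ (K : ℝ) ^ 2 * matTr t (star C * C) := by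
    set b := S * (a * a) * S with hb
    have hbs : IsSelfAdjoint b := by simpa [hSs.star_eq] using haa.conjugate S
    have hint : S * cfc (layer K k) (a * a) = cfc (layer K k) b * S :=
      Vale.P101.intertwine_cfc haa hbs
        (by rw [hb, mul_assoc (S * (a * a)), hSS, mul_one]) (continuous_layer K k)
    have h := Tr'.sq_cfc_sub_le_of_lipschitz hT haa hbs (continuous_layer K k) (L := K)
      (abs_layer_sub_le K k)
    have e1 : Q = (cfc (layer K k) (a * a) - cfc (layer K k) b) * S := by
      rw [hQ, hΘ, hint, sub_mul]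
    have e2 : C = (a * a - b) * S := by rw [hC, hb, sub_mul, mul_assoc (S * (a * a)), hSS, mul_one]
    have e3 : ∀ D : CStarMatrix (Option ι) (Option ι) B, IsSelfAdjoint D →
        matTr t (star (D * S) * (D * S)) = matTr t (D * D) := fun D hD => by
      rw [star_mul, hD.star_eq, hSs.star_eq]
      refine (hT.comm _ _).trans ?_
      rw [mul_assoc, ← mul_assoc S S, hSS, one_mul]
      rfl
    rw [e1, e2, e3 _ (IsSelfAdjoint.cfc.sub IsSelfAdjoint.cfc), e3 _ (haa.sub hbs)]
    exact h
  -- the entries
  have hQe : ∀ i j, Q (some i) (some j) = P i j * σ j - σ i * P i j := fun i j => by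
    rw [hQ, CStarMatrix.sub_apply, mul_diagMat_apply, diagMat_mul_apply,
      (layerSq_apply K k v).2.2.2 i j]
    rfl
  have hCC : matTr t (star C * C) =
      ∑ i, ∑ j, t ((σ i - σ j) * (σ i - σ j) * (v i * v j * v i)) := by
    have hCe : ∀ x y, C x y = (a * a) x y * y.elim 1 σ - x.elim 1 σ * (a * a) x y := fun x y => by
      rw [hC, CStarMatrix.sub_apply, mul_diagMat_apply, diagMat_mul_apply]
    rw [matTr_star_mul]
    simp only [Fintype.sum_option, hCe, ha, (colDil_mul_self_apply v).1,
      (colDil_mul_self_apply v).2.1, (colDil_mul_self_apply v).2.2.1,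
      (colDil_mul_self_apply v).2.2.2, Option.elim, mul_one, one_mul, zero_mul, mul_zero, sub_self,
      star_zero, map_zero, Finset.sum_const_zero, zero_add, add_zero]
    refine Finset.sum_congr rfl fun j _ => Finset.sum_congr rfl fun i _ => ?_
    have hji : star (v j) = v j := (hv j).1.star_eq
    have hii : star (v i) = v i := (hv i).1.star_eq
    have hci : Commute (σ i) (v i * v j) := (hc i i).mul_right (hc i j)
    have e : v i * star (v j) * σ j - σ i * (v i * star (v j)) = v i * v j * (σ j - σ i) := by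
      rw [hji, hci.eq, mul_sub]
    rw [e]
    have hds : star (σ j - σ i) = σ j - σ i := ((hσ j).1.sub (hσ i).1).star_eq
    calc t (star (v i * v j * (σ j - σ i)) * (v i * v j * (σ j - σ i)))
        = t (((σ j - σ i) * (v j * v i)) * (v i * v j * (σ j - σ i))) := by
          simp only [star_mul, hds, hji, hii]
      _ = t ((σ j - σ i) * (v j * (v i * v i) * v j) * (σ j - σ i)) := by simp only [mul_assoc]
      _ = t ((σ j - σ i) * (σ j - σ i) * (v j * v i * v j)) := by
          rw [(hv i).2, ht.comm, ← mul_assoc]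
  have hsum : ∑ j, ∑ i, t (star (P i j * σ j - σ i * P i j) * (P i j * σ j - σ i * P i j)) ≤
      matTr t (star Q * Q) := by
    rw [matTr_star_mul, Fintype.sum_option]
    refine le_add_of_nonneg_of_le (Finset.sum_nonneg fun l _ => ht.nonneg _) ?_
    refine Finset.sum_le_sum fun j _ => ?_
    rw [Fintype.sum_option]
    refine le_add_of_nonneg_of_le (ht.nonneg _) (le_of_eq ?_)
    simp only [hQe]
  have hexp : ∀ i j, t (star (P i j * σ j - σ i * P i j) * (P i j * σ j - σ i * P i j)) =
      2 * t (star (W j) * W j * (star (W i) * W i)) -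
        2 * t (star (W j) * σ j * W j * (star (W i) * σ i * W i)) := fun i j => by
    have hsj : star (σ j) = σ j := (hσ j).1.star_eq
    have hsi : star (σ i) = σ i := (hσ i).1.star_eq
    have hPs : star (P i j) = P j i := by simp [hP]
    simp only [star_sub, star_mul, hsj, hsi, hPs, sub_mul, mul_sub, map_sub]
    have A1 : t (σ j * P j i * (P i j * σ j)) = t (P j i * P i j) := by
      calc t (σ j * P j i * (P i j * σ j)) = t (σ j * (P j i * P i j * σ j)) := by
            simp only [mul_assoc]
        _ = t (P j i * P i j * σ j * σ j) := ht.comm _ _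
        _ = _ := by rw [mul_assoc, (hσ j).2, mul_one]
    have A2 : t (P j i * σ i * (σ i * P i j)) = t (P j i * P i j) := by
      rw [mul_assoc, ← mul_assoc (σ i), (hσ i).2, one_mul]
    have A3 : t (P j i * σ i * (P i j * σ j)) = t (σ j * P j i * (σ i * P i j)) := by
      calc t (P j i * σ i * (P i j * σ j)) = t (P j i * σ i * P i j * σ j) := by
            simp only [mul_assoc]
        _ = t (σ j * (P j i * σ i * P i j)) := ht.comm _ _
        _ = _ := by simp only [mul_assoc]
    have B1 : t (P j i * P i j) = t (star (W j) * W j * (star (W i) * W i)) := by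
      calc t (P j i * P i j) = t (W j * (star (W i) * W i * star (W j))) := by
            simp only [hP, mul_assoc]
        _ = t (star (W i) * W i * star (W j) * W j) := ht.comm _ _
        _ = t ((star (W i) * W i) * (star (W j) * W j)) := by simp only [mul_assoc]
        _ = _ := ht.comm _ _
    have B3 : t (σ j * P j i * (σ i * P i j)) =
        t (star (W j) * σ j * W j * (star (W i) * σ i * W i)) := by
      calc t (σ j * P j i * (σ i * P i j))
          = t ((σ j * W j * star (W i) * σ i * W i) * star (W j)) := by simp only [hP, mul_assoc]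
        _ = t (star (W j) * (σ j * W j * star (W i) * σ i * W i)) := ht.comm _ _
        _ = _ := by simp only [mul_assoc]
    rw [A1, A2, A3, B1, B3]
    ring
  have hnn : 0 ≤ ∑ j, ∑ i, t (star (P i j * σ j - σ i * P i j) * (P i j * σ j - σ i * P i j)) :=
    Finset.sum_nonneg fun j _ => Finset.sum_nonneg fun i _ => ht.nonneg _
  have hlhs : 2 * (t (thOf K k v * thOf K k v) - t (cOf K k v σ * cOf K k v σ)) =
      ∑ j, ∑ i, t (star (P i j * σ j - σ i * P i j) * (P i j * σ j - σ i * P i j)) := by
    rw [Finset.sum_congr rfl fun j _ => Finset.sum_congr rfl fun i _ => hexp i j]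
    simp only [thOf, cOf, Finset.sum_mul, Finset.mul_sum, map_sum, Finset.sum_sub_distrib,
      mul_sub, ← hW]
    congr 1 <;> exact Finset.sum_comm
  have hall := hsum.trans (hQC.trans_eq (by rw [hCC]))
  linarith

/-- Stability in the column and in the symmetries: only positions outside `good` may change. -/
theorem cOf_stable {t : B →ₗ[ℝ] ℝ} (ht : IsTrace t) {K V : ℕ} (v v' σ σ' : ι → B)
    (hσ : ∀ i, IsSelfAdjoint (σ i) ∧ σ i * σ i = 1)
    (hσ' : ∀ i, IsSelfAdjoint (σ' i) ∧ σ' i * σ' i = 1)
    (good : Finset ι) (hgood : ∀ i ∈ good, v' i = v i ∧ σ' i = σ i) {A D : ℝ}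
    (hA : ∑ i, t (star (v i) * v i) ≤ A) (hA' : ∑ i, t (star (v' i) * v' i) ≤ A)
    (hD : ∑ i ∈ goodᶜ, (t (star (v i) * v i) + t (star (v' i) * v' i)) ≤ D) :
    ∃ a : ℕ → ℝ, (∀ k < V, ∀ z : B,
        |t (z * (cOf K k v' σ' - cOf K k v σ))| ≤ a k * ‖z‖ ∧
        |t (z * (thOf K k v' - thOf K k v))| ≤ a k * ‖z‖) ∧
      ∑ k ∈ Finset.range V, a k ≤ 100 * K * Real.sqrt (Real.sqrt D) * Real.sqrt A *
        Real.sqrt (Real.sqrt A) := by
  set n₂ : B → ℝ := fun x => Real.sqrt (t (star x * x)) with hn₂
  set W := fun k => slice K k v with hW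
  set W' := fun k => slice K k v' with hW'
  set a : ℕ → ℝ := fun k =>
    (∑ i ∈ good, n₂ (W' k i - W k i) * (n₂ (W k i) + n₂ (W' k i))) +
      ∑ i ∈ goodᶜ, (t (star (W k i) * W k i) + t (star (W' k i) * W' k i)) with ha
  -- one bound for both differences
  have main : ∀ (k : ℕ) (z : B) (τ τ' : ι → B), (∀ i, star (τ i) * τ i = 1) →
      (∀ i, star (τ' i) * τ' i = 1) → (∀ i ∈ good, τ' i = τ i) →
      |t (z * ((∑ i, star (W' k i) * (τ' i * W' k i)) - ∑ i, star (W k i) * (τ i * W k i)))| ≤
        a k * ‖z‖ := by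
    intro k z τ τ' hτ hτ' heq
    have hn : ∀ (u : ι → B), (∀ i, star (u i) * u i = 1) → ∀ i (y : B),
        n₂ (u i * y) = n₂ y := fun u hu i y => by
      simp only [hn₂]
      rw [star_mul, mul_assoc, ← mul_assoc (star (u i)), hu i, one_mul]
    rw [← Finset.sum_sub_distrib, Finset.mul_sum, map_sum]
    refine (Finset.abs_sum_le_sum_abs _ _).trans ?_
    rw [← Finset.sum_add_sum_compl good, ha, add_mul, Finset.sum_mul, Finset.sum_mul]
    refine add_le_add (Finset.sum_le_sum fun i hi => ?_) (Finset.sum_le_sum fun i _ => ?_)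
    · rw [heq i hi]
      have e : star (W' k i) * (τ i * W' k i) - star (W k i) * (τ i * W k i) =
          star (W' k i) * (τ i * (W' k i - W k i)) +
            star (W' k i - W k i) * (τ i * W k i) := by
        simp only [star_sub, mul_sub, sub_mul]; abel
      rw [e, mul_add, map_add]
      refine (abs_add_le _ _).trans ?_
      refine (add_le_add (abs_trace_mul_star_mul_le ht z _ _)
        (abs_trace_mul_star_mul_le ht z _ _)).trans (le_of_eq ?_)
      change ‖z‖ * (n₂ _ * n₂ _) + ‖z‖ * (n₂ _ * n₂ _) = _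
      rw [hn τ hτ, hn τ hτ]
      ring
    · rw [mul_sub, map_sub]
      refine (abs_sub _ _).trans ?_
      refine (add_le_add (abs_trace_mul_star_mul_le ht z _ _)
        (abs_trace_mul_star_mul_le ht z _ _)).trans (le_of_eq ?_)
      change ‖z‖ * (n₂ _ * n₂ _) + ‖z‖ * (n₂ _ * n₂ _) = _
      rw [hn τ hτ, hn τ' hτ']
      simp only [hn₂, Real.mul_self_sqrt (ht.nonneg _)]
      ring
  refine ⟨a, fun k _ z => ⟨?_, ?_⟩, ?_⟩
  · have := main k z σ σ' (fun i => by rw [(hσ i).1.star_eq, (hσ i).2])
      (fun i => by rw [(hσ' i).1.star_eq, (hσ' i).2]) fun i hi => (hgood i hi).2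
    simpa only [cOf, mul_assoc] using this
  · have := main k z (fun _ => 1) (fun _ => 1) (fun i => by simp) (fun i => by simp)
      fun i _ => rfl
    simpa only [thOf, one_mul] using this
  -- the sum
  set T := matTr (κ := Option ι) t with hT
  have hTr := isTrace_matTr (κ := Option ι) ht
  set D₀ := ∑ i ∈ goodᶜ, (t (star (v i) * v i) + t (star (v' i) * v' i)) with hD₀
  have hnv : ∀ x : B, 0 ≤ t (star x * x) := ht.nonneg
  have hA0 : 0 ≤ A := (Finset.sum_nonneg fun i _ => hnv _).trans hA
  have hD0 : 0 ≤ D₀ := Finset.sum_nonneg fun i _ => add_nonneg (hnv _) (hnv _)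
  have hDA : D₀ ≤ 2 * A := by
    refine (Finset.sum_le_sum_of_subset_of_nonneg (Finset.subset_univ _)
      fun i _ _ => add_nonneg (hnv _) (hnv _)).trans ?_
    rw [Finset.sum_add_distrib]
    linarith
  -- masses
  have hmass : ∀ (u : ι → B) (s : Finset ι), ∑ k ∈ Finset.range V, ∑ i ∈ s,
      t (star (slice K k u i) * slice K k u i) ≤ K * ∑ i ∈ s, t (star (u i) * u i) := fun u s => by
    rw [Finset.sum_comm, Finset.mul_sum]
    refine Finset.sum_le_sum fun i _ => ?_
    have h := trace_sum_layerSq_le ht K V u (some i)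
    simp only [(layerSq_apply K _ u).2.2.2 i i, (colDil_mul_self_apply u).2.2.2 i i] at h
    rw [ht.comm (u i)] at h
    refine le_of_eq_of_le (Finset.sum_congr rfl fun k _ => ?_) h
    exact ht.comm _ _
  -- the differences
  have hdiff : ∑ k ∈ Finset.range V, ∑ i ∈ good, t (star (W' k i - W k i) * (W' k i - W k i)) ≤
      16 * K * Real.sqrt D₀ * Real.sqrt A := by
    have h := Tr'.sum_sq_cfc_sub_le hTr (colDil_isSelfAdjoint v') (colDil_isSelfAdjoint v)
      (f := fun k : Fin V => oddLayer K k) (fun k => continuous_oddLayer K k)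
      (C := 2 * K) (by positivity) (sum_sq_oddLayer_sub K V)
    rw [colDil_sub] at h
    erw [matTr_colDil_mul_self ht, matTr_colDil_mul_self ht, matTr_colDil_mul_self ht] at h
    have hd : 2 * ∑ i, t (star ((v' - v) i) * (v' - v) i) ≤ 4 * D₀ := by
      rw [← Finset.sum_add_sum_compl good, Finset.sum_eq_zero (s := good), zero_add, hD₀,
        Finset.mul_sum, Finset.mul_sum]
      · refine Finset.sum_le_sum fun i _ => ?_
        let := CStarAlgebra.spectralOrder B
        have := CStarAlgebra.spectralOrderedRing B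
        have h2 := ht.add_mul_self_le (v' i) (-(v i))
        rw [← sub_eq_add_neg, star_neg, neg_mul_neg] at h2
        rw [Pi.sub_apply]
        linarith
      · intro i hi
        rw [Pi.sub_apply, (hgood i hi).1, sub_self, star_zero, zero_mul, map_zero]
    have hb : ∀ u : ι → B, ∑ i, t (star (u i) * u i) ≤ A →
        Real.sqrt (2 * ∑ i, t (star (u i) * u i)) ≤ 2 * Real.sqrt A := fun u hu => by
      rw [Real.sqrt_le_left (by positivity), mul_pow, Real.sq_sqrt hA0]
      linarith
    have h4 : Real.sqrt (2 * ∑ i, t (star ((v' - v) i) * (v' - v) i)) ≤ 2 * Real.sqrt D₀ := by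
      rw [Real.sqrt_le_left (by positivity), mul_pow, Real.sq_sqrt hD0]
      linarith
    have hle : ∀ k : ℕ, ∑ i ∈ good, t (star (W' k i - W k i) * (W' k i - W k i)) ≤
        T ((layerMat K k v' - layerMat K k v) * (layerMat K k v' - layerMat K k v)) := fun k => by
      have hs : IsSelfAdjoint (layerMat K k v' - layerMat K k v) :=
        (isSelfAdjoint_layerMat K k v').sub (isSelfAdjoint_layerMat K k v)
      conv_rhs => enter [2, 1]; rw [← hs.star_eq]
      rw [hT, matTr_star_mul, Fintype.sum_option, Fintype.sum_option]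
      refine le_add_of_le_of_nonneg ?_ (Finset.sum_nonneg fun _ _ =>
        Finset.sum_nonneg fun _ _ => ht.nonneg _)
      refine le_add_of_nonneg_of_le (ht.nonneg _) ?_
      exact Finset.sum_le_sum_of_subset_of_nonneg (Finset.subset_univ _) fun i _ _ => ht.nonneg _
    refine ((Finset.sum_le_sum fun k _ => hle k).trans_eq
      (Fin.sum_univ_eq_sum_range (fun k => T ((layerMat K k v' - layerMat K k v) *
        (layerMat K k v' - layerMat K k v))) V).symm).trans (h.trans ?_)
    calc 2 * (K : ℝ) * Real.sqrt (2 * ∑ i, t (star ((v' - v) i) * (v' - v) i)) *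
          (Real.sqrt (2 * ∑ i, t (star (v' i) * v' i)) + Real.sqrt (2 * ∑ i, t (star (v i) * v i)))
        ≤ 2 * (K : ℝ) * (2 * Real.sqrt D₀) * (2 * Real.sqrt A + 2 * Real.sqrt A) :=
          mul_le_mul (mul_le_mul_of_nonneg_left h4 (by positivity))
            (add_le_add (hb v' hA') (hb v hA)) (by positivity) (by positivity)
      _ = 16 * K * Real.sqrt D₀ * Real.sqrt A := by ring
  -- Cauchy-Schwarz over all layers and positions
  set I := Finset.range V ×ˢ good with hI
  set x := Real.sqrt (Real.sqrt D) with hx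
  set y := Real.sqrt (Real.sqrt A) with hy
  have hy2 : y ^ 2 = Real.sqrt A := Real.sq_sqrt (Real.sqrt_nonneg _)
  have hx0 : Real.sqrt D₀ ≤ x ^ 2 := by
    rw [hx, Real.sq_sqrt (Real.sqrt_nonneg _)]; exact Real.sqrt_le_sqrt hD
  have hgood1 : ∑ k ∈ Finset.range V, ∑ i ∈ good, n₂ (W' k i - W k i) * (n₂ (W k i) + n₂ (W' k i))
      ≤ 8 * K * x * (y ^ 2 * y) := by
    rw [← Finset.sum_product']
    refine (Real.sum_mul_le_sqrt_mul_sqrt _ _ _).trans ?_
    have h1 : ∑ p ∈ I, n₂ (W' p.1 p.2 - W p.1 p.2) ^ 2 ≤ (4 * x * y) ^ 2 * K := by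
      simp only [hn₂, Real.sq_sqrt (hnv _)]
      rw [hI, Finset.sum_product]
      refine hdiff.trans ?_
      rw [← hy2]
      have : 0 ≤ (K : ℝ) * y ^ 2 := by positivity
      nlinarith
    have h2 : ∑ p ∈ I, (n₂ (W p.1 p.2) + n₂ (W' p.1 p.2)) ^ 2 ≤ (2 * y ^ 2) ^ 2 * K := by
      refine (Finset.sum_le_sum fun p _ => add_sq_le).trans ?_
      simp only [hn₂, Real.sq_sqrt (hnv _)]
      rw [← Finset.mul_sum, Finset.sum_add_distrib, hI, Finset.sum_product, Finset.sum_product]
      have e : (2 * y ^ 2) ^ 2 = 4 * A := by rw [hy2, mul_pow, Real.sq_sqrt hA0]; norm_num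
      have f1 : ∀ u : ι → B, ∑ i ∈ good, t (star (u i) * u i) ≤ ∑ i, t (star (u i) * u i) :=
        fun u => Finset.sum_le_sum_of_subset_of_nonneg (Finset.subset_univ _) fun i _ _ => hnv _
      have g1 := (hmass v good).trans (mul_le_mul_of_nonneg_left ((f1 v).trans hA)
        (Nat.cast_nonneg (α := ℝ) K))
      have g2 := (hmass v' good).trans (mul_le_mul_of_nonneg_left ((f1 v').trans hA')
        (Nat.cast_nonneg (α := ℝ) K))
      rw [e]
      linarith
    refine (mul_le_mul (Real.sqrt_le_sqrt h1) (Real.sqrt_le_sqrt h2) (Real.sqrt_nonneg _)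
      (Real.sqrt_nonneg _)).trans (le_of_eq ?_)
    rw [Real.sqrt_mul (by positivity), Real.sqrt_mul (by positivity), Real.sqrt_sq (by positivity),
      Real.sqrt_sq (by positivity)]
    have := Real.mul_self_sqrt (Nat.cast_nonneg (α := ℝ) K)
    linear_combination (8 * x * (y ^ 2 * y)) * this
  have hbad : ∑ k ∈ Finset.range V, ∑ i ∈ goodᶜ,
      (t (star (W k i) * W k i) + t (star (W' k i) * W' k i)) ≤ 4 * K * x * (y ^ 2 * y) := by
    simp only [Finset.sum_add_distrib]
    have h5 : D₀ ≤ 4 * x * (y ^ 2 * y) := by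
      have s0 := Real.sqrt_nonneg D₀
      have s1 : Real.sqrt D₀ ≤ 2 * y ^ 2 := by
        rw [hy2, Real.sqrt_le_left (by positivity), mul_pow, Real.sq_sqrt hA0]; linarith
      have s2 : Real.sqrt D₀ ≤ 2 * x * y := by
        rw [← abs_of_nonneg s0, ← abs_of_nonneg (show 0 ≤ 2 * x * y by positivity),
          ← sq_le_sq]
        nlinarith
      rw [← Real.mul_self_sqrt hD0]
      calc Real.sqrt D₀ * Real.sqrt D₀ ≤ (2 * x * y) * (2 * y ^ 2) :=
            mul_le_mul s2 s1 s0 (by positivity)
        _ = _ := by ring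
    have b1 := hmass v goodᶜ
    have b2 := hmass v' goodᶜ
    have b3 : (K : ℝ) * D₀ ≤ K * (4 * x * (y ^ 2 * y)) :=
      mul_le_mul_of_nonneg_left h5 (Nat.cast_nonneg _)
    rw [hD₀, Finset.sum_add_distrib, mul_add] at b3
    linarith
  rw [ha, Finset.sum_add_distrib, ← hy2]
  have : 0 ≤ (K : ℝ) * x * (y ^ 2 * y) := by positivity
  linarith

end Fn

section Order

variable {ι B : Type*} [Fintype ι] [DecidableEq ι] [CStarAlgebra B] [PartialOrder B]
  [StarOrderedRing B]

theorem thOf_bounds (K k : ℕ) (v : ι → B) : 0 ≤ thOf K k v ∧ thOf K k v ≤ 1 := by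
  refine ⟨Finset.sum_nonneg fun i _ => star_mul_self_nonneg _, ?_⟩
  rcases subsingleton_or_nontrivial B with h | h
  · exact (Subsingleton.elim _ _).le
  rw [← sub_nonneg]
  let g : ℝ → ℝ := fun s => Real.sqrt (1 - layer K k (s ^ 2))
  have hg : Continuous g :=
    (continuous_const.sub ((continuous_layer K k).comp (continuous_pow 2))).sqrt
  set Y := cfc g (colDil v) with hY
  have e : (1 : CStarMatrix (Option ι) (Option ι) B) - layerSq K k v = star Y * Y := by
    rw [(IsSelfAdjoint.cfc : IsSelfAdjoint Y).star_eq, hY,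
      ← cfc_mul (R := ℝ) g g (colDil v) hg.continuousOn hg.continuousOn, layerSq,
      ← cfc_const_one ℝ (colDil v) (colDil_isSelfAdjoint v),
      ← cfc_sub (R := ℝ) (fun _ => (1 : ℝ)) (fun s : ℝ => layer K k (s ^ 2)) (colDil v)
        (by fun_prop)
        ((continuous_layer K k).comp (continuous_pow 2)).continuousOn]
    exact cfc_congr fun s _ => (Real.mul_self_sqrt (sub_nonneg.2 (layer_le_one _ _ _))).symm
  have h2 := congrFun₂ e none none
  rw [CStarMatrix.sub_apply, CStarMatrix.one_apply_eq, (layerSq_apply K k v).1,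
    star_mul_apply] at h2
  rw [thOf, h2]
  exact Finset.sum_nonneg fun l _ => star_mul_self_nonneg _

theorem cOf_bounds (K k : ℕ) (v σ : ι → B) (hσ : ∀ i, IsSelfAdjoint (σ i) ∧ σ i * σ i = 1) :
    IsSelfAdjoint (cOf K k v σ) ∧ cOf K k v σ ≤ thOf K k v ∧ -thOf K k v ≤ cOf K k v σ := by
  have half : ∀ u : B, IsSelfAdjoint u → u * u = 1 → 0 ≤ 1 - u := fun u hu hu2 => by
    have h : (1 / 2 : ℝ) • (star (1 - u) * (1 - u)) = 1 - u := by
      rw [star_sub, star_one, hu.star_eq, sub_mul, mul_sub, mul_sub, hu2, one_mul, mul_one, one_mul]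
      module
    rw [← h]
    exact smul_nonneg (by norm_num) (star_mul_self_nonneg _)
  refine ⟨?_, ?_, ?_⟩
  · rw [cOf, IsSelfAdjoint, star_sum]
    exact Finset.sum_congr rfl fun i _ => by
      rw [star_mul, star_mul, star_star, (hσ i).1.star_eq, mul_assoc]
  · refine Finset.sum_le_sum fun i _ => ?_
    rw [← sub_nonneg]
    have := star_left_conjugate_nonneg (half _ (hσ i).1 (hσ i).2) (slice K k v i)
    rwa [mul_sub, mul_one, sub_mul] at this
  · rw [thOf, cOf, ← Finset.sum_neg_distrib]
    refine Finset.sum_le_sum fun i _ => ?_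
    rw [neg_le_iff_add_nonneg]
    have := star_left_conjugate_nonneg
      (half _ (hσ i).1.neg (by rw [neg_mul_neg, (hσ i).2])) (slice K k v i)
    rw [sub_neg_eq_add, mul_add, mul_one, add_mul] at this
    rwa [add_comm]

end Order

end Vale.P095.McDuff
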