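import Vale.Agent.P095.McDuff.Slot
import Vale.Agent.P095.McDuff.Round
import Vale.Agent.P095.McDuff.Labels
import Vale.Agent.P095.McDuff.Race

/-!
The elements of the race built from families of copies and symmetries, in any algebra (helper13).

Round `r` has the slots `x r i g` and the symmetries `u r b`; a label is a word of signs, read
through `e` as an omitted slot, bases and a layer. `f` lists the translates.
-/

open Vale.P095.Tracial

namespace Vale.P095.McDuff

variable {C : Type*} [CStarAlgebra C] {G : Type*} {ι : Type*} [Fintype ι] [DecidableEq ι]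
  {L M V : ℕ}

/-- The column of a label. -/
noncomputable def colV (x : ℕ → Fin L → G → C) (f : ι → G) (r : ℕ) (i : Fin L)
    (β : Fin L → Bool) : ι → C :=
  fun h => omitProd (x r) β i (f h)

/-- The symmetries of a label. -/
noncomputable def colS (x : ℕ → Fin L → G → C) (f : ι → G) (r : ℕ) (i : Fin L) (a b : ℝ) : ι → C :=
  fun h => sig a b (x r i (f h))

/-- The mass of a label. -/
noncomputable def thF (K : ℕ) (e : (Fin M → Bool) ≃ Fin L × (Fin L → Bool) × Fin V)
    (x : ℕ → Fin L → G → C) (f : ι → G) (r : ℕ) (lam : Fin M → Bool) : C :=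
  thOf K ((e lam).2.2 : ℕ) (colV x f r (e lam).1 (e lam).2.1)

/-- The content of a label. -/
noncomputable def cF (K : ℕ) (e : (Fin M → Bool) ≃ Fin L × (Fin L → Bool) × Fin V)
    (x : ℕ → Fin L → G → C) (f : ι → G) (a b : ℝ) (r : ℕ) (lam : Fin M → Bool) : C :=
  cOf K ((e lam).2.2 : ℕ) (colV x f r (e lam).1 (e lam).2.1) (colS x f r (e lam).1 a b)

/-- The labels of a round. -/
noncomputable def qF (u : ℕ → Fin M → C) (r : ℕ) (lam : Fin M → Bool) : C := label (u r) lam

/-- The outcome of the race. -/
noncomputable def raceEl (K R : ℕ) (e : (Fin M → Bool) ≃ Fin L × (Fin L → Bool) × Fin V)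
    (x : ℕ → Fin L → G → C) (u : ℕ → Fin M → C) (f : ι → G) (a b : ℝ) : C :=
  race (qF u) (cF K e x f a b) (thF K e x f) 0 R

variable {K R : ℕ} {e : (Fin M → Bool) ≃ Fin L × (Fin L → Bool) × Fin V}
  {x : ℕ → Fin L → G → C} {u : ℕ → Fin M → C} {f : ι → G}

theorem map_colV {D : Type*} [CStarAlgebra D] (φ : C →⋆ₐ[ℂ] D) (r : ℕ) (i : Fin L)
    (β : Fin L → Bool) :
    (fun h => φ (colV x f r i β h)) = colV (fun r i g => φ (x r i g)) f r i β := by
  funext h
  exact map_omitProd φ (x r) β i (f h)

theorem map_thF {D : Type*} [CStarAlgebra D] (φ : C →⋆ₐ[ℂ] D) (r : ℕ) (lam : Fin M → Bool) :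
    φ (thF K e x f r lam) = thF K e (fun r i g => φ (x r i g)) f r lam := by
  rw [thF, thOf_map, map_colV]
  rfl

theorem map_cF {D : Type*} [CStarAlgebra D] (φ : C →⋆ₐ[ℂ] D) (a b : ℝ) (r : ℕ)
    (lam : Fin M → Bool) :
    φ (cF K e x f a b r lam) = cF K e (fun r i g => φ (x r i g)) f a b r lam := by
  rw [cF, cOf_map, map_colV]
  congr 1
  funext h
  exact map_sig φ a b _

theorem map_raceEl {D : Type*} [CStarAlgebra D] (φ : C →⋆ₐ[ℂ] D) (a b : ℝ) :
    φ (raceEl K R e x u f a b) =
      raceEl K R e (fun r i g => φ (x r i g)) (fun r s => φ (u r s)) f a b := by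
  rw [raceEl, map_race]
  unfold raceEl
  congr 1
  · funext r lam; exact map_label φ (u r) lam
  · funext r lam; exact map_cF φ a b r lam
  · funext r lam; exact map_thF φ r lam

theorem commute_colV {W : C} {r : ℕ} (hW : ∀ i g, Commute W (x r i g) ∧ Commute W (star (x r i g)))
    (hW' : ∀ i g, Commute (star W) (x r i g) ∧ Commute (star W) (star (x r i g))) (i : Fin L)
    (β : Fin L → Bool) (h : ι) :
    Commute W (colV x f r i β h) ∧ Commute W (star (colV x f r i β h)) := by
  refine ⟨commute_omitProd β i _ fun j => hW j _, ?_⟩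
  simpa [colV] using (commute_omitProd (x := x r) β i (f h) fun j => hW' j _).star_star

theorem commute_sig {W y : C} (h : Commute W y ∧ Commute W (star y)) (a b : ℝ) :
    Commute W (sig a b y) := by
  refine (Commute.smul_right ?_ a).add_right (Commute.smul_right ?_ b)
  · exact (h.1.mul_right h.2).sub_right (h.2.mul_right h.1)
  · exact h.1.add_right h.2

theorem commute_thF {W : C} {r : ℕ} (hW : ∀ i g, Commute W (x r i g) ∧ Commute W (star (x r i g)))
    (hW' : ∀ i g, Commute (star W) (x r i g) ∧ Commute (star W) (star (x r i g)))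
    (lam : Fin M → Bool) : Commute W (thF K e x f r lam) :=
  thOf_commute K _ _ fun h => commute_colV hW hW' _ _ h

theorem commute_cF {W : C} {r : ℕ} (hW : ∀ i g, Commute W (x r i g) ∧ Commute W (star (x r i g)))
    (hW' : ∀ i g, Commute (star W) (x r i g) ∧ Commute (star W) (star (x r i g))) (a b : ℝ)
    (lam : Fin M → Bool) : Commute W (cF K e x f a b r lam) :=
  cOf_commute K _ _ _ (fun h => commute_colV hW hW' _ _ h) fun h => commute_sig (hW _ _) a b

theorem cF_linear (a b : ℝ) (r : ℕ) (lam : Fin M → Bool) :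
    cF K e x f a b r lam = a • cF K e x f 1 0 r lam + b • cF K e x f 0 1 r lam := by
  simp only [cF]
  rw [← cOf_linear]
  congr 1
  funext h
  simp [colS, sig]

theorem raceEl_linear (a b : ℝ) :
    raceEl K R e x u f a b = a • raceEl K R e x u f 1 0 + b • raceEl K R e x u f 0 1 := by
  unfold raceEl
  rw [← race_linear]
  congr 1
  funext r lam
  exact cF_linear a b r lam

/-- Reordering the translates changes nothing. -/
theorem raceEl_perm (p : Equiv.Perm ι) (a b : ℝ) :
    raceEl K R e x u (f ∘ p) a b = raceEl K R e x u f a b := by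
  have h1 : cF K e x (f ∘ p) a b = cF K e x f a b := by
    funext r lam
    exact cOf_perm K _ (colV x f r (e lam).1 (e lam).2.1) (colS x f r (e lam).1 a b) p
  have h2 : thF K e x (f ∘ p) = thF K e x f := by
    funext r lam
    exact thOf_perm K _ (colV x f r (e lam).1 (e lam).2.1) p
  rw [raceEl, raceEl, h1, h2]

end Vale.P095.McDuff
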