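import Vale.Agent.P095.McDuff.Family
import Vale.Agent.P095.McDuff.Model
import Vale.Agent.P095.Finite.Fun
import Vale.Agent.P095.Tracial.Weight

/-!
The race in the faithful model of a limit of traces (helper13).

Index `n` carries copies for `n + R` rounds with accuracy `1 / (n + 1)`; in the model every
relation is exact. `com b s` consists of the sequences commuting, at each index, with the copies
of the symmetries of the rounds `< b` and of the slots of the rounds `< s`.
-/

open scoped BoundedContinuousFunction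
open Filter Topology
open Vale.P095.Tracial

noncomputable section

namespace Vale.P095.McDuff

universe u

section

variable {G : Type*} [Group G] {E : Type u} [CStarAlgebra E]

/-- Commuting copies carrying approximate matrix units and approximately invariant balanced
approximate symmetries, for every trace. -/
structure Data (β : G → E →⋆ₐ[ℂ] E) (Q : Finset G) (δ : ℝ) (ι κ : Type*) where
  /-- The matrix units. -/
  y : ι → E
  /-- The symmetries. -/
  u : κ → E
  /-- The copies. -/
  D : ι ⊕ κ → Set E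
  y_mem : ∀ i g, β g (y i) ∈ D (Sum.inl i)
  u_mem : ∀ b, u b ∈ D (Sum.inr b)
  star_mem : ∀ p, ∀ x ∈ D p, star x ∈ D p
  comm : ∀ p q, p ≠ q → ∀ x ∈ D p, ∀ z ∈ D q, Commute x z
  y_norm : ∀ i, ‖y i‖ ≤ 1
  u_norm : ∀ b, ‖u b‖ ≤ 1
  u_sa : ∀ b, IsSelfAdjoint (u b)
  y_sq : ∀ t : E →ₗ[ℝ] ℝ, IsTrace t → ∀ i, t (star (y i * y i) * (y i * y i)) ≤ δ * t 1
  y_unit : ∀ t : E →ₗ[ℝ] ℝ, IsTrace t → ∀ i,
    t (star (star (y i) * y i + y i * star (y i) - 1) *
      (star (y i) * y i + y i * star (y i) - 1)) ≤ δ * t 1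
  u_sq : ∀ t : E →ₗ[ℝ] ℝ, IsTrace t → ∀ b, t (star (1 - u b * u b) * (1 - u b * u b)) ≤ δ * t 1
  u_inv : ∀ t : E →ₗ[ℝ] ℝ, IsTrace t → ∀ g ∈ Q, ∀ b,
    t (star (β g (u b) - u b) * (β g (u b) - u b)) ≤ δ * t 1
  u_bal : ∀ t : E →ₗ[ℝ] ℝ, IsTrace t → ∀ b Z, (∀ x ∈ D (Sum.inr b), Commute Z x) →
    t (Z * u b) = 0

/-- Evaluation of a bounded sequence. -/
def evalSeq (n : ℕ) : (ℕ →ᵇ E) →⋆ₐ[ℂ] E where
  toFun w := w n
  map_one' := rfl
  map_mul' _ _ := rfl
  map_zero' := rfl
  map_add' _ _ := rfl
  commutes' _ := rfl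
  map_star' _ := rfl

variable {β : G → E →⋆ₐ[ℂ] E} {Q : Finset G} {L M R : ℕ}
  (d : ∀ n : ℕ, Data β Q (1 / ((n : ℝ) + 1)) (Fin (n + R) × Fin L) (Fin (n + R) × Fin M))

/-- A slot along the indices. -/
def ySeq (r : ℕ) (i : Fin L) (g : G) : ℕ →ᵇ E :=
  BoundedContinuousFunction.ofNormedAddCommGroup
    (fun n => if h : r < n + R then β g ((d n).y (⟨r, h⟩, i)) else 0)
    continuous_of_discreteTopology 1 fun n => by
      split
      · exact (NonUnitalStarAlgHom.norm_apply_le _ _).trans ((d n).y_norm _)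
      · simp

/-- A symmetry along the indices. -/
def uSeq (r : ℕ) (b : Fin M) : ℕ →ᵇ E :=
  BoundedContinuousFunction.ofNormedAddCommGroup
    (fun n => if h : r < n + R then (d n).u (⟨r, h⟩, b) else 0)
    continuous_of_discreteTopology 1 fun n => by
      split
      · exact (d n).u_norm _
      · simp

theorem ySeq_apply (r : ℕ) (i : Fin L) (g : G) (n : ℕ) :
    ySeq d r i g n = if h : r < n + R then β g ((d n).y (⟨r, h⟩, i)) else 0 := rfl

theorem uSeq_apply (r : ℕ) (b : Fin M) (n : ℕ) :
    uSeq d r b n = if h : r < n + R then (d n).u (⟨r, h⟩, b) else 0 := rfl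

/-- The copies in use at an index. -/
def used (n b s : ℕ) : Set E :=
  {x | ∃ r : Fin (n + R), ((r : ℕ) < b ∧ ∃ j, x ∈ (d n).D (Sum.inr (r, j))) ∨
    ((r : ℕ) < s ∧ ∃ i, x ∈ (d n).D (Sum.inl (r, i)))}

/-- The sequences commuting with the copies in use. -/
def com (b s : ℕ) : StarSubalgebra ℂ (ℕ →ᵇ E) :=
  ⨅ n, (StarSubalgebra.centralizer ℂ (used d n b s)).comap (evalSeq n)

theorem mem_com {b s : ℕ} {w : ℕ →ᵇ E} :
    w ∈ com d b s ↔ ∀ n, ∀ x ∈ used d n b s, Commute (w n) x := by
  simp only [com, StarSubalgebra.mem_iInf, StarSubalgebra.mem_comap,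
    StarSubalgebra.mem_centralizer_iff]
  refine forall_congr' fun n => ⟨fun h x hx => (h x hx).1.symm, fun h x hx => ⟨(h x hx).eq.symm, ?_⟩⟩
  have hs : star x ∈ used d n b s := by
    obtain ⟨r, ⟨h1, j, hj⟩ | ⟨h1, i, hi⟩⟩ := hx
    · exact ⟨r, Or.inl ⟨h1, j, (d n).star_mem _ _ hj⟩⟩
    · exact ⟨r, Or.inr ⟨h1, i, (d n).star_mem _ _ hi⟩⟩
  exact (h _ hs).eq.symm

theorem com_anti {b b' s s' : ℕ} (hb : b ≤ b') (hs : s ≤ s') : com d b' s' ≤ com d b s := by
  intro w hw
  rw [mem_com] at hw ⊢
  rintro n x ⟨r, ⟨h1, h2⟩ | ⟨h1, h2⟩⟩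
  · exact hw n x ⟨r, Or.inl ⟨h1.trans_le hb, h2⟩⟩
  · exact hw n x ⟨r, Or.inr ⟨h1.trans_le hs, h2⟩⟩

/-- A symmetry commutes with the copies of the other positions. -/
theorem uSeq_mem_com {r b s : ℕ} (j : Fin M) (h : b ≤ r) : uSeq d r j ∈ com d b s := by
  rw [mem_com]
  rintro n x hx
  rw [uSeq_apply]
  split
  · rename_i hr
    obtain ⟨r', ⟨h1, j', hj⟩ | ⟨h1, i, hi⟩⟩ := hx
    · refine (d n).comm _ _ ?_ _ ((d n).u_mem _) _ hj
      intro e
      have := congrArg (fun p : Fin (n + R) × Fin M => (p.1 : ℕ)) (Sum.inr_injective e)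
      simp only at this
      omega
    · exact (d n).comm _ _ Sum.inr_ne_inl _ ((d n).u_mem _) _ hi
  · exact Commute.zero_left x

/-- A slot commutes with the copies of the other positions. -/
theorem ySeq_mem_com {r b s : ℕ} (i : Fin L) (g : G) (h : s ≤ r) : ySeq d r i g ∈ com d b s := by
  rw [mem_com]
  rintro n x hx
  rw [ySeq_apply]
  split
  · rename_i hr
    obtain ⟨r', ⟨h1, j', hj⟩ | ⟨h1, i', hi⟩⟩ := hx
    · exact (d n).comm _ _ Sum.inl_ne_inr _ ((d n).y_mem _ _) _ hj
    · refine (d n).comm _ _ ?_ _ ((d n).y_mem _ _) _ hi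
      intro e
      have := congrArg (fun p : Fin (n + R) × Fin L => (p.1 : ℕ)) (Sum.inl_injective e)
      simp only at this
      omega
  · exact Commute.zero_left x

variable {ts : ℕ → E →ₗ[ℝ] ℝ} (m : LimitModel ts)

/-- A slot in the model. -/
def xB (r : ℕ) (i : Fin L) (g : G) : m.B := m.π (ySeq d r i g)

/-- A symmetry in the model. -/
def uB (r : ℕ) (b : Fin M) : m.B := m.π (uSeq d r b)

/-- The image of the commuting sequences, closed. -/
def alg (b s : ℕ) : StarSubalgebra ℂ m.B := ((com d b s).map m.π).topologicalClosure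

theorem alg_anti {b b' s s' : ℕ} (hb : b ≤ b') (hs : s ≤ s') : alg d m b' s' ≤ alg d m b s :=
  StarSubalgebra.topologicalClosure_mono (Set.image_mono (com_anti d hb hs))

theorem map_mem_alg {b s : ℕ} {w : ℕ →ᵇ E} (hw : w ∈ com d b s) : m.π w ∈ alg d m b s :=
  StarSubalgebra.le_topologicalClosure _ ⟨w, hw, rfl⟩

/-- A closed property of the images holds on the closure. -/
theorem alg_induction {b s : ℕ} {P : m.B → Prop} (hP : IsClosed {z | P z})
    (h : ∀ w ∈ com d b s, P (m.π w)) {z : m.B} (hz : z ∈ alg d m b s) : P z := by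
  have : (alg d m b s : Set m.B) ⊆ {z | P z} := by
    rw [alg, StarSubalgebra.topologicalClosure_coe]
    exact closure_minimal (by rintro _ ⟨w, hw, rfl⟩; exact h w hw) hP
  exact this hz

theorem eventually_round (r : ℕ) : ∀ᶠ n in (m.ω : Filter ℕ), r < n + R :=
  m.free ((eventually_gt_atTop r).mono fun n hn => by omega)

/-- What is asymptotically null vanishes in the model. -/
theorem limit_zero {w : ℕ →ᵇ E}
    (h : ∀ᶠ n in (m.ω : Filter ℕ), ts n (star (w n) * w n) ≤ 1 / ((n : ℝ) + 1)) : m.π w = 0 := by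
  refine m.faithful _ (le_antisymm ?_ (m.trace.nonneg _))
  rw [← map_star, ← map_mul]
  exact le_of_tendsto_of_tendsto (m.lim (star w * w))
    (tendsto_one_div_add_atTop_nhds_zero_nat.mono_left m.free) h

variable (hts : ∀ n, IsTrace (ts n)) (h1 : ∀ n, ts n 1 = 1)
include hts h1

theorem xB_slots (r : ℕ) : IsSlots (xB d m r) := by
  have hcomm : ∀ (i j : Fin L) (g h : G), i ≠ j → Commute (xB d m r i g) (xB d m r j h) ∧
      Commute (xB d m r i g) (star (xB d m r j h)) := by
    intro i j g h hij
    have key : Commute (ySeq d r i g) (ySeq d r j h) ∧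
        Commute (ySeq d r i g) (star (ySeq d r j h)) := by
      constructor <;>
      · ext n
        simp only [BoundedContinuousFunction.coe_mul, BoundedContinuousFunction.coe_star,
          Pi.mul_apply, Pi.star_apply, ySeq_apply]
        split
        · rename_i hr
          have hne : (Sum.inl (⟨r, hr⟩, i) : (Fin (n + R) × Fin L) ⊕ (Fin (n + R) × Fin M)) ≠
              Sum.inl (⟨r, hr⟩, j) := fun e => hij (congrArg Prod.snd (Sum.inl_injective e))
          first
            | exact ((d n).comm _ _ hne _ ((d n).y_mem _ g) _ ((d n).y_mem _ h)).eq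
            | exact ((d n).comm _ _ hne _ ((d n).y_mem _ g) _
                ((d n).star_mem _ _ ((d n).y_mem _ h))).eq
        · simp
    exact ⟨key.1.map m.π, by simpa [xB, map_star] using key.2.map m.π⟩
  refine ⟨fun i g => ?_, fun i g => ?_, fun i j g h hij => (hcomm i j g h hij).1,
    fun i j g h hij => (hcomm i j g h hij).2⟩
  · rw [xB, ← map_mul]
    refine limit_zero m ((eventually_round (R := R) m r).mono fun n hn => ?_)
    simp only [BoundedContinuousFunction.coe_mul, Pi.mul_apply, ySeq_apply, dif_pos hn, ← map_mul,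
      ← map_star]
    simpa [pullLin_apply, h1 n] using (d n).y_sq _ ((hts n).pull (β g)) (⟨r, hn⟩, i)
  · rw [xB, ← map_star, ← map_mul, ← map_mul, ← map_add, ← sub_eq_zero, ← map_one m.π, ← map_sub]
    refine limit_zero m ((eventually_round (R := R) m r).mono fun n hn => ?_)
    simp only [BoundedContinuousFunction.coe_mul, BoundedContinuousFunction.coe_star,
      BoundedContinuousFunction.coe_sub, BoundedContinuousFunction.coe_add,
      BoundedContinuousFunction.coe_one, Pi.mul_apply, Pi.star_apply, Pi.sub_apply, Pi.add_apply,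
      Pi.one_apply, ySeq_apply, dif_pos hn]
    rw [← map_one (β g)]
    simp only [← map_mul, ← map_star, ← map_add, ← map_sub]
    simpa [pullLin_apply, h1 n] using (d n).y_unit _ ((hts n).pull (β g)) (⟨r, hn⟩, i)

omit hts h1 in
theorem uB_sa (r : ℕ) (b : Fin M) : IsSelfAdjoint (uB d m r b) := by
  refine IsSelfAdjoint.map ?_ m.π
  ext n
  simp only [BoundedContinuousFunction.coe_star, Pi.star_apply, uSeq_apply]
  split
  · exact ((d n).u_sa _).star_eq
  · simp

omit hts h1 in
theorem uB_comm (r : ℕ) (b b' : Fin M) : Commute (uB d m r b) (uB d m r b') := by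
  rcases eq_or_ne b b' with rfl | hb
  · exact Commute.refl _
  refine Commute.map ?_ m.π
  ext n
  simp only [BoundedContinuousFunction.coe_mul, Pi.mul_apply, uSeq_apply]
  split
  · exact ((d n).comm _ _ (fun e => hb (congrArg Prod.snd (Sum.inr_injective e))) _
      ((d n).u_mem _) _ ((d n).u_mem _)).eq
  · simp

theorem uB_sq (r : ℕ) (b : Fin M) : uB d m r b * uB d m r b = 1 := by
  refine (sub_eq_zero.1 ?_).symm
  rw [uB, ← map_mul, ← map_one m.π, ← map_sub]
  refine limit_zero m ((eventually_round (R := R) m r).mono fun n hn => ?_)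
  simp only [BoundedContinuousFunction.coe_mul, BoundedContinuousFunction.coe_sub,
    BoundedContinuousFunction.coe_one, Pi.mul_apply, Pi.sub_apply, Pi.one_apply, uSeq_apply,
    dif_pos hn]
  simpa [h1 n] using (d n).u_sq _ (hts n) (⟨r, hn⟩, b)

omit hts h1 in
/-- The translations move the slots. -/
theorem xB_shift (hβ : ∀ g h x, β g (β h x) = β (g * h) x) (r : ℕ) (i : Fin L) (g h : G) :
    m.π (bmap (β g) (ySeq d r i h)) = xB d m r i (g * h) := by
  rw [xB]
  congr 1
  ext n
  rw [bmap_apply, ySeq_apply, ySeq_apply]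
  split
  · exact hβ _ _ _
  · exact map_zero _

/-- The translations in `Q` fix the symmetries. -/
theorem uB_shift {g : G} (hg : g ∈ Q) (r : ℕ) (b : Fin M) :
    m.π (bmap (β g) (uSeq d r b)) = uB d m r b := by
  rw [uB, ← sub_eq_zero, ← map_sub]
  refine limit_zero m ((eventually_round (R := R) m r).mono fun n hn => ?_)
  simp only [BoundedContinuousFunction.coe_sub, Pi.sub_apply, bmap_apply, uSeq_apply, dif_pos hn]
  simpa [h1 n] using (d n).u_inv _ (hts n) g hg (⟨r, hn⟩, b)

/-- Fairness of the labels. -/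
theorem label_fair (r : ℕ) (lam : Fin M → Bool) {z : m.B} (hz : z ∈ alg d m (r + 1) r) :
    m.t (label (uB d m r) lam * z) = m.t z / 2 ^ M := by
  have hc : Continuous m.t := by
    refine AddMonoidHomClass.continuous_of_bound m.t 1 fun x => ?_
    rw [one_mul, Real.norm_eq_abs]
    exact abs_trace_le m.trace m.one x
  refine alg_induction d m (P := fun z => m.t (label (uB d m r) lam * z) = m.t z / 2 ^ M)
    (isClosed_eq (hc.comp (continuous_const_mul _)) (hc.div_const _)) (fun w hw => ?_) hz
  have hl : label (uB d m r) lam = m.π (label (uSeq d r) lam) := (map_label m.π _ _).symm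
  rw [hl, ← map_mul]
  refine tendsto_nhds_unique ((m.lim _).congr' ?_) ((m.lim w).div_const _)
  refine (eventually_round (R := R) m r).mono fun n hn => ?_
  show ts n ((label (uSeq d r) lam * w) n) = _
  rw [BoundedContinuousFunction.coe_mul, Pi.mul_apply,
    show label (uSeq d r) lam n = label (fun b => uSeq d r b n) lam from
      map_label (evalSeq n) (uSeq d r) lam]
  simp only [uSeq_apply, dif_pos hn]
  refine trace_label_mul_of_commute (hts n) _ lam (fun b => (d n).D (Sum.inr (⟨r, hn⟩, b)))
    (fun b => (d n).star_mem _) (fun b j hbj x hx => ?_) (fun b Z hZ => ?_) fun b x hx => ?_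
  · exact (d n).comm _ _ (fun e => hbj.ne' (congrArg Prod.snd (Sum.inr_injective e))) _
      ((d n).u_mem _) _ hx
  · exact (d n).u_bal _ (hts n) _ Z hZ
  · exact (mem_com d).1 hw n x ⟨⟨r, hn⟩, Or.inl ⟨Nat.lt_succ_self r, b, hx⟩⟩

/-- Elements of the later rounds commute with a slot. -/
theorem commute_alg_slot {r b s : ℕ} (hs : r < s) {z : m.B} (hz : z ∈ alg d m b s) (i : Fin L)
    (g : G) : Commute z (xB d m r i g) ∧ Commute z (star (xB d m r i g)) := by
  refine alg_induction d m
    (P := fun z => Commute z (xB d m r i g) ∧ Commute z (star (xB d m r i g)))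
    ((isClosed_eq (continuous_mul_const _) (continuous_const_mul _)).inter
      (isClosed_eq (continuous_mul_const _) (continuous_const_mul _))) (fun w hw => ?_) hz
  have key : Commute w (ySeq d r i g) ∧ Commute w (star (ySeq d r i g)) := by
    constructor <;>
    · ext n
      simp only [BoundedContinuousFunction.coe_mul, BoundedContinuousFunction.coe_star,
        Pi.mul_apply, Pi.star_apply, ySeq_apply]
      split
      · rename_i hr
        first
          | exact ((mem_com d).1 hw n _ ⟨⟨r, hr⟩, Or.inr ⟨hs, i, (d n).y_mem _ g⟩⟩).eq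
          | exact ((mem_com d).1 hw n _
              ⟨⟨r, hr⟩, Or.inr ⟨hs, i, (d n).star_mem _ _ ((d n).y_mem _ g)⟩⟩).eq
      · simp
  exact ⟨key.1.map m.π, by simpa [xB, map_star] using key.2.map m.π⟩

/-- Elements below the labels commute with them. -/
theorem commute_alg_label {r s : ℕ} {z : m.B} (hz : z ∈ alg d m (r + 1) s) (lam : Fin M → Bool) :
    Commute (label (uB d m r) lam) z := by
  refine (commute_label _ _ fun b => ?_).symm
  refine alg_induction d m (P := fun z => Commute z (uB d m r b))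
    (isClosed_eq (continuous_mul_const _) (continuous_const_mul _)) (fun w hw => ?_) hz
  refine Commute.map ?_ m.π
  ext n
  simp only [BoundedContinuousFunction.coe_mul, Pi.mul_apply, uSeq_apply]
  split
  · rename_i hr
    exact ((mem_com d).1 hw n _ ⟨⟨r, hr⟩, Or.inl ⟨Nat.lt_succ_self r, b, (d n).u_mem _⟩⟩).eq
  · simp

variable {ι : Type*} [Fintype ι] [DecidableEq ι] {V K : ℕ}
  (e : (Fin M → Bool) ≃ Fin L × (Fin L → Bool) × Fin V)

omit hts h1 in
theorem cF_thF_mem (f : ι → G) (a b : ℝ) (r : ℕ) (lam : Fin M → Bool) :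
    cF K e (xB d m) f a b r lam ∈ alg d m (r + 1) r ∧
      thF K e (xB d m) f r lam ∈ alg d m (r + 1) r := by
  have hx : ∀ n, ∀ z ∈ used d n (r + 1) r, ∀ i g,
      (Commute z (ySeq d r i g n) ∧ Commute z (star (ySeq d r i g n))) ∧
      Commute (star z) (ySeq d r i g n) ∧ Commute (star z) (star (ySeq d r i g n)) := by
    intro n z hz i g
    have h := (mem_com d).1 (ySeq_mem_com d (r := r) (b := r + 1) (s := r) i g le_rfl) n
    have hz' : star z ∈ used d n (r + 1) r := by
      obtain ⟨r', ⟨h1, j, hj⟩ | ⟨h1, j, hj⟩⟩ := hz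
      · exact ⟨r', Or.inl ⟨h1, j, (d n).star_mem _ _ hj⟩⟩
      · exact ⟨r', Or.inr ⟨h1, j, (d n).star_mem _ _ hj⟩⟩
    exact ⟨⟨(h z hz).symm, by simpa using (h _ hz').star_star.symm⟩, (h _ hz').symm,
      (h z hz).star_star.symm⟩
  have hev : ∀ n, (fun r i g => evalSeq n (ySeq d r i g)) = fun r i g => ySeq d r i g n :=
    fun n => rfl
  constructor
  · rw [show cF K e (xB d m) f a b r lam = m.π (cF K e (ySeq d) f a b r lam) from
      (map_cF m.π a b r lam).symm]
    refine map_mem_alg d m ((mem_com d).2 fun n z hz => ?_)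
    rw [show cF K e (ySeq d) f a b r lam n = cF K e (fun r i g => ySeq d r i g n) f a b r lam from
      map_cF (evalSeq n) a b r lam]
    exact (commute_cF (fun i g => (hx n z hz i g).1) (fun i g => (hx n z hz i g).2) a b lam).symm
  · rw [show thF K e (xB d m) f r lam = m.π (thF K e (ySeq d) f r lam) from
      (map_thF m.π r lam).symm]
    refine map_mem_alg d m ((mem_com d).2 fun n z hz => ?_)
    rw [show thF K e (ySeq d) f r lam n = thF K e (fun r i g => ySeq d r i g n) f r lam from
      map_thF (evalSeq n) r lam]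
    exact (commute_thF (fun i g => (hx n z hz i g).1) (fun i g => (hx n z hz i g).2) lam).symm

omit hts h1 in
theorem sum_comm₄ {α α' γ γ' : Type*} [Fintype α] [Fintype α'] [Fintype γ] [Fintype γ']
    (F : α → α' → γ → γ' → ℝ) : ∑ i, ∑ j, ∑ k, ∑ l, F i j k l = ∑ k, ∑ l, ∑ i, ∑ j, F i j k l := by
  calc ∑ i, ∑ j, ∑ k, ∑ l, F i j k l = ∑ i, ∑ k, ∑ j, ∑ l, F i j k l :=
        Finset.sum_congr rfl fun i _ => Finset.sum_comm
    _ = ∑ k, ∑ i, ∑ j, ∑ l, F i j k l := Finset.sum_comm
    _ = ∑ k, ∑ i, ∑ l, ∑ j, F i j k l :=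
        Finset.sum_congr rfl fun k _ => Finset.sum_congr rfl fun i _ => Finset.sum_comm
    _ = ∑ k, ∑ l, ∑ i, ∑ j, F i j k l := Finset.sum_congr rfl fun k _ => Finset.sum_comm

omit hts h1 in
theorem sum_labels (F : Fin L → (Fin L → Bool) → ℕ → ℝ) :
    ∑ lam, F (e lam).1 (e lam).2.1 (e lam).2.2 =
      ∑ i, ∑ β, ∑ k ∈ Finset.range V, F i β k := by
  rw [e.sum_comp fun p => F p.1 p.2.1 p.2.2, Fintype.sum_prod_type]
  refine Finset.sum_congr rfl fun i _ => ?_
  rw [Fintype.sum_prod_type]
  exact Finset.sum_congr rfl fun β _ => Fin.sum_univ_eq_sum_range (fun k => F i β k) V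

omit hts h1 in
include e in
theorem card_label : (Fintype.card (Fin M → Bool) : ℝ) = L * 2 ^ L * V := by
  rw [Fintype.card_congr e]
  simp only [Fintype.card_prod, Fintype.card_fun, Fintype.card_fin, Fintype.card_bool]
  push_cast
  ring

omit hts h1 in
include e in
theorem two_pow_label : ((2 ^ M : ℕ) : ℝ) = L * 2 ^ L * V := by
  rw [← card_label e, Fintype.card_fun, Fintype.card_bool, Fintype.card_fin]

section Order

attribute [local instance] CStarAlgebra.spectralOrder CStarAlgebra.spectralOrderedRing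

theorem isRace_model (f : ι → G) {a b : ℝ} (hab : a ^ 2 + b ^ 2 = 1) (hL : 0 < L) (hV0 : 0 < V)
    (hK : 0 < K) (hV : K * Fintype.card ι ^ 2 ≤ V) :
    IsRace m.t ((K : ℝ) * Fintype.card ι / (2 ^ (L - 1) * V)) (2 / K)
      (8 * V * K * Fintype.card ι / L) (fun r => alg d m (r + 1) r) (fun r => alg d m r r)
      (qF (uB d m)) (cF K e (xB d m) f a b) (thF K e (xB d m) f) := by
  have hs := xB_slots d m hts h1
  have hv : ∀ r i β h, IsSelfAdjoint (colV (xB d m) f r i β h) ∧
      colV (xB d m) f r i β h * colV (xB d m) f r i β h = colV (xB d m) f r i β h :=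
    fun r i β h => omitProd_proj (hs r) β i _
  have hσ : ∀ r i h, IsSelfAdjoint (colS (xB d m) f r i a b h) ∧
      colS (xB d m) f r i a b h * colS (xB d m) f r i a b h = 1 :=
    fun r i h => ⟨isSelfAdjoint_sig _ _ _, sig_sq ((hs r).sq _ _) ((hs r).unit _ _) hab⟩
  have hcard : (0 : ℝ) < L * 2 ^ L * V := by positivity
  have hpow : (2 : ℝ) ^ L = 2 ^ (L - 1) * 2 := by
    rw [← pow_succ, Nat.sub_add_cancel hL]
  have hstar : ∀ {b s r : ℕ} {z : m.B}, r < s → z ∈ alg d m b s → ∀ i g,
      (Commute z (xB d m r i g) ∧ Commute z (star (xB d m r i g))) ∧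
      Commute (star z) (xB d m r i g) ∧ Commute (star z) (star (xB d m r i g)) :=
    fun hrs hz i g => ⟨commute_alg_slot d m hts h1 hrs hz i g,
      commute_alg_slot d m hts h1 hrs (star_mem hz) i g⟩
  have htv : ∀ r i β h, m.t (colV (xB d m) f r i β h) = 1 / 2 ^ (L - 1) := fun r i β h => by
    have := tr_mul_omitProd (hs r) β i m.t m.trace (f h) (W := 1)
      fun j g => ⟨Commute.one_left _, Commute.one_left _⟩
    rwa [one_mul, m.one] at this
  refine
    { trace := m.trace
      le := fun r => alg_anti d m (Nat.le_succ r) le_rfl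
      next_le := fun r => alg_anti d m le_rfl (Nat.le_succ r)
      q_mem := fun r lam => label_mem _ _ _ fun j => map_mem_alg d m (uSeq_mem_com d j le_rfl)
      c_mem := fun r lam => (cF_thF_mem d m e f a b r lam).1
      th_mem := fun r lam => (cF_thF_mem d m e f a b r lam).2
      q_sa := fun r lam => label_isSelfAdjoint (uB_comm d m r) (uB_sa d m r) lam
      q_idem := fun r lam => label_mul_self (uB_comm d m r) (uB_sq d m hts h1 r) lam
      q_orth := fun r lam mu hne => label_mul_of_ne (uB_comm d m r) (uB_sq d m hts h1 r) hne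
      q_sum := fun r => sum_label _
      q_comm := fun r lam z hz => commute_alg_label d m hts h1 hz lam
      fair := fun r lam z hz => ?_
      c_sa := fun r lam => (cOf_bounds K _ _ _ fun h => hσ r _ h).1
      th_nonneg := fun r lam => (thOf_bounds K _ _).1
      th_le_one := fun r lam => (thOf_bounds K _ _).2
      c_le := fun r lam => (cOf_bounds K _ _ _ fun h => hσ r _ h).2.1
      neg_le_c := fun r lam => (cOf_bounds K _ _ _ fun h => hσ r _ h).2.2
      c_comm := fun r lam z hz =>
        (commute_cF (fun i g => (hstar (Nat.lt_succ_self r) hz i g).1)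
          (fun i g => (hstar (Nat.lt_succ_self r) hz i g).2) a b lam).symm
      th_comm := fun r lam z hz =>
        (commute_thF (fun i g => (hstar (Nat.lt_succ_self r) hz i g).1)
          (fun i g => (hstar (Nat.lt_succ_self r) hz i g).2) lam).symm
      balance := fun r lam z hz => ?_
      mass := fun r z hz => ?_
      near_proj := fun r => ?_
      coherent := fun r => ?_ }
  · rw [show (qF (uB d m) r lam) = label (uB d m r) lam from rfl, label_fair d m hts h1 r lam hz,
      Fintype.card_fun, Fintype.card_bool, Fintype.card_fin]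
    push_cast
    rfl
  · have hb : ∀ Mz : m.B, (∀ g, Commute Mz (xB d m r (e lam).1 g) ∧
        Commute Mz (star (xB d m r (e lam).1 g))) →
        m.t (Mz * cF K e (xB d m) f a b r lam) = 0 := by
      intro Mz hM
      refine cOf_balance m.trace K _ _ _ Mz fun h w hw => ?_
      refine tr_mul_sig m.t m.trace ((hs r).sq _ _) ((hs r).unit _ _) ?_ ?_ a b
      · refine (hw _ (fun j => ?_) (hM (f h)).1.symm).symm
        have := commute_omitProd_slot (hs r) (e lam).2.1 (e lam).1 (f j) (f h)
        exact ⟨this.1.symm, by rw [(hv r _ _ j).1.star_eq]; exact this.1.symm⟩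
      · refine (hw _ (fun j => ?_) (hM (f h)).2.symm).symm
        have := commute_omitProd_slot (hs r) (e lam).2.1 (e lam).1 (f j) (f h)
        exact ⟨this.2.symm, by rw [(hv r _ _ j).1.star_eq]; exact this.2.symm⟩
    have hth : ∀ g, Commute (thF K e (xB d m) f r lam) (xB d m r (e lam).1 g) ∧
        Commute (thF K e (xB d m) f r lam) (star (xB d m r (e lam).1 g)) := fun g => by
      constructor <;>
      · refine (thOf_commute K _ _ fun j => ?_).symm
        have := commute_omitProd_slot (hs r) (e lam).2.1 (e lam).1 (f j) g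
        first
          | exact ⟨this.1.symm, by rw [(hv r _ _ j).1.star_eq]; exact this.1.symm⟩
          | exact ⟨this.2.symm, by rw [(hv r _ _ j).1.star_eq]; exact this.2.symm⟩
    have hz' := fun g => (hstar (Nat.lt_succ_self r) hz (e lam).1 g).1
    refine ⟨hb _ fun g => ⟨?_, ?_⟩, hb _ fun g => ⟨?_, ?_⟩⟩
    · exact ((Commute.one_left _).sub_left (hth g).1).mul_left (hz' g).1
    · exact ((Commute.one_left _).sub_left (hth g).2).mul_left (hz' g).2
    · exact (hz' g).1.mul_left ((Commute.one_left _).sub_left (hth g).1)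
    · exact (hz' g).2.mul_left ((Commute.one_left _).sub_left (hth g).2)
  · have hvs : ∀ i β h, m.t (colV (xB d m) f r i β h * z) = m.t z / 2 ^ (L - 1) := fun i β h => by
      rw [m.trace.comm]
      exact tr_mul_omitProd (hs r) β i m.t m.trace (f h)
        fun j g => commute_alg_slot d m hts h1 (Nat.lt_succ_self r) hz j g
    have hVN : K * Fintype.card ι ^ 2 ≤ V := hV
    calc ∑ lam, m.t (thF K e (xB d m) f r lam * z)
        = ∑ i, ∑ β, ∑ k ∈ Finset.range V, m.t (thOf K k (colV (xB d m) f r i β) * z) :=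
          sum_labels e fun i β k => m.t (thOf K k (colV (xB d m) f r i β) * z)
      _ = ∑ _i : Fin L, ∑ _β : Fin L → Bool,
            (K : ℝ) * (Fintype.card ι * (m.t z / 2 ^ (L - 1))) := by
          refine Finset.sum_congr rfl fun i _ => Finset.sum_congr rfl fun β _ => ?_
          rw [← map_sum, ← Finset.sum_mul, sum_thOf _ (hv r i β) hVN, smul_mul_assoc, map_smul,
            Finset.sum_mul, map_sum, smul_eq_mul]
          simp [hvs]
      _ = _ := by
          simp only [Finset.sum_const, Finset.card_univ, Fintype.card_fun, Fintype.card_fin,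
            Fintype.card_bool, nsmul_eq_mul]
          rw [two_pow_label e]
          push_cast
          field_simp
  · calc ∑ lam, m.t (thF K e (xB d m) f r lam - thF K e (xB d m) f r lam * thF K e (xB d m) f r lam)
        = ∑ i, ∑ β, ∑ k ∈ Finset.range V, m.t (thOf K k (colV (xB d m) f r i β) -
            thOf K k (colV (xB d m) f r i β) * thOf K k (colV (xB d m) f r i β)) :=
          sum_labels e fun i β k => m.t (thOf K k (colV (xB d m) f r i β) -
            thOf K k (colV (xB d m) f r i β) * thOf K k (colV (xB d m) f r i β))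
      _ ≤ ∑ _i : Fin L, ∑ _β : Fin L → Bool, 2 * ((Fintype.card ι : ℝ) * (1 / 2 ^ (L - 1))) := by
          refine Finset.sum_le_sum fun i _ => Finset.sum_le_sum fun β _ => ?_
          refine (thOf_near_proj m.trace hK _ (hv r i β)).trans_eq ?_
          simp [htv]
      _ = _ := by
          simp only [Finset.sum_const, Finset.card_univ, Fintype.card_fun, Fintype.card_fin,
            Fintype.card_bool, nsmul_eq_mul]
          rw [two_pow_label e, m.one]
          push_cast
          field_simp
  · calc ∑ lam, (m.t (thF K e (xB d m) f r lam * thF K e (xB d m) f r lam) -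
            m.t (cF K e (xB d m) f a b r lam * cF K e (xB d m) f a b r lam))
        = ∑ i, ∑ β, ∑ k ∈ Finset.range V,
            (m.t (thOf K k (colV (xB d m) f r i β) * thOf K k (colV (xB d m) f r i β)) -
              m.t (cOf K k (colV (xB d m) f r i β) (colS (xB d m) f r i a b) *
                cOf K k (colV (xB d m) f r i β) (colS (xB d m) f r i a b))) :=
          sum_labels e fun i β k =>
            m.t (thOf K k (colV (xB d m) f r i β) * thOf K k (colV (xB d m) f r i β)) -
              m.t (cOf K k (colV (xB d m) f r i β) (colS (xB d m) f r i a b) *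
                cOf K k (colV (xB d m) f r i β) (colS (xB d m) f r i a b))
      _ ≤ ∑ i, ∑ β, ∑ _k ∈ Finset.range V, (K : ℝ) ^ 2 * ∑ g, ∑ h,
            m.t ((colS (xB d m) f r i a b g - colS (xB d m) f r i a b h) *
              (colS (xB d m) f r i a b g - colS (xB d m) f r i a b h) *
              (colV (xB d m) f r i β g * colV (xB d m) f r i β h * colV (xB d m) f r i β g)) := by
          refine Finset.sum_le_sum fun i _ => Finset.sum_le_sum fun β _ =>
            Finset.sum_le_sum fun k _ => ?_
          refine cOf_coherence m.trace K k _ _ (hv r i β) (hσ r i) fun g h => ?_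
          have := commute_omitProd_slot (hs r) β i (f h) (f g)
          exact (commute_sig ⟨this.1, this.2⟩ a b).symm
      _ = (V : ℝ) * (K : ℝ) ^ 2 * ∑ g, ∑ h, ∑ i, ∑ β,
            m.t ((sig a b (xB d m r i (f g)) - sig a b (xB d m r i (f h))) *
              (sig a b (xB d m r i (f g)) - sig a b (xB d m r i (f h))) *
              (omitProd (xB d m r) β i (f g) * omitProd (xB d m r) β i (f h) *
                omitProd (xB d m r) β i (f g))) := by
          simp only [Finset.sum_const, Finset.card_range, nsmul_eq_mul, ← Finset.mul_sum,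
            ← mul_assoc]
          rw [sum_comm₄]
          rfl
      _ ≤ (V : ℝ) * (K : ℝ) ^ 2 * ∑ _g : ι, ∑ _h : ι, 16 * m.t 1 := by
          gcongr with g _ h _
          exact hash_le (hs r) m.t m.trace (f g) (f h) hab
      _ = _ := by
          simp only [Finset.sum_const, Finset.card_univ, nsmul_eq_mul]
          rw [card_label e, m.one, hpow]
          field_simp
          ring

/-- Stability in the translates. -/
theorem stable_model (f f' : ι → G) {a b : ℝ} (hab : a ^ 2 + b ^ 2 = 1) (hL : 0 < L) (hV0 : 0 < V)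
    (good : Finset ι) (hgood : ∀ i ∈ good, f' i = f i) {η : ℝ} (hη : 0 ≤ η)
    (hbad : ((goodᶜ).card : ℝ) ≤ η * Fintype.card ι) :
    ∃ c : ℕ → (Fin M → Bool) → ℝ,
      (∀ r lam (z : m.B),
        |m.t (z * (cF K e (xB d m) f' a b r lam - cF K e (xB d m) f a b r lam))| ≤ c r lam * ‖z‖ ∧
        |m.t (z * (thF K e (xB d m) f' r lam - thF K e (xB d m) f r lam))| ≤ c r lam * ‖z‖) ∧
      ∀ r, ∑ lam, c r lam ≤ 100 * √√(2 * η) *
        ((Fintype.card (Fin M → Bool) : ℝ) * ((K : ℝ) * Fintype.card ι / (2 ^ (L - 1) * V))) *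
        m.t 1 := by
  have hs := xB_slots d m hts h1
  set p : ℝ := 1 / 2 ^ (L - 1) with hp
  set A : ℝ := (Fintype.card ι : ℝ) * p with hA
  have hA0 : 0 ≤ A := by positivity
  have htv : ∀ r i β (f : ι → G) h,
      m.t (star (colV (xB d m) f r i β h) * colV (xB d m) f r i β h) = p := fun r i β f h => by
    obtain ⟨hsa, hid⟩ := omitProd_proj (hs r) β i (f h)
    have := tr_mul_omitProd (hs r) β i m.t m.trace (f h) (W := 1)
      fun j g => ⟨Commute.one_left _, Commute.one_left _⟩
    rw [one_mul, m.one] at this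
    simp only [colV, hsa.star_eq, hid]
    exact this
  have hσ : ∀ r i (f : ι → G) h, IsSelfAdjoint (colS (xB d m) f r i a b h) ∧
      colS (xB d m) f r i a b h * colS (xB d m) f r i a b h = 1 :=
    fun r i f h => ⟨isSelfAdjoint_sig _ _ _, sig_sq ((hs r).sq _ _) ((hs r).unit _ _) hab⟩
  choose c hc hcs using fun (r : ℕ) (i : Fin L) (β : Fin L → Bool) =>
    cOf_stable m.trace (K := K) (V := V) (colV (xB d m) f r i β) (colV (xB d m) f' r i β)
      (colS (xB d m) f r i a b) (colS (xB d m) f' r i a b) (hσ r i f) (hσ r i f') good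
      (fun h hh => by simp [colV, colS, hgood h hh]) (A := A) (D := (goodᶜ).card * (p + p))
      (by simp [htv, hA]) (by simp [htv, hA]) (by simp [htv, mul_add])
  refine ⟨fun r lam => c r (e lam).1 (e lam).2.1 (e lam).2.2,
    fun r lam z => hc r _ _ _ (e lam).2.2.isLt z, fun r => ?_⟩
  rw [sum_labels e fun i β k => c r i β k]
  have hb : ∀ i β, ∑ k ∈ Finset.range V, c r i β k ≤ 100 * K * √√(2 * η) * A := by
    intro i β
    refine (hcs r i β).trans ?_
    have hD : ((goodᶜ).card : ℝ) * (p + p) ≤ 2 * η * A := by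
      have hp0 : (0 : ℝ) ≤ p := by positivity
      rw [hA]; nlinarith
    calc 100 * (K : ℝ) * √√((goodᶜ).card * (p + p)) * √A * √√A
        ≤ 100 * K * √√(2 * η * A) * √A * √√A := by gcongr
      _ = 100 * K * √√(2 * η) * A := by
          rw [Real.sqrt_mul (by positivity) A, Real.sqrt_mul (Real.sqrt_nonneg _) (√A)]
          have h4 : √√A * √√A = √A := Real.mul_self_sqrt (Real.sqrt_nonneg _)
          have h2 : √A * √A = A := Real.mul_self_sqrt hA0
          linear_combination (100 * (K : ℝ) * √√(2 * η) * √A) * h4 +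
            (100 * (K : ℝ) * √√(2 * η)) * h2
  refine (Finset.sum_le_sum fun i _ => Finset.sum_le_sum fun β _ => hb i β).trans_eq ?_
  simp only [Finset.sum_const, Finset.card_univ, Fintype.card_fun, Fintype.card_fin,
    Fintype.card_bool, nsmul_eq_mul]
  rw [show ((2 ^ M : ℕ) : ℝ) = L * 2 ^ L * V by
    rw [← card_label e, Fintype.card_fun, Fintype.card_bool, Fintype.card_fin], m.one]
  rw [hA, hp]
  push_cast
  field_simp

end Order

end

end Vale.P095.McDuff
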