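import Vale.Agent.P095.McDuff.LimitRace
import Vale.Agent.P095.Tracial.Main

/-!
Theorem M in abstract form: from commuting copies carrying approximate matrix units and invariant
balanced approximate symmetries, approximately invariant approximate matrix units, uniformly in all
traces (helper13).
-/

open scoped BoundedContinuousFunction
open Filter Topology
open Vale.P095.Tracial

noncomputable section

namespace Vale.P095.McDuff

universe u

/-- The truncated real part of a bounded sequence. -/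
def truncRe {C : Type*} [CStarAlgebra C] (w : C) : C :=
  cfc (fun s : ℝ => max (-1) (min 1 s)) ((1 / 2 : ℝ) • (w + star w))

theorem continuous_trunc : Continuous fun s : ℝ => max (-1) (min 1 s) := by fun_prop

theorem norm_truncRe_le {C : Type*} [CStarAlgebra C] (w : C) : ‖truncRe w‖ ≤ 1 := by
  refine norm_cfc_le zero_le_one fun s _ => ?_
  rw [Real.norm_eq_abs, abs_le]
  exact ⟨le_max_left _ _, max_le (by norm_num) (min_le_left _ _)⟩

/-- A self-adjoint contraction in the image is the image of the truncated real part. -/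
theorem map_truncRe {C D : Type*} [CStarAlgebra C] [CStarAlgebra D] (φ : C →⋆ₐ[ℂ] D) {w : C}
    (hsa : IsSelfAdjoint (φ w)) (hn : ‖φ w‖ ≤ 1) : φ (truncRe w) = φ w := by
  have hre : IsSelfAdjoint ((1 / 2 : ℝ) • (w + star w)) :=
    (IsSelfAdjoint.all _).smul (IsSelfAdjoint.add_star_self w)
  have hφ : φ ((1 / 2 : ℝ) • (w + star w)) = φ w := by
    rw [← Complex.coe_smul, map_smul, map_add, map_star, hsa.star_eq, Complex.coe_smul]
    module
  rw [truncRe, StarAlgHomClass.map_cfc φ _ _ continuous_trunc.continuousOn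
    (AddMonoidHomClass.continuous_of_bound φ 1 fun x => by
      rw [one_mul]; exact NonUnitalStarAlgHom.norm_apply_le φ x) hre (hre.map φ), hφ]
  conv_rhs => rw [← cfc_id' ℝ (φ w)]
  refine cfc_congr fun s hs => ?_
  rcases subsingleton_or_nontrivial D with hD | hD
  · simp at hs
  have h := (spectrum.norm_le_norm_of_mem hs).trans hn
  rw [Real.norm_eq_abs, abs_le] at h
  rw [min_eq_right h.2, max_eq_right h.1]

/-- The element built from two sequences. -/
def combine {C : Type*} [CStarAlgebra C] (X Y : C) : C := (1 / 2 : ℝ) • (X + Complex.I • Y)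

theorem norm_combine_le {C : Type*} [CStarAlgebra C] {X Y : C} (hX : ‖X‖ ≤ 1) (hY : ‖Y‖ ≤ 1) :
    ‖combine X Y‖ ≤ 1 := by
  rw [combine, norm_smul]
  have h := norm_add_le X (Complex.I • Y)
  rw [norm_smul, Complex.norm_I, one_mul] at h
  norm_num
  linarith

theorem map_combine {C D : Type*} [CStarAlgebra C] [CStarAlgebra D] (φ : C →⋆ₐ[ℂ] D) (X Y : C) :
    φ (combine X Y) = combine (φ X) (φ Y) := by
  simp only [combine, ← Complex.coe_smul, map_smul, map_add]

section Algebra

attribute [local instance] CStarAlgebra.spectralOrder CStarAlgebra.spectralOrderedRing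

variable {B : Type*} [CStarAlgebra B] {t : B →ₗ[ℝ] ℝ}

/-- The square of a defect is at most the defect. -/
theorem defect_sq_le (ht : IsTrace t) {X : B} (hX : IsSelfAdjoint X) (hn : ‖X‖ ≤ 1) :
    t ((1 - X * X) * (1 - X * X)) ≤ t (1 - X * X) := by
  have h1 : X * X ≤ 1 := by
    refine mul_self_le_one ?_ ?_
    · exact hX.le_algebraMap_norm_self.trans
        ((algebraMap_mono B hn).trans_eq (map_one _))
    · exact neg_le.2 (hX.neg.le_algebraMap_norm_self.trans
        ((algebraMap_mono B ((norm_neg X).le.trans hn)).trans_eq (map_one _)))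
  have h0 : (0 : B) ≤ X * X := by simpa [hX.star_eq] using star_mul_self_nonneg X
  have h2 := Commute.mul_nonneg (sub_nonneg.2 h1) h0
    ((Commute.one_left _).sub_left (Commute.refl _))
  have h3 := ht.of_nonneg h2
  rw [show (1 - X * X) * (1 - X * X) = (1 - X * X) - (1 - X * X) * (X * X) by noncomm_ring,
    map_sub]
  linarith

theorem sub_le' (ht : IsTrace t) {x y : B} (hx : IsSelfAdjoint x) (hy : IsSelfAdjoint y) :
    t ((x - y) * (x - y)) ≤ 2 * t (x * x) + 2 * t (y * y) := by
  have h := ht.nonneg (x + y)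
  simp only [star_add, hx.star_eq, hy.star_eq, add_mul, mul_add, sub_mul, mul_sub, map_add,
    map_sub] at h ⊢
  linarith

theorem complex_le (ht : IsTrace t) {x y : B} (hx : IsSelfAdjoint x) (hy : IsSelfAdjoint y) :
    t (star (x + Complex.I • y) * (x + Complex.I • y)) ≤ 2 * t (x * x) + 2 * t (y * y) := by
  have h := ht.add_mul_self_le x (Complex.I • y)
  rwa [show star (Complex.I • y) * (Complex.I • y) = y * y by
    rw [star_smul, hy.star_eq, smul_mul_assoc, mul_smul_comm, smul_smul, Complex.star_def,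
      Complex.conj_I, neg_mul, Complex.I_mul_I, neg_neg, one_smul], hx.star_eq] at h

/-- Three almost symmetries in the positions `z`, `x`, `(z + x)/√2` give approximate matrix
units. -/
theorem combine_bounds (ht : IsTrace t) {X Y Z : B} (hX : IsSelfAdjoint X) (hY : IsSelfAdjoint Y)
    (hZ : IsSelfAdjoint Z) (hXn : ‖X‖ ≤ 1) (hYn : ‖Y‖ ≤ 1) (hZn : ‖Z‖ ≤ 1)
    (hlin : (2 : ℝ) • (Z * Z) = (X + Y) * (X + Y)) {δ : ℝ}
    (hXd : t (1 - X * X) ≤ δ) (hYd : t (1 - Y * Y) ≤ δ) (hZd : t (1 - Z * Z) ≤ δ) :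
    t (star (combine X Y * combine X Y) * (combine X Y * combine X Y)) ≤ 3 * δ ∧
    t (star (star (combine X Y) * combine X Y + combine X Y * star (combine X Y) - 1) *
      (star (combine X Y) * combine X Y + combine X Y * star (combine X Y) - 1)) ≤ δ := by
  have hsx : star (combine X Y) = (1 / 2 : ℝ) • (X - Complex.I • Y) := by
    simp only [combine, star_smul, star_add, hX.star_eq, hY.star_eq, star_trivial,
      Complex.star_def, Complex.conj_I, neg_smul, sub_eq_add_neg]
  set a := 1 - X * X with ha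
  set b := 1 - Y * Y with hb
  set c := 1 - Z * Z with hc
  have haa := (defect_sq_le ht hX hXn).trans hXd
  have hbb := (defect_sq_le ht hY hYn).trans hYd
  have hcc := (defect_sq_le ht hZ hZn).trans hZd
  rw [← ha] at haa
  rw [← hb] at hbb
  rw [← hc] at hcc
  have hasa : star a = a := by simp [a, hX.star_eq]
  have hbsa : star b = b := by simp [b, hY.star_eq]
  have hcsa : star c = c := by simp [c, hZ.star_eq]
  have hxy : X * Y + Y * X = a + b - (2 : ℝ) • c := by
    have e : (2 : ℝ) • c = (1 : B) + 1 - (X + Y) * (X + Y) := by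
      rw [hc, smul_sub, hlin, two_smul]
    rw [e, ha, hb]
    noncomm_ring
  have hsq : combine X Y * combine X Y =
      (1 / 4 : ℝ) • ((b - a) + Complex.I • (a + b - (2 : ℝ) • c)) := by
    rw [← hxy, combine]
    simp only [ha, hb, ← Complex.coe_smul, smul_mul_assoc, mul_smul_comm, mul_add, add_mul,
      smul_smul, smul_add]
    match_scalars <;> simp [Complex.ext_iff] <;> norm_num
  have hun : star (combine X Y) * combine X Y + combine X Y * star (combine X Y) - 1 =
      (-(1 / 2) : ℝ) • (a + b) := by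
    rw [hsx, combine, ha, hb]
    simp only [← Complex.coe_smul, smul_mul_assoc, mul_smul_comm, mul_add, add_mul, sub_mul,
      mul_sub, smul_smul, smul_add, smul_sub]
    match_scalars <;> simp [Complex.ext_iff] <;> norm_num
  constructor
  · rw [hsq, star_smul, star_trivial, smul_mul_assoc, mul_smul_comm, smul_smul, map_smul,
      smul_eq_mul]
    have hPsa : IsSelfAdjoint (b - a) := IsSelfAdjoint.sub hbsa hasa
    have hRsa : IsSelfAdjoint (a + b - (2 : ℝ) • c) :=
      (IsSelfAdjoint.add hasa hbsa).sub ((IsSelfAdjoint.all _).smul hcsa)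
    have h1 := complex_le ht hPsa hRsa
    have h2 := sub_le' ht hbsa hasa
    have h3 := sub_le' ht (IsSelfAdjoint.add hasa hbsa) ((IsSelfAdjoint.all (2 : ℝ)).smul hcsa)
    have h4 := ht.add_mul_self_le a b
    simp only [hasa, hbsa, star_add, smul_mul_assoc, mul_smul_comm, smul_smul, map_smul,
      smul_eq_mul] at h3 h4
    have h0 := ht.nonneg a
    rw [hasa] at h0
    linarith
  · rw [hun, star_smul, star_trivial, smul_mul_assoc, mul_smul_comm, smul_smul, map_smul,
      smul_eq_mul]
    have h4 := ht.add_mul_self_le a b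
    simp only [hasa, hbsa] at h4
    nlinarith

omit [CStarAlgebra B] in
theorem combine_diff {B : Type*} [CStarAlgebra B] {t : B →ₗ[ℝ] ℝ} (ht : IsTrace t) {X Y X' Y' : B}
    (hX : IsSelfAdjoint X) (hY : IsSelfAdjoint Y) (hX' : IsSelfAdjoint X') (hY' : IsSelfAdjoint Y')
    {δ : ℝ} (hXd : t ((X' - X) * (X' - X)) ≤ δ) (hYd : t ((Y' - Y) * (Y' - Y)) ≤ δ) :
    t (star (combine X' Y' - combine X Y) * (combine X' Y' - combine X Y)) ≤ δ := by
  have e : combine X' Y' - combine X Y = (1 / 2 : ℝ) • ((X' - X) + Complex.I • (Y' - Y)) := by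
    simp only [combine]
    module
  rw [e, star_smul, star_trivial, smul_mul_assoc, mul_smul_comm, smul_smul, map_smul, smul_eq_mul]
  have h1 := ht.add_mul_self_le (X' - X) (Complex.I • (Y' - Y))
  simp only [star_smul, (hX'.sub hX).star_eq, (hY'.sub hY).star_eq, Complex.star_def,
    Complex.conj_I, smul_mul_assoc, mul_smul_comm, smul_smul, neg_mul, mul_neg, Complex.I_mul_I,
    neg_neg, one_smul] at h1
  linarith

/-- A trace vanishing at one vanishes. -/
theorem eq_zero_of_one (ht : IsTrace t) (h : t 1 = 0) (a : B) : t a = 0 := by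
  have := ht.cauchy_schwarz 1 a
  rw [star_one, one_mul, one_mul, h, zero_mul] at this
  exact pow_eq_zero_iff two_ne_zero |>.1 (le_antisymm this (sq_nonneg _))

/-- Multiples of a trace. -/
theorem isTrace_smul (ht : IsTrace t) {c : ℝ} (hc : 0 ≤ c) : IsTrace (c • t) :=
  ⟨fun x => mul_nonneg hc (ht.nonneg x), fun x y => congrArg (c * ·) (ht.comm x y),
    fun x => congrArg (c * ·) (ht.map_star x)⟩

end Algebra

/-- The three properties at one element and trace. -/
def Good {G : Type*} {E : Type*} [CStarAlgebra E] (β : G → E →⋆ₐ[ℂ] E) (Q : Finset G) (ε : ℝ)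
    (t : E →ₗ[ℝ] ℝ) (x : E) : Prop :=
  t (star (x * x) * (x * x)) ≤ ε * t 1 ∧
  t (star (star x * x + x * star x - 1) * (star x * x + x * star x - 1)) ≤ ε * t 1 ∧
  ∀ g ∈ Q, t (star (β g x - x) * (β g x - x)) ≤ ε * t 1

variable {G : Type*} [Group G] {E : Type u} [CStarAlgebra E] {β : G → E →⋆ₐ[ℂ] E}

/-- **Theorem M**, abstract form. -/
theorem exists_mcduff (hβ : ∀ g h x, β g (β h x) = β (g * h) x) (hG : IsFolner G) (Q : Finset G)
    (hdata : ∀ δ : ℝ, 0 < δ → ∀ (i k : Type) [Finite i] [Finite k], Nonempty (Data β Q δ i k))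
    {ε : ℝ} (hε : 0 < ε) :
    ∃ x : E, ‖x‖ ≤ 1 ∧ ∀ t : E →ₗ[ℝ] ℝ, IsTrace t →
      t (star (x * x) * (x * x)) ≤ ε * t 1 ∧
      t (star (star x * x + x * star x - 1) * (star x * x + x * star x - 1)) ≤ ε * t 1 ∧
      ∀ g ∈ Q, t (star (β g x - x) * (β g x - x)) ≤ ε * t 1 := by
  classical
  by_contra hne
  have bad : ∀ x : E, ‖x‖ ≤ 1 → ∃ s : E →ₗ[ℝ] ℝ, IsTrace s ∧ s 1 = 1 ∧ ¬ Good β Q ε s x := by
    intro x hx
    by_contra h
    refine hne ⟨x, hx, fun t ht => ?_⟩
    have h10 : 0 ≤ t 1 := one_nonneg_of ht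
    rcases h10.eq_or_lt with h10 | h10
    · simp only [eq_zero_of_one ht h10.symm, mul_zero, le_refl, implies_true, and_self]
    · by_contra hG
      refine h ⟨(t 1)⁻¹ • t, isTrace_smul ht (inv_nonneg.2 h10.le), ?_, fun hg => hG ?_⟩
      · rw [LinearMap.smul_apply, smul_eq_mul, inv_mul_cancel₀ h10.ne']
      · simp only [Good, LinearMap.smul_apply, smul_eq_mul, inv_mul_cancel₀ h10.ne', mul_one,
          inv_mul_le_iff₀ h10, mul_comm (t 1) ε] at hg
        exact hg
  -- parameters
  set η : ℝ := (ε / 6400) ^ 4 / 2 with hη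
  obtain ⟨F, hF, hFQ⟩ := hG Q η (by positivity)
  set N : ℕ := F.card with hN
  have hN0 : 0 < N := hF.card_pos
  set K : ℕ := ⌈96 / ε⌉₊ + 1 with hK
  have hK0 : 0 < K := Nat.succ_pos _
  set V : ℕ := 2 ^ (K * N ^ 2) with hV
  have hVN : K * N ^ 2 ≤ V := Nat.lt_two_pow_self.le
  have hV0 : 0 < V := by positivity
  set l : ℕ := ⌈192 * (V : ℝ) * K * N / ε⌉₊ with hl
  set L : ℕ := 2 ^ l with hLdef
  have hL0 : 0 < L := by positivity
  set M : ℕ := l + L + K * N ^ 2 with hM
  have e : (Fin M → Bool) ≃ Fin L × (Fin L → Bool) × Fin V := Fintype.equivOfCardEq (by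
    simp only [Fintype.card_fun, Fintype.card_prod, Fintype.card_fin, Fintype.card_bool, hM, hV,
      hLdef, pow_add]
    ring)
  set κ : ℝ := (K : ℝ) * Fintype.card F / (2 ^ (L - 1) * V) with hκ
  have hcardF : Fintype.card F = N := Fintype.card_coe F
  have hκ0 : 0 < κ := by
    rw [hκ, hcardF]; positivity
  have hκ1 : κ ≤ 1 := by
    rw [hκ, hcardF, div_le_one (by positivity)]
    have h1 : K * N ≤ V := le_trans (Nat.mul_le_mul_left K (Nat.le_self_pow two_ne_zero N)) hVN
    calc (K : ℝ) * N ≤ 1 * V := by rw [one_mul]; exact_mod_cast h1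
      _ ≤ 2 ^ (L - 1) * V := by gcongr; exact one_le_pow₀ one_le_two
  obtain ⟨R, hR⟩ := exists_pow_lt_of_lt_one (show (0 : ℝ) < ε / 24 by positivity)
    (show 1 - κ < 1 by linarith)
  have he₁ : 2 * (2 / (K : ℝ)) ≤ ε / 24 := by
    have h := Nat.le_ceil (96 / ε)
    have h96 : 96 / ε ≤ K := h.trans (by rw [hK]; push_cast; linarith)
    rw [div_le_iff₀ hε] at h96
    rw [← mul_div_assoc, div_le_iff₀ (by exact_mod_cast hK0)]
    linarith
  have he₂ : 8 * (V : ℝ) * K * Fintype.card F / L ≤ ε / 24 := by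
    have h : 192 * (V : ℝ) * K * N / ε ≤ L := by
      refine (Nat.le_ceil _).trans ?_
      exact (Nat.cast_le (α := ℝ)).2 (Nat.lt_two_pow_self (n := l)).le
    rw [div_le_iff₀ hε] at h
    rw [hcardF, div_le_iff₀ (by exact_mod_cast hL0)]
    linarith
  -- the candidates and the model
  let d : ∀ n : ℕ, Data β Q (1 / ((n : ℝ) + 1)) (Fin (n + R) × Fin L) (Fin (n + R) × Fin M) :=
    fun n => Classical.choice (hdata _ (by positivity) _ _)
  let W : ℝ → ℝ → (ℕ →ᵇ E) := fun a b =>
    raceEl K R e (ySeq d) (uSeq d) (Subtype.val : F → G) a b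
  let xs : ℕ →ᵇ E := combine (truncRe (W 1 0)) (truncRe (W 0 1))
  have hxs : ∀ n, ‖xs n‖ ≤ 1 := fun n => (xs.norm_coe_le_norm n).trans
    (norm_combine_le (norm_truncRe_le _) (norm_truncRe_le _))
  choose ts hts h1 hbad using fun n => bad (xs n) (hxs n)
  obtain ⟨m⟩ := exists_limitModel ts hts h1
  let _ := CStarAlgebra.spectralOrder m.B
  have _ := CStarAlgebra.spectralOrderedRing m.B
  let X : (F → G) → ℝ → ℝ → m.B := fun f a b => raceEl K R e (xB d m) (uB d m) f a b
  have hrace : ∀ (f : F → G) {a b : ℝ}, a ^ 2 + b ^ 2 = 1 →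
      IsRace m.t κ (2 / K) (8 * V * K * Fintype.card F / L) (fun r => alg d m (r + 1) r)
        (fun r => alg d m r r) (qF (uB d m)) (cF K e (xB d m) f a b) (thF K e (xB d m) f) :=
    fun f a b hab => isRace_model d m hts h1 e f hab hL0 hV0 hK0 (by rw [hcardF]; exact hVN)
  have hsa : ∀ (f : F → G) {a b : ℝ}, a ^ 2 + b ^ 2 = 1 →
      IsSelfAdjoint (X f a b) ∧ ‖X f a b‖ ≤ 1 := fun f a b hab =>
    ⟨race_isSelfAdjoint (hrace f hab) 0 R, norm_race_le (hrace f hab) 0 R⟩
  have hdef : ∀ (f : F → G) {a b : ℝ}, a ^ 2 + b ^ 2 = 1 →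
      m.t (1 - X f a b * X f a b) ≤ ε / 8 := fun f a b hab => by
    refine (race_defect (hrace f hab) hκ0 hκ1 (by positivity) (by positivity) 0 R).trans ?_
    rw [m.one]
    linarith
  have h10 : (1 : ℝ) ^ 2 + 0 ^ 2 = 1 := by norm_num
  have h01 : (0 : ℝ) ^ 2 + 1 ^ 2 = 1 := by norm_num
  have hhalf : (√2)⁻¹ ^ 2 + (√2)⁻¹ ^ 2 = (1 : ℝ) := by
    rw [inv_pow, Real.sq_sqrt (by norm_num)]; norm_num
  have hπW : ∀ a b, m.π (W a b) = X Subtype.val a b := fun a b => map_raceEl m.π a b
  have hπxs : m.π xs = combine (X Subtype.val 1 0) (X Subtype.val 0 1) := by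
    rw [map_combine, map_truncRe _ (by rw [hπW]; exact (hsa _ h10).1)
      (by rw [hπW]; exact (hsa _ h10).2), map_truncRe _ (by rw [hπW]; exact (hsa _ h01).1)
      (by rw [hπW]; exact (hsa _ h01).2), hπW, hπW]
  have hlin : (2 : ℝ) • (X Subtype.val (√2)⁻¹ (√2)⁻¹ * X Subtype.val (√2)⁻¹ (√2)⁻¹) =
      (X Subtype.val 1 0 + X Subtype.val 0 1) * (X Subtype.val 1 0 + X Subtype.val 0 1) := by
    rw [show X Subtype.val (√2)⁻¹ (√2)⁻¹ =
      (√2)⁻¹ • X Subtype.val 1 0 + (√2)⁻¹ • X Subtype.val 0 1 from raceEl_linear _ _, ← smul_add,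
      smul_mul_assoc, mul_smul_comm, smul_smul, smul_smul]
    rw [mul_assoc, ← mul_inv, Real.mul_self_sqrt (by norm_num), mul_inv_cancel₀ two_ne_zero,
      one_smul]
  obtain ⟨hb1, hb2⟩ := combine_bounds m.trace (hsa Subtype.val h10).1 (hsa Subtype.val h01).1
    (hsa Subtype.val hhalf).1 (hsa Subtype.val h10).2 (hsa Subtype.val h01).2
    (hsa Subtype.val hhalf).2 hlin (hdef _ h10) (hdef _ h01) (hdef _ hhalf)
  -- stability
  have hstab : ∀ g ∈ Q, m.t (star (m.π (bmap (β g) xs) - m.π xs) *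
      (m.π (bmap (β g) xs) - m.π xs)) ≤ ε / 4 := by
    intro g hg
    let φ : (ℕ →ᵇ E) →⋆ₐ[ℂ] m.B := m.π.comp (bmap (β g))
    let f' : F → G := fun h => g * (h : G)
    have hφW : ∀ a b, φ (W a b) = X f' a b := by
      intro a b
      show φ (raceEl K R e (ySeq d) (uSeq d) _ a b) = _
      rw [map_raceEl]
      have hy : (fun r i h => φ (ySeq d r i h)) = fun r i h => xB d m r i (g * h) := by
        funext r i h
        exact xB_shift d m hβ r i g h
      have hu : (fun r s => φ (uSeq d r s)) = uB d m := by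
        funext r s
        exact uB_shift d m hts h1 hg r s
      rw [hy, hu]
      rfl
    have hφxs : φ xs = combine (X f' 1 0) (X f' 0 1) := by
      rw [map_combine, map_truncRe _ (by rw [hφW]; exact (hsa _ h10).1)
        (by rw [hφW]; exact (hsa _ h10).2), map_truncRe _ (by rw [hφW]; exact (hsa _ h01).1)
        (by rw [hφW]; exact (hsa _ h01).2), hφW, hφW]
    -- align the translates
    let p : F → Prop := fun h => g⁻¹ * (h : G) ∈ F
    let q : F → Prop := fun h => g * (h : G) ∈ F
    let σ₀ : {h // p h} ≃ {h // q h} :=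
      { toFun := fun h => ⟨⟨g⁻¹ * (h.1 : G), h.2⟩, by simp [q]⟩
        invFun := fun h => ⟨⟨g * (h.1 : G), h.2⟩, by simp [p]⟩
        left_inv := fun h => by ext; simp
        right_inv := fun h => by ext; simp }
    let σ : Equiv.Perm F := σ₀.extendSubtype
    have hgood : ∀ h ∈ Finset.univ.filter p, (f' ∘ σ) h = Subtype.val h := fun h hh => by
      have hp : p h := (Finset.mem_filter.1 hh).2
      show g * (σ h : G) = h
      rw [Equiv.extendSubtype_apply_of_mem σ₀ h hp]
      simp [σ₀]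
    have hbadset : (((Finset.univ.filter p)ᶜ).card : ℝ) ≤ η * Fintype.card F := by
      rw [hcardF]
      refine le_trans ?_ (hFQ g hg)
      have h2 : ((Finset.univ.filter p)ᶜ).card = (F \ F.image (g * ·)).card := by
        refine Finset.card_bij (fun h _ => (h : G)) (fun h hh => ?_) (fun a _ b _ => Subtype.ext)
          fun b hb => ?_
        · rw [Finset.mem_sdiff]
          refine ⟨h.2, fun h' => ?_⟩
          obtain ⟨c, hc, hc'⟩ := Finset.mem_image.1 h'
          simp only [Finset.mem_compl, Finset.mem_filter, Finset.mem_univ, true_and, p] at hh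
          exact hh (by rw [← hc']; simpa using hc)
        · obtain ⟨hb1, hb2⟩ := Finset.mem_sdiff.1 hb
          refine ⟨⟨b, hb1⟩, ?_, rfl⟩
          simp only [Finset.mem_compl, Finset.mem_filter, Finset.mem_univ, true_and, p]
          exact fun h' => hb2 (Finset.mem_image.2 ⟨_, h', by simp⟩)
      rw [h2, Finset.card_sdiff_comm (Finset.card_image_of_injective F (mul_right_injective g)).symm]
    have hpair : ∀ {a b : ℝ}, a ^ 2 + b ^ 2 = 1 →
        m.t ((X f' a b - X Subtype.val a b) * (X f' a b - X Subtype.val a b)) ≤ ε / 4 := by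
      intro a b hab
      rw [show X f' a b = X (f' ∘ σ) a b from (raceEl_perm σ a b).symm]
      obtain ⟨c, hc, hcs⟩ := stable_model d m hts h1 (K := K) e (Subtype.val : F → G) (f' ∘ σ) hab
        hL0 hV0 _ hgood (by positivity) hbadset
      refine (race_stable (hrace Subtype.val hab) (hrace (f' ∘ σ) hab) hκ0 hκ1 (by positivity) c hc
        hcs 0 R).trans (le_of_eq ?_)
      rw [m.one, hη, show (2 : ℝ) * ((ε / 6400) ^ 4 / 2) = ((ε / 6400) ^ 2) ^ 2 by ring,
        Real.sqrt_sq (by positivity), Real.sqrt_sq (by positivity)]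
      ring
    rw [show m.π (bmap (β g) xs) = φ xs from rfl, hφxs, hπxs]
    exact combine_diff m.trace (hsa _ h10).1 (hsa _ h01).1 (hsa _ h10).1 (hsa _ h01).1 (hpair h10)
      (hpair h01)
  -- pass to a large index
  have ev : ∀ w : ℕ →ᵇ E, m.t (star (m.π w) * m.π w) < ε →
      ∀ᶠ n in (m.ω : Filter ℕ), ts n (star (w n) * w n) ≤ ε := fun w hw => by
    rw [← map_star, ← map_mul] at hw
    exact ((m.lim (star w * w)).eventually (eventually_lt_nhds hw)).mono fun n hn => hn.le
  have e1 := ev (xs * xs) (by rw [map_mul m.π xs xs, hπxs]; linarith)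
  have e2 := ev (star xs * xs + xs * star xs - 1) (by
    simp only [map_sub, map_add, map_mul, map_star, map_one, hπxs]; linarith)
  have e3 : ∀ᶠ n in (m.ω : Filter ℕ), ∀ g ∈ Q,
      ts n (star ((bmap (β g) xs - xs) n) * (bmap (β g) xs - xs) n) ≤ ε :=
    (Filter.eventually_all_finset Q).2 fun g hg => ev _ (by
      rw [map_sub]; linarith [hstab g hg])
  obtain ⟨n, hn1, hn2, hn3⟩ := (e1.and (e2.and e3)).exists
  exact hbad n ⟨by rw [h1 n, mul_one]; exact hn1, by rw [h1 n, mul_one]; exact hn2,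
    fun g hg => by rw [h1 n, mul_one]; exact hn3 g hg⟩

end Vale.P095.McDuff
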