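import Vale.Agent.P095.McDuff.Spectral
import Vale.Agent.P101.Basic

/-!
Traces on matrices over a C⋆-algebra and the dilation of a column.
-/

open Vale.P095.Tracial

namespace Vale.P095.McDuff

variable {B : Type*} [CStarAlgebra B]

section TraceFacts

variable {t : B →ₗ[ℝ] ℝ} (ht : IsTrace t)
include ht

/-- `t (y a y*) ≤ ‖a‖ t (y y*)` for self-adjoint `a`. -/
theorem trace_conj_le {a : B} (ha : IsSelfAdjoint a) (y : B) :
    t (y * a * star y) ≤ ‖a‖ * t (y * star y) := by
  rcases subsingleton_or_nontrivial B with h | h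
  · simp [Subsingleton.elim (y * a * star y) 0, Subsingleton.elim (y * star y) 0]
  set g := cfc (fun s : ℝ => Real.sqrt (‖a‖ - s)) a with hg
  have hgs : IsSelfAdjoint g := IsSelfAdjoint.cfc
  have hg2 : g * g = algebraMap ℝ B ‖a‖ - a := by
    rw [hg, ← cfc_mul (R := ℝ) _ _ a]
    calc cfc (fun s : ℝ => Real.sqrt (‖a‖ - s) * Real.sqrt (‖a‖ - s)) a
        = cfc (fun s : ℝ => ‖a‖ - s) a := cfc_congr fun s hs => by
          have := (Real.norm_eq_abs s ▸ spectrum.norm_le_norm_of_mem hs)
          exact Real.mul_self_sqrt (by linarith [le_abs_self s])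
      _ = algebraMap ℝ B ‖a‖ - a := by
          rw [cfc_sub (R := ℝ) (fun _ => ‖a‖) (fun s => s) a, cfc_const ‖a‖ a, cfc_id' ℝ a]
  have h0 := ht.nonneg (g * star y)
  have e : star (g * star y) * (g * star y) = y * (g * g) * star y := by
    simp only [star_mul, star_star, hgs.star_eq, mul_assoc]
  rw [e, hg2, Algebra.algebraMap_eq_smul_one, mul_sub, sub_mul, mul_smul_comm, mul_one,
    smul_mul_assoc, map_sub, map_smul, smul_eq_mul] at h0
  linarith

/-- Cauchy-Schwarz with square roots. -/
theorem abs_trace_star_mul_le (x y : B) :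
    |t (star x * y)| ≤ Real.sqrt (t (star x * x)) * Real.sqrt (t (star y * y)) := by
  let := CStarAlgebra.spectralOrder B
  have := CStarAlgebra.spectralOrderedRing B
  rw [← Real.sqrt_mul (ht.nonneg x)]
  exact Real.abs_le_sqrt (ht.cauchy_schwarz x y)

/-- `|t (z x* y)| ≤ ‖z‖ |x|₂ |y|₂`. -/
theorem abs_trace_mul_star_mul_le (z x y : B) :
    |t (z * (star x * y))| ≤
      ‖z‖ * (Real.sqrt (t (star x * x)) * Real.sqrt (t (star y * y))) := by
  have e : t (z * (star x * y)) = t (star x * (y * z)) := by
    rw [ht.comm, mul_assoc]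
  rw [e]
  refine (abs_trace_star_mul_le ht x (y * z)).trans ?_
  have h1 : t (star (y * z) * (y * z)) ≤ ‖z‖ ^ 2 * t (star y * y) := by
    have h2 := trace_conj_le ht (IsSelfAdjoint.mul_star_self z) y
    rw [CStarRing.norm_self_mul_star, ht.comm y (star y)] at h2
    calc t (star (y * z) * (y * z)) = t ((y * z) * star (y * z)) := ht.comm _ _
      _ = t (y * (z * star z) * star y) := by simp only [star_mul, mul_assoc]
      _ ≤ _ := by rw [pow_two]; exact h2
  rw [mul_left_comm]
  refine mul_le_mul_of_nonneg_left ?_ (Real.sqrt_nonneg _)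
  refine (Real.sqrt_le_sqrt h1).trans (le_of_eq ?_)
  rw [Real.sqrt_mul (by positivity), Real.sqrt_sq (norm_nonneg z)]

end TraceFacts

/-! ### Matrices -/

section Matrix

attribute [local instance] CStarAlgebra.spectralOrder CStarAlgebra.spectralOrderedRing

variable {κ : Type*} [Fintype κ] [DecidableEq κ]

/-- Instance search misses this one (two defeq paths to `Algebra ℝ`). -/
noncomputable instance matCFC :
    ContinuousFunctionalCalculus ℝ (CStarMatrix κ κ B) IsSelfAdjoint :=
  IsSelfAdjoint.instContinuousFunctionalCalculus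

/-- The trace on matrices induced by a trace. -/
noncomputable def matTr (t : B →ₗ[ℝ] ℝ) : CStarMatrix κ κ B →ₗ[ℝ] ℝ where
  toFun M := ∑ i, t (M i i)
  map_add' M N := by simp [Finset.sum_add_distrib]
  map_smul' c M := by simp [Finset.mul_sum]

omit [DecidableEq κ] in
theorem matTr_apply (t : B →ₗ[ℝ] ℝ) (M : CStarMatrix κ κ B) : matTr t M = ∑ i, t (M i i) := rfl

omit [DecidableEq κ] in
theorem star_mul_apply (M N : CStarMatrix κ κ B) (i j : κ) :
    (star M * N) i j = ∑ l, star (M l i) * N l j := by
  simp [CStarMatrix.mul_apply, CStarMatrix.star_apply]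

theorem isTrace_matTr {t : B →ₗ[ℝ] ℝ} (ht : IsTrace t) :
    IsTrace (matTr t : CStarMatrix κ κ B →ₗ[ℝ] ℝ) where
  nonneg M := by
    change 0 ≤ ∑ i, t ((star M * M) i i)
    simp only [star_mul_apply, map_sum]
    exact Finset.sum_nonneg fun i _ => Finset.sum_nonneg fun j _ => ht.nonneg _
  comm M N := by
    change ∑ i, t ((M * N) i i) = ∑ i, t ((N * M) i i)
    simp only [CStarMatrix.mul_apply, map_sum]
    rw [Finset.sum_comm]
    exact Finset.sum_congr rfl fun i _ => Finset.sum_congr rfl fun j _ => ht.comm _ _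
  map_star M := by
    change ∑ i, t ((star M) i i) = ∑ i, t (M i i)
    simp only [CStarMatrix.star_apply, ht.map_star]

omit [DecidableEq κ] in
theorem matTr_star_mul (t : B →ₗ[ℝ] ℝ) (M : CStarMatrix κ κ B) :
    matTr t (star M * M) = ∑ i, ∑ l, t (star (M l i) * M l i) := by
  simp [matTr_apply, star_mul_apply, map_sum]

omit [Fintype κ] [DecidableEq κ] in
theorem mat_sum_apply {ι : Type*} (s : Finset ι) (M : ι → CStarMatrix κ κ B) (i j : κ) :
    (∑ x ∈ s, M x) i j = ∑ x ∈ s, M x i j :=
  map_sum ({ toFun := fun N : CStarMatrix κ κ B => N i j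
             map_zero' := rfl
             map_add' := fun _ _ => rfl } : CStarMatrix κ κ B →+ B) M s

/-- Diagonal matrices. -/
def diagMat (d : κ → B) : CStarMatrix κ κ B := CStarMatrix.ofMatrix (Matrix.diagonal d)

omit [Fintype κ] in
theorem diagMat_apply (d : κ → B) (i j : κ) : diagMat d i j = if i = j then d i else 0 := by
  by_cases h : i = j
  · subst h; exact (Matrix.diagonal_apply_eq _ _).trans (if_pos rfl).symm
  · exact (Matrix.diagonal_apply_ne _ h).trans (if_neg h).symm

theorem mul_diagMat_apply (M : CStarMatrix κ κ B) (d : κ → B) (i j : κ) :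
    (M * diagMat d) i j = M i j * d j := by
  simp [CStarMatrix.mul_apply, diagMat_apply]

theorem diagMat_mul_apply (d : κ → B) (M : CStarMatrix κ κ B) (i j : κ) :
    (diagMat d * M) i j = d i * M i j := by
  simp [CStarMatrix.mul_apply, diagMat_apply]

omit [Fintype κ] in
theorem isSelfAdjoint_diagMat {d : κ → B} (h : ∀ i, IsSelfAdjoint (d i)) :
    IsSelfAdjoint (diagMat d) := by
  refine CStarMatrix.ext fun i j => ?_
  rw [CStarMatrix.star_apply, diagMat_apply, diagMat_apply]
  by_cases hij : i = j
  · subst hij; simp [(h i).star_eq]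
  · simp [hij, Ne.symm hij]

theorem diagMat_mul_self {d : κ → B} (h : ∀ i, d i * d i = 1) : diagMat d * diagMat d = 1 := by
  refine CStarMatrix.ext fun i j => ?_
  rw [diagMat_mul_apply, diagMat_apply, CStarMatrix.one_apply]
  by_cases hij : i = j
  · subst hij; simp [h i]
  · simp [hij]

end Matrix

/-! ### The dilation of a column -/

/-- The self-adjoint dilation of a column. -/
def colDil {ι : Type*} (v : ι → B) : CStarMatrix (Option ι) (Option ι) B :=
  CStarMatrix.ofMatrix fun a b =>
    match a, b with
    | none, some i => star (v i)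
    | some i, none => v i
    | _, _ => 0

section Dil

variable {ι : Type*}

@[simp] theorem colDil_none_none (v : ι → B) : colDil v none none = 0 := rfl
@[simp] theorem colDil_none_some (v : ι → B) (i : ι) : colDil v none (some i) = star (v i) := rfl
@[simp] theorem colDil_some_none (v : ι → B) (i : ι) : colDil v (some i) none = v i := rfl
@[simp] theorem colDil_some_some (v : ι → B) (i j : ι) : colDil v (some i) (some j) = 0 := rfl

theorem colDil_isSelfAdjoint (v : ι → B) : IsSelfAdjoint (colDil v) := by
  refine CStarMatrix.ext fun a b => ?_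
  rcases a with _ | i <;> rcases b with _ | j <;> simp [CStarMatrix.star_apply]

theorem colDil_sub (v w : ι → B) : colDil v - colDil w = colDil (v - w) := by
  refine CStarMatrix.ext fun a b => ?_
  rcases a with _ | i <;> rcases b with _ | j <;> simp

variable [Fintype ι]

theorem colDil_mul_self_apply (v : ι → B) :
    (colDil v * colDil v) none none = ∑ i, star (v i) * v i ∧
    (∀ i, (colDil v * colDil v) none (some i) = 0) ∧
    (∀ i, (colDil v * colDil v) (some i) none = 0) ∧
    ∀ i j, (colDil v * colDil v) (some i) (some j) = v i * star (v j) := by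
  refine ⟨?_, fun i => ?_, fun i => ?_, fun i j => ?_⟩ <;>
    simp [CStarMatrix.mul_apply, Fintype.sum_option]

theorem matTr_colDil_mul_self {t : B →ₗ[ℝ] ℝ} (ht : IsTrace t) (v : ι → B) :
    matTr t (colDil v * colDil v) = 2 * ∑ i, t (star (v i) * v i) := by
  rw [matTr_apply, Fintype.sum_option, (colDil_mul_self_apply v).1, map_sum, two_mul]
  congr 1
  exact Finset.sum_congr rfl fun i _ => by
    rw [(colDil_mul_self_apply v).2.2.2 i i, ht.comm]

end Dil

end Vale.P095.McDuff
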