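import Vale.Agent.P095.Tracial.TraceIneq

/-!
Commuting copies of the two by two matrices: symmetries, balance and the hashing inequality
(owner: helper13).
-/

open Vale.P095.Tracial

namespace Vale.P095.McDuff

variable {B : Type*} [CStarAlgebra B]

/-- `x s g` generates, for each slot `s` and translate `g`, a unital copy of the two by two
matrices; copies in different slots commute. Different translates in one slot are arbitrary. -/
structure IsSlots {S Γ : Type*} (x : S → Γ → B) : Prop where
  sq : ∀ s g, x s g * x s g = 0
  unit : ∀ s g, star (x s g) * x s g + x s g * star (x s g) = 1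
  comm : ∀ s t g h, s ≠ t → Commute (x s g) (x t h)
  comm_star : ∀ s t g h, s ≠ t → Commute (x s g) (star (x t h))

/-- The symmetry `σ_z`. -/
def sigZ (x : B) : B := x * star x - star x * x

/-- The symmetry `σ_x`. -/
def sigX (x : B) : B := x + star x

/-- The combination `a σ_z + b σ_x`. -/
noncomputable def sig (a b : ℝ) (x : B) : B := a • sigZ x + b • sigX x

/-- The projection `(1 + σ) / 2`; `c = true` is the `z` basis. -/
noncomputable def prj (c : Bool) (x : B) : B := (1 / 2 : ℝ) • (1 + if c then sigZ x else sigX x)

/-- Ordered product. -/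
def oprod {n : ℕ} (f : Fin n → B) : B := (List.ofFn f).prod

/-- The product over all slots except `i` of the projections of translate `g`. -/
noncomputable def omitProd {Γ : Type*} {L : ℕ} (x : Fin L → Γ → B) (β : Fin L → Bool) (i : Fin L)
    (g : Γ) : B :=
  oprod fun j => if j = i then 1 else prj (β j) (x j g)

theorem isSelfAdjoint_sigZ (x : B) : IsSelfAdjoint (sigZ x) :=
  (IsSelfAdjoint.mul_star_self x).sub (IsSelfAdjoint.star_mul_self x)

theorem isSelfAdjoint_sigX (x : B) : IsSelfAdjoint (sigX x) := IsSelfAdjoint.add_star_self x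

theorem isSelfAdjoint_sig (a b : ℝ) (x : B) : IsSelfAdjoint (sig a b x) :=
  ((IsSelfAdjoint.all a).smul (isSelfAdjoint_sigZ x)).add
    ((IsSelfAdjoint.all b).smul (isSelfAdjoint_sigX x))

theorem sig_z (x : B) : sig 1 0 x = sigZ x := by simp [sig]

theorem sig_x (x : B) : sig 0 1 x = sigX x := by simp [sig]

/-- The symmetry of a basis. -/
def sigB (c : Bool) (x : B) : B := if c then sigZ x else sigX x

theorem prj_eq (c : Bool) (x : B) : prj c x = (1 / 2 : ℝ) • (1 + sigB c x) := rfl

theorem mul_star_mul_self {x : B} (hsq : x * x = 0) (hun : star x * x + x * star x = 1) :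
    x * star x * x = x := by
  have h : (star x * x + x * star x) * x = x := by rw [hun, one_mul]
  rwa [add_mul, mul_assoc (star x) x x, hsq, mul_zero, zero_add] at h

theorem star_mul_star_self {x : B} (hsq : x * x = 0) : star x * star x = 0 := by
  rw [← star_mul, hsq, star_zero]

theorem sig_sq {x : B} (hsq : x * x = 0) (hun : star x * x + x * star x = 1) {a b : ℝ}
    (h : a ^ 2 + b ^ 2 = 1) : sig a b x * sig a b x = 1 := by
  have h1 := mul_star_mul_self hsq hun
  have h2 : star x * x * star x = star x := by
    simpa [star_mul, mul_assoc] using congrArg star h1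
  have h3 := star_mul_star_self hsq
  have hzz : sigZ x * sigZ x = 1 := by
    have e1 : x * star x * (x * star x) = x * star x := by rw [← mul_assoc, h1]
    have e2 : star x * x * (star x * x) = star x * x := by rw [← mul_assoc, h2]
    have e3 : x * star x * (star x * x) = 0 := by
      rw [mul_assoc, ← mul_assoc (star x) (star x), h3, zero_mul, mul_zero]
    have e4 : star x * x * (x * star x) = 0 := by
      rw [mul_assoc, ← mul_assoc x x, hsq, zero_mul, mul_zero]
    rw [sigZ, sub_mul, mul_sub, mul_sub, e1, e2, e3, e4, sub_zero, zero_sub, sub_neg_eq_add,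
      add_comm, hun]
  have hxx : sigX x * sigX x = 1 := by
    rw [sigX, add_mul, mul_add, mul_add, hsq, h3, zero_add, add_zero, add_comm, hun]
  have hzx : sigZ x * sigX x + sigX x * sigZ x = 0 := by
    have a1 : x * star x * star x = 0 := by rw [mul_assoc, h3, mul_zero]
    have a2 : star x * x * x = 0 := by rw [mul_assoc, hsq, mul_zero]
    have a3 : x * (x * star x) = 0 := by rw [← mul_assoc, hsq, zero_mul]
    have a4 : star x * (star x * x) = 0 := by rw [← mul_assoc, h3, zero_mul]
    have a5 : x * (star x * x) = x := by rw [← mul_assoc, h1]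
    have a6 : star x * (x * star x) = star x := by rw [← mul_assoc, h2]
    simp only [sigZ, sigX, add_mul, mul_add, sub_mul, mul_sub, h1, h2, a1, a2, a3, a4, a5, a6]
    abel
  calc sig a b x * sig a b x = (a ^ 2) • (sigZ x * sigZ x) + (b ^ 2) • (sigX x * sigX x)
        + (a * b) • (sigZ x * sigX x + sigX x * sigZ x) := by
        simp only [sig, add_mul, mul_add, smul_mul_assoc, mul_smul_comm, smul_smul, smul_add]
        module
    _ = 1 := by rw [hzz, hxx, hzx, smul_zero, add_zero, ← add_smul, h, one_smul]

/-- Anything commuting with a copy is balanced against its symmetries. -/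
theorem tr_mul_sig (t : B →ₗ[ℝ] ℝ) (ht : IsTrace t) {x W : B} (hsq : x * x = 0) (hun : star x * x + x * star x = 1)
    (hW : Commute W x) (hW' : Commute W (star x)) (a b : ℝ) : t (W * sig a b x) = 0 := by
  have h1 := mul_star_mul_self hsq hun
  have h2 : star x * x * star x = star x := by
    simpa [star_mul, mul_assoc] using congrArg star h1
  have hz : t (W * (x * star x)) = t (W * (star x * x)) := by
    rw [← mul_assoc, ht.comm, ← mul_assoc, ← hW'.eq, mul_assoc]
  have hx : t (W * x) = 0 := by
    conv_lhs => rw [← h1]
    rw [show W * (x * star x * x) = x * (W * (star x * x)) by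
      rw [← mul_assoc x W, ← hW.eq]; simp only [mul_assoc]]
    rw [ht.comm, mul_assoc W, mul_assoc (star x), hsq, mul_zero, mul_zero, map_zero]
  have hx' : t (W * star x) = 0 := by
    conv_lhs => rw [← h2]
    rw [show W * (star x * x * star x) = star x * (W * (x * star x)) by
      rw [← mul_assoc (star x) W, ← hW'.eq]; simp only [mul_assoc]]
    rw [ht.comm, mul_assoc W, mul_assoc x, star_mul_star_self hsq, mul_zero, mul_zero, map_zero]
  show t (W * sig a b x) = 0
  simp [sig, sigZ, sigX, mul_add, mul_sub, mul_smul_comm, map_add, map_sub, map_smul, hz, hx, hx']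

theorem tr_mul_prj (t : B →ₗ[ℝ] ℝ) (ht : IsTrace t) {x W : B} (hsq : x * x = 0) (hun : star x * x + x * star x = 1)
    (hW : Commute W x) (hW' : Commute W (star x)) (c : Bool) :
    t (W * prj c x) = t W / 2 := by
  have hz : t (W * sigZ x) = 0 := by
    simpa [sig_z] using tr_mul_sig t ht hsq hun hW hW' 1 0
  have hx : t (W * sigX x) = 0 := by
    simpa [sig_x] using tr_mul_sig t ht hsq hun hW hW' 0 1
  cases c <;>
    simp only [prj, mul_smul_comm, map_smul, mul_add, mul_one, map_add, smul_eq_mul, hz, hx,
      Bool.false_eq_true, if_true, if_false] <;> ring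

theorem prj_proj {x : B} (hsq : x * x = 0) (hun : star x * x + x * star x = 1) (c : Bool) :
    IsSelfAdjoint (prj c x) ∧ prj c x * prj c x = prj c x := by
  have hs : IsSelfAdjoint (sigB c x) ∧ sigB c x * sigB c x = 1 := by
    cases c
    · refine ⟨by simpa [sigB] using isSelfAdjoint_sigX x, ?_⟩
      simpa [sigB, sig_x] using sig_sq (a := 0) (b := 1) hsq hun (by norm_num)
    · refine ⟨by simpa [sigB] using isSelfAdjoint_sigZ x, ?_⟩
      simpa [sigB, sig_z] using sig_sq (a := 1) (b := 0) hsq hun (by norm_num)
  rw [prj_eq]
  refine ⟨(IsSelfAdjoint.all _).smul ((IsSelfAdjoint.one B).add hs.1), ?_⟩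
  simp only [smul_mul_assoc, mul_smul_comm, add_mul, mul_add, one_mul, mul_one, hs.2]
  module

theorem commute_prj {x W : B} (hW : Commute W x) (hW' : Commute W (star x)) (c : Bool) :
    Commute W (prj c x) := by
  refine Commute.smul_right (Commute.add_right (Commute.one_right W) ?_) _
  split_ifs
  · exact (hW.mul_right hW').sub_right (hW'.mul_right hW)
  · exact hW.add_right hW'

theorem prj_sub_prj (c : Bool) (x y : B) :
    sigB c x - sigB c y = (2 : ℝ) • (prj c x - prj c y) := by
  rw [prj_eq, prj_eq]
  module

/-- The product over a list of slots of the projections of translate `g`. -/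
noncomputable def lprod {Γ : Type*} {L : ℕ} (x : Fin L → Γ → B) (β : Fin L → Bool) (g : Γ)
    (l : List (Fin L)) : B :=
  (l.map fun j => prj (β j) (x j g)).prod

theorem lprod_cons {Γ : Type*} {L : ℕ} (x : Fin L → Γ → B) (β : Fin L → Bool) (g : Γ) (j : Fin L)
    (l : List (Fin L)) : lprod x β g (j :: l) = prj (β j) (x j g) * lprod x β g l := rfl

theorem commute_lprod {Γ : Type*} {L : ℕ} {x : Fin L → Γ → B} (β : Fin L → Bool) (g : Γ)
    (l : List (Fin L)) {W : B} (hW : ∀ j ∈ l, Commute W (x j g) ∧ Commute W (star (x j g))) :
    Commute W (lprod x β g l) := by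
  refine Commute.list_prod_right _ _ fun y hy => ?_
  obtain ⟨j, hj, rfl⟩ := List.mem_map.1 hy
  exact commute_prj (hW j hj).1 (hW j hj).2 _

theorem omitProd_eq {Γ : Type*} {L : ℕ} (x : Fin L → Γ → B) (β : Fin L → Bool) (i : Fin L)
    (g : Γ) : omitProd x β i g = lprod x β g ((List.finRange L).erase i) := by
  have key : ∀ l : List (Fin L), l.Nodup →
      (l.map fun j => if j = i then 1 else prj (β j) (x j g)).prod = lprod x β g (l.erase i) := by
    intro l
    induction l with
    | nil => simp [lprod]
    | cons j l ih =>
      intro hl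
      obtain ⟨hj, hl⟩ := List.nodup_cons.1 hl
      rw [List.map_cons, List.prod_cons, ih hl]
      by_cases h : j = i
      · subst h
        rw [if_pos rfl, one_mul, List.erase_cons_head, List.erase_of_not_mem hj]
      · rw [if_neg h, List.erase_cons_tail (by simpa using h), lprod_cons]
  rw [omitProd, oprod, List.ofFn_eq_map]
  exact key _ (List.nodup_finRange L)

section Omit

variable {Γ : Type*} {L : ℕ} {x : Fin L → Γ → B} (hx : IsSlots x) (β : Fin L → Bool) (i : Fin L)
include hx

theorem commute_slot {j l : Fin L} (hjl : j ≠ l) (g h : Γ) :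
    Commute (prj (β j) (x j g)) (x l h) ∧ Commute (prj (β j) (x j g)) (star (x l h)) :=
  ⟨(commute_prj (hx.comm l j h g hjl.symm) (hx.comm_star l j h g hjl.symm) _).symm,
    (commute_prj (hx.comm_star j l g h hjl).symm
      ((hx.comm j l g h hjl).symm.star_star) _).symm⟩

theorem commute_lprod_slot (g h : Γ) {l : List (Fin L)} (hi : i ∉ l) :
    Commute (lprod x β g l) (x i h) ∧ Commute (lprod x β g l) (star (x i h)) := by
  constructor <;>
  · refine Commute.list_prod_left _ _ fun y hy => ?_
    obtain ⟨j, hj, rfl⟩ := List.mem_map.1 hy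
    have := commute_slot hx β (j := j) (l := i) (fun e => hi (e ▸ hj)) g h
    first | exact this.1 | exact this.2

theorem lprod_proj (g : Γ) (l : List (Fin L)) (hl : l.Nodup) :
    IsSelfAdjoint (lprod x β g l) ∧ lprod x β g l * lprod x β g l = lprod x β g l := by
  induction l with
  | nil => simp [lprod]
  | cons j l ih =>
    obtain ⟨hj, hl⟩ := List.nodup_cons.1 hl
    obtain ⟨hsa, hid⟩ := ih hl
    obtain ⟨psa, pid⟩ := prj_proj (hx.sq j g) (hx.unit j g) (β j)
    have hc : Commute (prj (β j) (x j g)) (lprod x β g l) := by
      have := commute_lprod_slot hx β j g g hj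
      exact (commute_prj this.1 this.2 _).symm
    rw [lprod_cons]
    refine ⟨(psa.commute_iff hsa).1 hc, ?_⟩
    rw [mul_assoc, ← mul_assoc (lprod x β g l), ← hc.eq, mul_assoc, hid, ← mul_assoc, pid]

theorem omitProd_proj (g : Γ) :
    IsSelfAdjoint (omitProd x β i g) ∧ omitProd x β i g * omitProd x β i g = omitProd x β i g := by
  rw [omitProd_eq]
  exact lprod_proj hx β g _ ((List.nodup_finRange L).erase i)

theorem commute_omitProd_slot (g h : Γ) :
    Commute (omitProd x β i g) (x i h) ∧ Commute (omitProd x β i g) (star (x i h)) := by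
  rw [omitProd_eq]
  exact commute_lprod_slot hx β i g h (List.nodup_finRange L).not_mem_erase

theorem tr_mul_omitProd (t : B →ₗ[ℝ] ℝ) (ht : IsTrace t) (g : Γ) {W : B}
    (hW : ∀ j h, Commute W (x j h) ∧ Commute W (star (x j h))) :
    t (W * omitProd x β i g) = t W / 2 ^ (L - 1) := by
  have key : ∀ l : List (Fin L), l.Nodup →
      t (W * lprod x β g l) = t W / 2 ^ l.length := by
    intro l
    induction l with
    | nil => simp [lprod]
    | cons j l ih =>
      intro hl
      obtain ⟨hj, hl⟩ := List.nodup_cons.1 hl
      have hc := commute_lprod_slot hx β j g g hj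
      rw [lprod_cons, (commute_prj hc.1 hc.2 _).eq.symm, ← mul_assoc,
        tr_mul_prj t ht (hx.sq j g) (hx.unit j g) (((hW j g).1).mul_left hc.1)
          (((hW j g).2).mul_left hc.2), ih hl, List.length_cons, pow_succ]
      ring
  show t _ = _
  rw [omitProd_eq, key _ ((List.nodup_finRange L).erase i),
    List.length_erase_of_mem (List.mem_finRange i), List.length_finRange]

/-- Two projections of one slot against a weight. -/
theorem tr_mul_pp (t : B →ₗ[ℝ] ℝ) (ht : IsTrace t) (j : Fin L) (g h : Γ) {W : B}
    (hW : ∀ k, Commute W (x j k) ∧ Commute W (star (x j k))) :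
    2 * t (W * (prj (β j) (x j g) * prj (β j) (x j h))) = t W -
      t (W * ((prj (β j) (x j g) - prj (β j) (x j h)) *
        (prj (β j) (x j g) - prj (β j) (x j h)))) := by
  have h1 := tr_mul_prj t ht (hx.sq j g) (hx.unit j g) (hW g).1 (hW g).2 (β j)
  have h2 := tr_mul_prj t ht (hx.sq j h) (hx.unit j h) (hW h).1 (hW h).2 (β j)
  have hg : Commute W (prj (β j) (x j g)) := commute_prj (hW g).1 (hW g).2 _
  have h3 : t (W * (prj (β j) (x j h) * prj (β j) (x j g))) =
      t (W * (prj (β j) (x j g) * prj (β j) (x j h))) := by
    rw [← mul_assoc, ht.comm, ← mul_assoc, ← hg.eq, mul_assoc]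
  have h4 := (prj_proj (hx.sq j g) (hx.unit j g) (β j)).2
  have h5 := (prj_proj (hx.sq j h) (hx.unit j h) (β j)).2
  simp only [mul_sub, sub_mul, map_sub, h4, h5, h1, h2, h3]
  ring

omit hx i β in
/-- A weight splits along two projections commuting with it. -/
theorem weight_split {k p p' : B} (psa : IsSelfAdjoint p) (pid : p * p = p)
    (psa' : IsSelfAdjoint p') (pid' : p' * p' = p') (h1 : Commute (star k * k) p)
    (h2 : Commute (star k * k) p') :
    star (k * (1 - p - p')) * (k * (1 - p - p')) =
        star k * k - star k * k * ((p - p') * (p - p')) ∧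
      star (k * (p - p')) * (k * (p - p')) = star k * k * ((p - p') * (p - p')) := by
  have move : ∀ q : B, IsSelfAdjoint q → Commute (star k * k) q →
      star (k * q) * (k * q) = star k * k * (q * q) := fun q hq c => by
    rw [star_mul, hq.star_eq, mul_assoc, ← mul_assoc (star k) k, ← mul_assoc, ← c.eq, mul_assoc]
  refine ⟨?_, move _ (psa.sub psa') (h1.sub_right h2)⟩
  rw [move _ (((IsSelfAdjoint.one B).sub psa).sub psa')
    (((Commute.one_right _).sub_right h1).sub_right h2)]
  simp only [mul_sub, sub_mul, mul_one, one_mul, pid, pid']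
  abel

omit i in
/-- One factor less: the pair product against a weight `star k * k`. -/
theorem tr_pair (t : B →ₗ[ℝ] ℝ) (ht : IsTrace t) (j : Fin L) (l : List (Fin L)) (hj : j ∉ l) (g h : Γ) {W A : B}
    (hW : ∀ r, Commute W (x j r) ∧ Commute W (star (x j r)))
    (hA : ∀ r, Commute A (x j r) ∧ Commute A (star (x j r))) :
    2 * t (W * (A * (lprod x β g (j :: l) * lprod x β h (j :: l)))) =
      t (W * (A * (lprod x β g l * lprod x β h l))) -
      t (W * ((prj (β j) (x j g) - prj (β j) (x j h)) *
        (prj (β j) (x j g) - prj (β j) (x j h))) * (A * (lprod x β g l * lprod x β h l))) := by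
  set p := prj (β j) (x j g)
  set p' := prj (β j) (x j h)
  set G := lprod x β g l
  set H := lprod x β h l
  have hG : ∀ r, Commute G (x j r) ∧ Commute G (star (x j r)) := fun r =>
    commute_lprod_slot hx β j g r hj
  have hH : ∀ r, Commute H (x j r) ∧ Commute H (star (x j r)) := fun r =>
    commute_lprod_slot hx β j h r hj
  set M := A * (G * H)
  have hM : ∀ r, Commute M (x j r) ∧ Commute M (star (x j r)) := fun r =>
    ⟨(hA r).1.mul_left ((hG r).1.mul_left (hH r).1),
      (hA r).2.mul_left ((hG r).2.mul_left (hH r).2)⟩
  have hp : Commute G p' := commute_prj (hG h).1 (hG h).2 _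
  have hq : Commute M (p * p') :=
    (commute_prj (hM g).1 (hM g).2 _).mul_right (commute_prj (hM h).1 (hM h).2 _)
  have hqA : Commute A (p * p') :=
    (commute_prj (hA g).1 (hA g).2 _).mul_right (commute_prj (hA h).1 (hA h).2 _)
  have hd : Commute M ((p - p') * (p - p')) :=
    ((commute_prj (hM g).1 (hM g).2 _).sub_right (commute_prj (hM h).1 (hM h).2 _)).mul_right
      ((commute_prj (hM g).1 (hM g).2 _).sub_right (commute_prj (hM h).1 (hM h).2 _))
  have e : A * (lprod x β g (j :: l) * lprod x β h (j :: l)) = M * (p * p') := by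
    rw [hq.eq, lprod_cons, lprod_cons]
    show A * (p * G * (p' * H)) = p * p' * (A * (G * H))
    rw [show p * G * (p' * H) = p * p' * (G * H) by
      rw [mul_assoc p G, ← mul_assoc G p', hp.eq]; simp only [mul_assoc], ← mul_assoc A (p * p'),
      hqA.eq]
    simp only [mul_assoc]
  rw [e, ← mul_assoc W M, tr_mul_pp hx β t ht j g h (W := W * M)
    fun r => ⟨(hW r).1.mul_left (hM r).1, (hW r).2.mul_left (hM r).2⟩]
  congr 2
  rw [mul_assoc W M, hd.eq]
  simp only [mul_assoc]

/-- The hashing inequality: averaged over the omitted position and the bases, two translates that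
both survive all other slots agree in the omitted slot. -/
theorem hash_le (t : B →ₗ[ℝ] ℝ) (ht : IsTrace t) (g h : Γ) {a b : ℝ} (hab : a ^ 2 + b ^ 2 = 1) :
    ∑ i : Fin L, ∑ β : Fin L → Bool, t ((sig a b (x i g) - sig a b (x i h)) *
        (sig a b (x i g) - sig a b (x i h)) *
        (omitProd x β i g * omitProd x β i h * omitProd x β i g)) ≤ 16 * t 1 := by
  set d : (Fin L → Bool) → Fin L → Fin L → B := fun β j k =>
    prj (β j) (x k g) - prj (β j) (x k h) with hd
  -- the pair product of a list against a weight
  have base : ∀ (β : Fin L → Bool) (l : List (Fin L)), l.Nodup → ∀ k : B,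
      (∀ j ∈ l, ∀ r, Commute k (x j r) ∧ Commute k (star (x j r))) →
      t (star k * k * (1 * (lprod x β g l * lprod x β h l))) ≤
        t (star k * k) * (1 / 2) ^ l.length := by
    intro β l
    induction l with
    | nil => intro _ k _; simp [lprod]
    | cons j l ih =>
      intro hl k hk
      obtain ⟨hj, hl⟩ := List.nodup_cons.1 hl
      have hkj := hk j List.mem_cons_self
      have hW : ∀ r, Commute (star k * k) (x j r) ∧ Commute (star k * k) (star (x j r)) := fun r =>
        ⟨Commute.mul_left (by simpa using (hkj r).2.star_star) (hkj r).1,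
          Commute.mul_left (by simpa using (hkj r).1.star_star) (hkj r).2⟩
      have hp0 := tr_pair hx β t ht j l hj g h hW (A := 1) fun r =>
        ⟨Commute.one_left _, Commute.one_left _⟩
      set p := prj (β j) (x j g)
      set p' := prj (β j) (x j h)
      set M := 1 * (lprod x β g l * lprod x β h l)
      have hkl := fun m (hm : m ∈ l) => hk m (List.mem_cons_of_mem j hm)
      obtain ⟨eq1, eq2⟩ := weight_split (k := k) (prj_proj (hx.sq j g) (hx.unit j g) (β j)).1
        (prj_proj (hx.sq j g) (hx.unit j g) (β j)).2 (prj_proj (hx.sq j h) (hx.unit j h) (β j)).1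
        (prj_proj (hx.sq j h) (hx.unit j h) (β j)).2
        (commute_prj (hW g).1 (hW g).2 _) (commute_prj (hW h).1 (hW h).2 _)
      have hcomm : ∀ m ∈ l, ∀ r, Commute (k * (1 - p - p')) (x m r) ∧
          Commute (k * (1 - p - p')) (star (x m r)) := fun m hm r => by
        have hm' : j ≠ m := fun e => hj (by rw [e]; exact hm)
        have c1 := commute_slot hx β hm' g r
        have c2 := commute_slot hx β hm' h r
        exact ⟨(hkl m hm r).1.mul_left (((Commute.one_left _).sub_left c1.1).sub_left c2.1),
          (hkl m hm r).2.mul_left (((Commute.one_left _).sub_left c1.2).sub_left c2.2)⟩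
      have ih' := ih hl (k * (1 - p - p')) hcomm
      rw [eq1, sub_mul, map_sub, map_sub, sub_mul (t (star k * k))] at ih'
      have hd0 := ht.nonneg (k * (p - p'))
      rw [eq2] at hd0
      have hpow : (0 : ℝ) ≤ (1 / 2 : ℝ) ^ l.length := by positivity
      have := mul_nonneg hd0 hpow
      rw [List.length_cons, pow_succ]
      linarith
  -- the hashing sum of a list
  have main : ∀ (β : Fin L → Bool) (l : List (Fin L)), l.Nodup → ∀ k : B,
      (∀ j ∈ l, ∀ r, Commute k (x j r) ∧ Commute k (star (x j r))) →
      (l.map fun i => t (star k * k * (d β i i * d β i i *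
          (lprod x β g (l.erase i) * lprod x β h (l.erase i))))).sum ≤
        2 * t (star k * k) * (1 / 2) ^ l.length := by
    intro β l
    induction l with
    | nil =>
      intro _ k _
      simpa using ht.nonneg k
    | cons j l ih =>
      intro hl k hk
      obtain ⟨hj, hl⟩ := List.nodup_cons.1 hl
      have hkj := hk j List.mem_cons_self
      have hkl := fun m (hm : m ∈ l) => hk m (List.mem_cons_of_mem j hm)
      have hW : ∀ r, Commute (star k * k) (x j r) ∧ Commute (star k * k) (star (x j r)) := fun r =>
        ⟨Commute.mul_left (by simpa using (hkj r).2.star_star) (hkj r).1,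
          Commute.mul_left (by simpa using (hkj r).1.star_star) (hkj r).2⟩
      set p := prj (β j) (x j g)
      set p' := prj (β j) (x j h)
      obtain ⟨eq1, eq2⟩ := weight_split (k := k) (prj_proj (hx.sq j g) (hx.unit j g) (β j)).1
        (prj_proj (hx.sq j g) (hx.unit j g) (β j)).2 (prj_proj (hx.sq j h) (hx.unit j h) (β j)).1
        (prj_proj (hx.sq j h) (hx.unit j h) (β j)).2
        (commute_prj (hW g).1 (hW g).2 _) (commute_prj (hW h).1 (hW h).2 _)
      have cs : ∀ m ∈ l, ∀ r, (Commute p (x m r) ∧ Commute p (star (x m r))) ∧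
          Commute p' (x m r) ∧ Commute p' (star (x m r)) := fun m hm r => by
        have hm' : j ≠ m := fun e => hj (by rw [e]; exact hm)
        exact ⟨commute_slot hx β hm' g r, commute_slot hx β hm' h r⟩
      -- the new slot disagrees
      have first_le : t (star k * k * (d β j j * d β j j *
          (lprod x β g l * lprod x β h l))) ≤
          t (star k * k * ((p - p') * (p - p'))) * (1 / 2) ^ l.length := by
        have h0 := base β l hl (k * (p - p')) fun m hm r =>
          ⟨(hkl m hm r).1.mul_left ((cs m hm r).1.1.sub_left (cs m hm r).2.1),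
            (hkl m hm r).2.mul_left ((cs m hm r).1.2.sub_left (cs m hm r).2.2)⟩
        rw [eq2, one_mul, mul_assoc (star k * k)] at h0
        exact h0
      -- the new slot agrees
      have hrest : (l.map fun i => t (star k * k * (d β i i * d β i i *
          (lprod x β g ((j :: l).erase i) * lprod x β h ((j :: l).erase i))))).sum =
          1 / 2 * (l.map fun i => t (star (k * (1 - p - p')) * (k * (1 - p - p')) *
            (d β i i * d β i i * (lprod x β g (l.erase i) * lprod x β h (l.erase i))))).sum := by
        rw [← List.sum_map_mul_left]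
        refine congrArg List.sum (List.map_congr_left fun i hi => ?_)
        have hij : i ≠ j := fun e => hj (by rw [← e]; exact hi)
        rw [List.erase_cons_tail (by simpa using hij.symm)]
        have hA : ∀ r, Commute (d β i i * d β i i) (x j r) ∧
            Commute (d β i i * d β i i) (star (x j r)) := fun r => by
          have c1 := commute_slot hx β hij g r
          have c2 := commute_slot hx β hij h r
          exact ⟨(c1.1.sub_left c2.1).mul_left (c1.1.sub_left c2.1),
            (c1.2.sub_left c2.2).mul_left (c1.2.sub_left c2.2)⟩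
        have e := tr_pair hx β t ht j (l.erase i) (fun hm => hj (List.mem_of_mem_erase hm)) g h hW hA
        rw [eq1, sub_mul (star k * k), map_sub, ← e]
        ring
      have hih := ih hl (k * (1 - p - p')) fun m hm r =>
        ⟨(hkl m hm r).1.mul_left
            (((Commute.one_left _).sub_left (cs m hm r).1.1).sub_left (cs m hm r).2.1),
          (hkl m hm r).2.mul_left
            (((Commute.one_left _).sub_left (cs m hm r).1.2).sub_left (cs m hm r).2.2)⟩
      rw [List.map_cons, List.sum_cons, List.erase_cons_head, hrest]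
      rw [eq1, map_sub] at hih
      rw [List.length_cons, pow_succ, eq1]
      linarith
  have hall : ∀ β : Fin L → Bool, ∑ i, t (d β i i * d β i i *
      (omitProd x β i g * omitProd x β i h)) ≤ 2 * t 1 * (1 / 2) ^ L := fun β => by
    have := main β (List.finRange L) (List.nodup_finRange L) 1 fun j _ r =>
      ⟨Commute.one_left _, Commute.one_left _⟩
    simp only [star_one, one_mul, List.length_finRange] at this
    rw [Fin.sum_univ_def]
    simpa only [omitProd_eq] using this
  -- from `sig a b` to the two bases
  have hone : ∀ (i : Fin L) (β : Fin L → Bool), t ((sig a b (x i g) - sig a b (x i h)) *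
      (sig a b (x i g) - sig a b (x i h)) *
      (omitProd x β i g * omitProd x β i h * omitProd x β i g)) ≤
      4 * (t ((prj true (x i g) - prj true (x i h)) * (prj true (x i g) - prj true (x i h)) *
        (omitProd x β i g * omitProd x β i h)) +
      t ((prj false (x i g) - prj false (x i h)) * (prj false (x i g) - prj false (x i h)) *
        (omitProd x β i g * omitProd x β i h))) := by
    intro i β
    obtain ⟨gsa, gid⟩ := omitProd_proj hx β i g
    obtain ⟨hsa, hid⟩ := omitProd_proj hx β i h
    set G := omitProd x β i g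
    set H := omitProd x β i h
    set Z := prj true (x i g) - prj true (x i h)
    set X := prj false (x i g) - prj false (x i h)
    have cG : ∀ c r, Commute G (prj c (x i r)) := fun c r =>
      commute_prj (commute_omitProd_slot hx β i g r).1 (commute_omitProd_slot hx β i g r).2 _
    have cH : ∀ c r, Commute H (prj c (x i r)) := fun c r =>
      commute_prj (commute_omitProd_slot hx β i h r).1 (commute_omitProd_slot hx β i h r).2 _
    have hZ : IsSelfAdjoint Z :=
      (prj_proj (hx.sq i g) (hx.unit i g) _).1.sub (prj_proj (hx.sq i h) (hx.unit i h) _).1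
    have hX : IsSelfAdjoint X :=
      (prj_proj (hx.sq i g) (hx.unit i g) _).1.sub (prj_proj (hx.sq i h) (hx.unit i h) _).1
    have es : sig a b (x i g) - sig a b (x i h) = (2 * a) • Z + (2 * b) • X := by
      have hz := prj_sub_prj true (x i g) (x i h)
      have hx' := prj_sub_prj false (x i g) (x i h)
      simp only [sigB, if_true, Bool.false_eq_true, if_false] at hz hx'
      calc _ = a • (sigZ (x i g) - sigZ (x i h)) + b • (sigX (x i g) - sigX (x i h)) := by
            simp only [sig]; module
        _ = _ := by rw [hz, hx', smul_smul, smul_smul, mul_comm a 2, mul_comm b 2]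
    set Y := (2 * b) • Z - (2 * a) • X
    have hY : IsSelfAdjoint Y :=
      ((IsSelfAdjoint.all _).smul hZ).sub ((IsSelfAdjoint.all _).smul hX)
    have cY : Commute (H * G) Y := Commute.mul_left
      ((((cH _ g).sub_right (cH _ h)).smul_right _).sub_right
        (((cH _ g).sub_right (cH _ h)).smul_right _))
      ((((cG _ g).sub_right (cG _ h)).smul_right _).sub_right
        (((cG _ g).sub_right (cG _ h)).smul_right _))
    have hnn := ht.nonneg (H * G * Y)
    rw [show star (H * G * Y) * (H * G * Y) = Y * (G * H * G) * Y by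
      simp only [star_mul, hY.star_eq, gsa.star_eq, hsa.star_eq, mul_assoc]
      rw [← mul_assoc H H, hid], ht.comm, ← mul_assoc] at hnn
    have hcyc : ∀ D : B, Commute G D → t (D * (G * H * G)) = t (D * (G * H)) := by
      intro D hD
      rw [← mul_assoc D, ht.comm, ← mul_assoc, ← mul_assoc, hD.eq, mul_assoc D, gid, mul_assoc]
    rw [← hcyc _ (((cG _ g).sub_right (cG _ h)).mul_right ((cG _ g).sub_right (cG _ h))),
      ← hcyc _ (((cG _ g).sub_right (cG _ h)).mul_right ((cG _ g).sub_right (cG _ h))), es]
    have e2 : ((2 * a) • Z + (2 * b) • X) * ((2 * a) • Z + (2 * b) • X) + Y * Y =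
        (4 * (a ^ 2 + b ^ 2)) • (Z * Z + X * X) := by
      simp only [Y, add_mul, mul_add, sub_mul, mul_sub, smul_mul_assoc, mul_smul_comm, smul_smul,
        smul_add]
      module
    rw [hab, mul_one] at e2
    rw [eq_sub_of_add_eq e2]
    rw [sub_mul _ (Y * Y), map_sub, smul_mul_assoc, map_smul, add_mul (Z * Z), map_add,
      smul_eq_mul]
    linarith
  have hflip : ∀ i : Fin L, ∑ β : Fin L → Bool,
      (t ((prj true (x i g) - prj true (x i h)) * (prj true (x i g) - prj true (x i h)) *
        (omitProd x β i g * omitProd x β i h)) +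
      t ((prj false (x i g) - prj false (x i h)) * (prj false (x i g) - prj false (x i h)) *
        (omitProd x β i g * omitProd x β i h))) =
      2 * ∑ β : Fin L → Bool, t (d β i i * d β i i *
        (omitProd x β i g * omitProd x β i h)) := by
    intro i
    have hinv : Function.Involutive fun β : Fin L → Bool => Function.update β i (!β i) := fun β => by
      simp
    have hO : ∀ (β : Fin L → Bool) r, omitProd x (Function.update β i (!β i)) i r =
        omitProd x β i r := fun β r => by
      unfold omitProd
      congr 1
      funext j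
      split_ifs with hji
      · rfl
      · rw [Function.update_of_ne hji]
    rw [two_mul]
    nth_rewrite 2 [← Equiv.sum_comp hinv.toPerm]
    rw [← Finset.sum_add_distrib]
    refine Finset.sum_congr rfl fun β _ => ?_
    simp only [hd, Function.Involutive.coe_toPerm, hO, Function.update_self]
    cases β i <;> simp [add_comm]
  show ∑ i : Fin L, ∑ β : Fin L → Bool, t _ ≤ 16 * t 1
  refine le_trans (Finset.sum_le_sum fun i _ => Finset.sum_le_sum fun β _ => hone i β) ?_
  simp only [← Finset.mul_sum, hflip]
  rw [Finset.sum_comm]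
  have hcard : ∑ _β : Fin L → Bool, 2 * t 1 * (1 / 2 : ℝ) ^ L = 2 * t 1 := by
    rw [Finset.sum_const, Finset.card_univ, Fintype.card_fun, Fintype.card_bool, Fintype.card_fin,
      nsmul_eq_mul]
    push_cast
    rw [mul_comm ((2 : ℝ) ^ L), mul_assoc, ← mul_pow]
    norm_num
  have := Finset.sum_le_sum (s := Finset.univ) fun β _ => hall β
  rw [hcard] at this
  linarith

end Omit

theorem commute_omitProd {Γ : Type*} {L : ℕ} {x : Fin L → Γ → B} (β : Fin L → Bool) (i : Fin L)
    (g : Γ) {W : B} (hW : ∀ j, Commute W (x j g) ∧ Commute W (star (x j g))) :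
    Commute W (omitProd x β i g) := by
  rw [omitProd_eq]
  exact commute_lprod β g _ fun j _ => hW j

theorem map_omitProd {C : Type*} [CStarAlgebra C] (φ : B →⋆ₐ[ℂ] C) {Γ : Type*} {L : ℕ}
    (x : Fin L → Γ → B) (β : Fin L → Bool) (i : Fin L) (g : Γ) :
    φ (omitProd x β i g) = omitProd (fun j h => φ (x j h)) β i g := by
  simp only [omitProd, oprod, map_list_prod, List.map_ofFn]
  congr 2
  funext j
  by_cases hji : j = i
  · simp [hji]
  · cases hβ : β j <;>
      simp [hji, hβ, prj, sigZ, sigX, ← Complex.coe_smul, map_smul, map_star]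

theorem map_sig {C : Type*} [CStarAlgebra C] (φ : B →⋆ₐ[ℂ] C) (a b : ℝ) (x : B) :
    φ (sig a b x) = sig a b (φ x) := by
  simp [sig, sigZ, sigX, ← Complex.coe_smul, map_smul, map_star]

end Vale.P095.McDuff
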