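import Vale.Agent.P095.Tracial.TraceIneq

/-!
The joint spectral inequality of two self-adjoint elements under a tracial positive functional,
obtained by discretising both functional calculi.
-/

open Vale.P095.Tracial

namespace Vale.P095.McDuff

open Finset

variable {E : Type*} [CStarAlgebra E]

namespace Tr'

variable {τ : E →ₗ[ℝ] ℝ} (hτ : IsTrace τ)
include hτ

/-- Positivity on squares of self-adjoint elements. -/
theorem sq_nonneg {y : E} (hy : IsSelfAdjoint y) : 0 ≤ τ (y * y) := by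
  simpa [hy.star_eq] using hτ.nonneg y

theorem le_norm_of_sa {x : E} (hx : IsSelfAdjoint x) {r : ℝ} (hr : ‖x‖ ≤ r) :
    τ x ≤ r * τ 1 := by
  rcases subsingleton_or_nontrivial E with h | h
  · simp [Subsingleton.elim x 0, Subsingleton.elim (1 : E) 0]
  set y := cfc (fun t : ℝ => Real.sqrt (r - t)) x with hy
  have hys : IsSelfAdjoint y := IsSelfAdjoint.cfc
  have hy2 : y * y = algebraMap ℝ E r - x := by
    rw [hy, ← cfc_mul (R := ℝ) _ _ x]
    calc cfc (fun t : ℝ => Real.sqrt (r - t) * Real.sqrt (r - t)) x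
        = cfc (fun t : ℝ => r - t) x := cfc_congr fun t ht => by
          have := (Real.norm_eq_abs t ▸ spectrum.norm_le_norm_of_mem ht)
          exact Real.mul_self_sqrt (by linarith [le_abs_self t])
      _ = algebraMap ℝ E r - x := by
          rw [cfc_sub (R := ℝ) (fun _ => r) (fun t => t) x, cfc_const r x, cfc_id' ℝ x]
  have := hτ.nonneg y
  rw [hys.star_eq, hy2, Algebra.algebraMap_eq_smul_one, map_sub, map_smul, smul_eq_mul] at this
  linarith

theorem one_nonneg : 0 ≤ τ 1 := by simpa using hτ.nonneg 1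

theorem abs_le_norm (x : E) : |τ x| ≤ ‖x‖ * τ 1 := by
  have key : ∀ z : E, τ z ≤ ‖z‖ * τ 1 := by
    intro z
    have hs : IsSelfAdjoint (z + star z) := IsSelfAdjoint.add_star_self z
    have hn : ‖z + star z‖ ≤ 2 * ‖z‖ := by
      refine (norm_add_le _ _).trans ?_
      rw [norm_star]; linarith
    have := le_norm_of_sa hτ hs hn
    rw [map_add, hτ.map_star] at this
    linarith
  refine abs_le.2 ⟨?_, key x⟩
  have := key (-x)
  rw [map_neg, norm_neg] at this
  linarith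

theorem abs_sub_le (x y : E) : |τ x - τ y| ≤ ‖x - y‖ * τ 1 := by
  rw [← map_sub]; exact abs_le_norm hτ _

theorem cfc_mul_cfc_nonneg (a b : E) (ha : IsSelfAdjoint a) (hb : IsSelfAdjoint b)
    {φ ψ : ℝ → ℝ} (hφ : Continuous φ) (hψ : Continuous ψ) (hφ0 : ∀ t, 0 ≤ φ t)
    (hψ0 : ∀ t, 0 ≤ ψ t) : 0 ≤ τ (cfc φ a * cfc ψ b) := by
  set p := cfc (fun t => Real.sqrt (φ t)) a with hp
  set q := cfc (fun t => Real.sqrt (ψ t)) b with hq
  have hps : IsSelfAdjoint p := IsSelfAdjoint.cfc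
  have hqs : IsSelfAdjoint q := IsSelfAdjoint.cfc
  have hp2 : p * p = cfc φ a := by
    rw [hp, ← cfc_mul (R := ℝ) _ _ a]
    exact cfc_congr fun t _ => Real.mul_self_sqrt (hφ0 t)
  have hq2 : q * q = cfc ψ b := by
    rw [hq, ← cfc_mul (R := ℝ) _ _ b]
    exact cfc_congr fun t _ => Real.mul_self_sqrt (hψ0 t)
  have h := hτ.nonneg (p * q)
  rw [star_mul, hps.star_eq, hqs.star_eq, mul_assoc, ← mul_assoc p p q, hp2, hτ.comm,
    mul_assoc, hq2] at h
  exact h

end Tr'

/-! ### Partitions of an interval -/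

/-- A finite partition of unity of mesh `δ` on the interval of radius `R`. -/
theorem exists_mesh (R : ℝ) {δ : ℝ} (hδ : 0 < δ) :
    ∃ (n : ℕ) (s : Fin n → ℝ) (φ : Fin n → ℝ → ℝ), (∀ i, Continuous (φ i)) ∧
      (∀ i t, 0 ≤ φ i t) ∧ (∀ t, |t| ≤ R → ∑ i, φ i t = 1) ∧
      ∀ i t, φ i t ≠ 0 → |t - s i| ≤ δ := by
  obtain ⟨N, hN⟩ := exists_nat_gt (R / δ)
  let H : ℝ → ℝ := fun u => min (max u 0) 1
  have hmono : ∀ u v, u ≤ v → H u ≤ H v := fun u v h => min_le_min (max_le_max h le_rfl) le_rfl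
  refine ⟨2 * N + 1, fun i => ((i : ℕ) - (N : ℝ)) * δ,
    fun i t => H (t / δ + N + 1 - (i : ℕ)) - H (t / δ + N + 1 - ((i : ℕ) + 1 : ℕ)),
    fun i => by fun_prop, fun i t => sub_nonneg.2 (hmono _ _ (by push_cast; linarith)),
    fun t ht => ?_, fun i t h => ?_⟩
  · rw [Fin.sum_univ_eq_sum_range (fun i : ℕ => H (t / δ + N + 1 - (i : ℕ)) -
      H (t / δ + N + 1 - ((i + 1 : ℕ) : ℝ))) (2 * N + 1),
      Finset.sum_range_sub' (fun k : ℕ => H (t / δ + N + 1 - (k : ℝ)))]
    have h1 : |t / δ| ≤ N := by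
      rw [abs_div, abs_of_pos hδ]
      exact (div_le_div_of_nonneg_right ht hδ.le).trans hN.le
    rw [abs_le] at h1
    have e1 : H (t / δ + N + 1 - ((0 : ℕ) : ℝ)) = 1 :=
      min_eq_right (le_max_of_le_left (by push_cast; linarith))
    have e2 : H (t / δ + N + 1 - ((2 * N + 1 : ℕ) : ℝ)) = 0 := by
      simp only [H]
      rw [max_eq_right (by push_cast; linarith), min_eq_left zero_le_one]
    rw [e1, e2, sub_zero]
  · have hh : |t / δ + N - (i : ℕ)| ≤ 1 := by
      by_contra hc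
      apply h
      rw [not_le, lt_abs] at hc
      rcases hc with hc | hc
      · simp only [H]
        rw [min_eq_right (le_max_of_le_left (by push_cast; linarith)),
          min_eq_right (le_max_of_le_left (by push_cast; linarith)), sub_self]
      · simp only [H]
        rw [max_eq_right (by push_cast; linarith), max_eq_right (by push_cast; linarith), sub_self]
    have e : t - ((i : ℕ) - (N : ℝ)) * δ = (t / δ + N - (i : ℕ)) * δ := by
      field_simp; ring
    rw [e, abs_mul, abs_of_pos hδ]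
    exact mul_le_of_le_one_left hδ.le hh

/-! ### The inequality -/

theorem cfc_sum_smul {n : ℕ} (a : E) (ha : IsSelfAdjoint a) (z : Fin n → ℝ) {φ : Fin n → ℝ → ℝ}
    (hφ : ∀ i, Continuous (φ i)) :
    cfc (fun t => ∑ i, z i * φ i t) a = ∑ i, z i • cfc (φ i) a := by
  have h := cfc_sum (a := a) (fun i t => z i * φ i t) Finset.univ (fun i _ => by fun_prop)
  rw [show (fun t => ∑ i, z i * φ i t) = ∑ i, fun t => z i * φ i t by
    funext t; rw [Finset.sum_apply], h]
  exact Finset.sum_congr rfl fun i _ => cfc_const_mul (z i) (φ i) a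

theorem sum_cfc_eq_one {n : ℕ} (a : E) (ha : IsSelfAdjoint a) {R : ℝ} (haR : ‖a‖ ≤ R)
    {φ : Fin n → ℝ → ℝ} (hφ : ∀ i, Continuous (φ i))
    (h1 : ∀ t, |t| ≤ R → ∑ i, φ i t = 1) : ∑ i, cfc (φ i) a = 1 := by
  rcases subsingleton_or_nontrivial E with h | h
  · exact Subsingleton.elim _ _
  rw [← cfc_sum (a := a) φ Finset.univ (fun i _ => (hφ i).continuousOn), ← cfc_one ℝ a]
  refine cfc_congr fun t ht => ?_
  rw [Finset.sum_apply, h1 t ((Real.norm_eq_abs t ▸ spectrum.norm_le_norm_of_mem ht).trans haR)]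
  rfl

/-- The discretised functional calculus is close to the functional calculus. -/
theorem norm_cfc_sub_sum_le {n : ℕ} (a : E) (ha : IsSelfAdjoint a) {R δ η : ℝ} (haR : ‖a‖ ≤ R)
    {s : Fin n → ℝ} {φ : Fin n → ℝ → ℝ} (hφ : ∀ i, Continuous (φ i)) (h0 : ∀ i t, 0 ≤ φ i t)
    (h1 : ∀ t, |t| ≤ R → ∑ i, φ i t = 1) (hs : ∀ i t, φ i t ≠ 0 → |t - s i| ≤ δ)
    {f : ℝ → ℝ} (hf : Continuous f) (hη : 0 ≤ η)
    (hfs : ∀ u v, |u| ≤ R → |u - v| ≤ δ → |f u - f v| ≤ η) :
    ‖cfc f a - ∑ i, f (s i) • cfc (φ i) a‖ ≤ η := by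
  rcases subsingleton_or_nontrivial E with h | h
  · simpa [Subsingleton.elim (cfc f a - ∑ i, f (s i) • cfc (φ i) a) 0] using hη
  rw [← cfc_sum_smul a ha _ hφ, ← cfc_sub (R := ℝ) f (fun t => ∑ i, f (s i) * φ i t) a]
  refine norm_cfc_le hη fun t ht => ?_
  have htR : |t| ≤ R := (Real.norm_eq_abs t ▸ spectrum.norm_le_norm_of_mem ht).trans haR
  rw [Real.norm_eq_abs]
  have e : f t - ∑ i, f (s i) * φ i t = ∑ i, (f t - f (s i)) * φ i t := by
    simp only [sub_mul, Finset.sum_sub_distrib, ← Finset.mul_sum, h1 t htR, mul_one]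
  rw [e]
  refine (Finset.abs_sum_le_sum_abs _ _).trans ?_
  calc ∑ i, |(f t - f (s i)) * φ i t| ≤ ∑ i, η * φ i t := Finset.sum_le_sum fun i _ => by
        rw [abs_mul, abs_of_nonneg (h0 i t)]
        by_cases hne : φ i t = 0
        · simp [hne]
        · exact mul_le_mul_of_nonneg_right (hfs t _ htR (hs i t hne)) (h0 i t)
    _ = η := by rw [← Finset.mul_sum, h1 t htR, mul_one]

theorem sum_sqrt_cs {ι : Type*} [Fintype ι] (w x y : ι → ℝ) (hw : ∀ i, 0 ≤ w i) :
    ∑ i, w i * (|x i| * |y i|) ≤ Real.sqrt (∑ i, w i * x i ^ 2) * Real.sqrt (∑ i, w i * y i ^ 2) := by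
  have h := Real.sum_sqrt_mul_sqrt_le Finset.univ (f := fun i => w i * x i ^ 2)
    (g := fun i => w i * y i ^ 2) (fun i => mul_nonneg (hw i) (sq_nonneg _))
    (fun i => mul_nonneg (hw i) (sq_nonneg _))
  refine le_trans (le_of_eq (Finset.sum_congr rfl fun i _ => ?_)) h
  rw [Real.sqrt_mul (hw i), Real.sqrt_mul (hw i), Real.sqrt_sq_eq_abs, Real.sqrt_sq_eq_abs,
    mul_mul_mul_comm, Real.mul_self_sqrt (hw i)]

namespace Tr'

variable {τ : E →ₗ[ℝ] ℝ} (hτ : IsTrace τ)
include hτ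

/-- The squared difference as seen by the discretised joint spectral weights. -/
theorem sq_diff_approx (a b : E) (ha : IsSelfAdjoint a) (hb : IsSelfAdjoint b) {R δ η B : ℝ}
    (haR : ‖a‖ ≤ R) (hbR : ‖b‖ ≤ R) {n : ℕ} {s : Fin n → ℝ} {φ : Fin n → ℝ → ℝ}
    (hφ : ∀ i, Continuous (φ i)) (h0 : ∀ i t, 0 ≤ φ i t) (h1 : ∀ t, |t| ≤ R → ∑ i, φ i t = 1)
    (hs : ∀ i t, φ i t ≠ 0 → |t - s i| ≤ δ) {f : ℝ → ℝ} (hf : Continuous f) (hη : 0 ≤ η)
    (hfs : ∀ u v, |u| ≤ R → |u - v| ≤ δ → |f u - f v| ≤ η)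
    (hfs2 : ∀ u v, |u| ≤ R → |u - v| ≤ δ → |f u * f u - f v * f v| ≤ η)
    (hη1 : η ≤ 1) (hB : ∀ u, |u| ≤ R → |f u| ≤ B) (hB0 : 0 ≤ B) :
    |τ ((cfc f a - cfc f b) * (cfc f a - cfc f b)) - ∑ i, ∑ j,
        τ (cfc (φ i) a * cfc (φ j) b) * (f (s i) - f (s j)) ^ 2| ≤
      η * (4 * B + 6) * τ 1 := by
  rcases subsingleton_or_nontrivial E with h | h
  · have h0' : τ 1 = 0 := by rw [Subsingleton.elim (1 : E) 0, map_zero]
    simp [Subsingleton.elim (cfc f a) 0, Subsingleton.elim (cfc f b) 0, h0',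
      Subsingleton.elim (cfc (φ _) a * cfc (φ _) b) 0]
  set A1 := ∑ i, f (s i) • cfc (φ i) a with hA1
  set B1 := ∑ i, f (s i) • cfc (φ i) b with hB1
  set A2 := ∑ i, (f (s i) * f (s i)) • cfc (φ i) a with hA2
  set B2 := ∑ i, (f (s i) * f (s i)) • cfc (φ i) b with hB2
  have one : ∀ x : E, IsSelfAdjoint x → ‖x‖ ≤ R → ∑ i, cfc (φ i) x = 1 := fun x hx hxR =>
    sum_cfc_eq_one x hx hxR hφ h1
  have key : ∑ i, ∑ j, τ (cfc (φ i) a * cfc (φ j) b) * (f (s i) - f (s j)) ^ 2 =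
      τ A2 + τ B2 - 2 * τ (A1 * B1) := by
    have e1 : τ A2 = ∑ i, ∑ j, τ (cfc (φ i) a * cfc (φ j) b) * (f (s i) * f (s i)) := by
      rw [hA2, map_sum]
      refine Finset.sum_congr rfl fun i _ => ?_
      rw [map_smul, ← Finset.sum_mul, ← map_sum, ← Finset.mul_sum, one b hb hbR, mul_one,
        smul_eq_mul, mul_comm]
    have e2 : τ B2 = ∑ i, ∑ j, τ (cfc (φ i) a * cfc (φ j) b) * (f (s j) * f (s j)) := by
      rw [Finset.sum_comm, hB2, map_sum]
      refine Finset.sum_congr rfl fun j _ => ?_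
      rw [map_smul, ← Finset.sum_mul, ← map_sum, ← Finset.sum_mul, one a ha haR, one_mul,
        smul_eq_mul, mul_comm]
    have e3 : τ (A1 * B1) = ∑ i, ∑ j, τ (cfc (φ i) a * cfc (φ j) b) * (f (s i) * f (s j)) := by
      rw [hA1, hB1, Finset.sum_mul, map_sum]
      refine Finset.sum_congr rfl fun i _ => ?_
      rw [Finset.mul_sum, map_sum]
      refine Finset.sum_congr rfl fun j _ => ?_
      rw [smul_mul_assoc, mul_smul_comm, smul_smul, map_smul, smul_eq_mul, mul_comm]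
    rw [e1, e2, e3, Finset.mul_sum, ← Finset.sum_add_distrib, ← Finset.sum_sub_distrib]
    refine Finset.sum_congr rfl fun i _ => ?_
    rw [Finset.mul_sum, ← Finset.sum_add_distrib, ← Finset.sum_sub_distrib]
    exact Finset.sum_congr rfl fun j _ => by ring
  have hff : Continuous fun t => f t * f t := hf.mul hf
  have nA1 : ‖cfc f a - A1‖ ≤ η := norm_cfc_sub_sum_le a ha haR hφ h0 h1 hs hf hη hfs
  have nB1 : ‖cfc f b - B1‖ ≤ η := norm_cfc_sub_sum_le b hb hbR hφ h0 h1 hs hf hη hfs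
  have nA2 : ‖cfc f a * cfc f a - A2‖ ≤ η := by
    rw [← cfc_mul (R := ℝ) f f a]
    exact norm_cfc_sub_sum_le a ha haR hφ h0 h1 hs hff hη hfs2
  have nB2 : ‖cfc f b * cfc f b - B2‖ ≤ η := by
    rw [← cfc_mul (R := ℝ) f f b]
    exact norm_cfc_sub_sum_le b hb hbR hφ h0 h1 hs hff hη hfs2
  have bd : ∀ x : E, IsSelfAdjoint x → ‖x‖ ≤ R → ‖cfc f x‖ ≤ B := fun x _ hxR =>
    norm_cfc_le hB0 fun t ht => by
      rw [Real.norm_eq_abs]
      exact hB t ((Real.norm_eq_abs t ▸ spectrum.norm_le_norm_of_mem ht).trans hxR)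
  have nAB : ‖cfc f a * cfc f b - A1 * B1‖ ≤ η * (2 * B + 1) := by
    have nA1' : ‖A1‖ ≤ B + η := by
      have := norm_sub_norm_le A1 (cfc f a)
      rw [norm_sub_rev] at this
      linarith [bd a ha haR]
    have e : cfc f a * cfc f b - A1 * B1 =
        (cfc f a - A1) * cfc f b + A1 * (cfc f b - B1) := by noncomm_ring
    rw [e]
    refine (norm_add_le _ _).trans ?_
    calc ‖(cfc f a - A1) * cfc f b‖ + ‖A1 * (cfc f b - B1)‖ ≤ η * B + (B + η) * η :=
          add_le_add ((norm_mul_le _ _).trans (mul_le_mul nA1 (bd b hb hbR) (norm_nonneg _) hη))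
            ((norm_mul_le _ _).trans (mul_le_mul nA1' nB1 (norm_nonneg _) (by linarith)))
      _ ≤ η * (2 * B + 1) := by nlinarith
  have h1n := one_nonneg hτ
  have tA := (abs_sub_le hτ (cfc f a * cfc f a) A2).trans (mul_le_mul_of_nonneg_right nA2 h1n)
  have tB := (abs_sub_le hτ (cfc f b * cfc f b) B2).trans (mul_le_mul_of_nonneg_right nB2 h1n)
  have tAB := (abs_sub_le hτ (cfc f a * cfc f b) (A1 * B1)).trans
    (mul_le_mul_of_nonneg_right nAB h1n)
  rw [key, sub_mul, mul_sub, mul_sub, map_sub, map_sub, map_sub, hτ.comm (cfc f b) (cfc f a)]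
  rw [abs_le] at tA tB tAB ⊢
  constructor <;> nlinarith

/-- Joint spectral weights for finitely many functions, up to `η`. -/
theorem exists_weights {ι : Type*} [Fintype ι] {a b : E} (ha : IsSelfAdjoint a)
    (hb : IsSelfAdjoint b) {f : ι → ℝ → ℝ} (hf : ∀ v, Continuous (f v)) {η : ℝ} (hη : 0 < η) :
    ∃ (n : ℕ) (w p q : Fin n × Fin n → ℝ), (∀ i, 0 ≤ w i) ∧
      (∀ v, τ ((cfc (f v) a - cfc (f v) b) * (cfc (f v) a - cfc (f v) b)) ≤
        (∑ i, w i * (f v (p i) - f v (q i)) ^ 2) + η) ∧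
      (∑ i, w i * (p i - q i) ^ 2 ≤ τ ((a - b) * (a - b)) + η) ∧
      (∑ i, w i * p i ^ 2 ≤ τ (a * a) + η) ∧ (∑ i, w i * q i ^ 2 ≤ τ (b * b) + η) := by
  classical
  set R := max ‖a‖ ‖b‖
  have haR : ‖a‖ ≤ R := le_max_left _ _
  have hbR : ‖b‖ ≤ R := le_max_right _ _
  have hR0 : 0 ≤ R := (norm_nonneg a).trans haR
  have hK : IsCompact (Set.Icc (-(R + 1)) (R + 1)) := isCompact_Icc
  -- the functions, together with the identity
  let g : Option ι → ℝ → ℝ := fun o => o.elim id f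
  have hg : ∀ o, Continuous (g o) := fun o => by cases o <;> [exact continuous_id; exact hf _]
  obtain ⟨B, hB⟩ : ∃ B : ℝ, ∀ o u, |u| ≤ R → |g o u| ≤ B := by
    choose c hc using fun o => (isCompact_Icc (a := -R) (b := R)).exists_bound_of_continuousOn
      (hg o).continuousOn
    refine ⟨∑ o, |c o|, fun o u hu => ?_⟩
    have := hc o u (abs_le.1 hu)
    rw [Real.norm_eq_abs] at this
    exact this.trans ((le_abs_self _).trans
      (Finset.single_le_sum (fun o _ => abs_nonneg (c o)) (Finset.mem_univ o)))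
  have hB0 : 0 ≤ B := (abs_nonneg _).trans (hB none 0 (by simpa using hR0))
  have h1n := one_nonneg hτ
  set M : ℝ := (4 * B + 7) * (τ 1 + 1) with hM
  have hM0 : 0 < M := by positivity
  set e := min 1 (η / M) with he
  have he0 : 0 < e := lt_min one_pos (div_pos hη hM0)
  have he1 : e ≤ 1 := min_le_left _ _
  have heM : e * M ≤ η := (mul_le_mul_of_nonneg_right (min_le_right _ _) hM0.le).trans
    (le_of_eq (div_mul_cancel₀ η hM0.ne'))
  have heb : e * (4 * B + 6) * τ 1 ≤ η := by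
    refine le_trans ?_ heM
    rw [mul_assoc, hM]
    exact mul_le_mul_of_nonneg_left (mul_le_mul (by linarith) (by linarith) h1n (by linarith)) he0.le
  have hea : e * τ 1 ≤ η := by
    refine le_trans ?_ heM
    rw [hM]
    refine mul_le_mul_of_nonneg_left ?_ he0.le
    nlinarith
  have huc : ∀ o, ∃ d > 0, ∀ u v, |u| ≤ R → |u - v| ≤ d →
      |g o u - g o v| ≤ e ∧ |g o u * g o u - g o v * g o v| ≤ e := by
    intro o
    obtain ⟨d1, hd1, h1⟩ := Metric.uniformContinuousOn_iff.1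
      (hK.uniformContinuousOn_of_continuous (hg o).continuousOn) e he0
    obtain ⟨d2, hd2, h2⟩ := Metric.uniformContinuousOn_iff.1
      (hK.uniformContinuousOn_of_continuous ((hg o).mul (hg o)).continuousOn) e he0
    refine ⟨min (min d1 d2 / 2) 1, by positivity, fun u v hu huv => ?_⟩
    have h3 : |u - v| ≤ 1 := huv.trans (min_le_right _ _)
    have h4 : |u - v| < min d1 d2 :=
      lt_of_le_of_lt (huv.trans (min_le_left _ _)) (half_lt_self (lt_min hd1 hd2))
    have hu' : u ∈ Set.Icc (-(R + 1)) (R + 1) := abs_le.1 (hu.trans (by linarith))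
    have hv' : v ∈ Set.Icc (-(R + 1)) (R + 1) := abs_le.1 (by
      have := abs_sub_abs_le_abs_sub v u
      rw [abs_sub_comm] at this
      linarith)
    exact ⟨(h1 u hu' v hv' (lt_of_lt_of_le h4 (min_le_left _ _))).le,
      (h2 u hu' v hv' (lt_of_lt_of_le h4 (min_le_right _ _))).le⟩
  choose d hd0 hdg using huc
  obtain ⟨δ, hδ, hδd⟩ : ∃ δ > 0, ∀ o, δ ≤ d o :=
    ⟨Finset.univ.inf' Finset.univ_nonempty d,
      (Finset.lt_inf'_iff _).2 fun o _ => hd0 o, fun o => Finset.inf'_le _ (Finset.mem_univ o)⟩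
  obtain ⟨n, s, φ, hφ, h0, h1, hs⟩ := exists_mesh R hδ
  have est : ∀ o, |τ ((cfc (g o) a - cfc (g o) b) * (cfc (g o) a - cfc (g o) b)) -
      ∑ p : Fin n × Fin n, τ (cfc (φ p.1) a * cfc (φ p.2) b) * (g o (s p.1) - g o (s p.2)) ^ 2| ≤
        e * (4 * B + 6) * τ 1 := fun o => by
    rw [Fintype.sum_prod_type]
    exact sq_diff_approx hτ a b ha hb haR hbR hφ h0 h1 hs (hg o) he0.le
      (fun u v hu huv => (hdg o u v hu (huv.trans (hδd o))).1)
      (fun u v hu huv => (hdg o u v hu (huv.trans (hδd o))).2) he1 (hB o) hB0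
  have hid : ∀ u v, |u| ≤ R → |u - v| ≤ δ → |id u * id u - id v * id v| ≤ e := fun u v hu huv =>
    (hdg none u v hu (huv.trans (hδd none))).2
  have sides : ∀ x : E, IsSelfAdjoint x → ‖x‖ ≤ R →
      ∑ i, τ (cfc (φ i) x) * s i ^ 2 ≤ τ (x * x) + η := fun x hx hxR => by
    have h := (abs_sub_le hτ (cfc (fun t : ℝ => id t * id t) x) _).trans
      (mul_le_mul_of_nonneg_right
        (norm_cfc_sub_sum_le x hx hxR hφ h0 h1 hs (continuous_id.mul continuous_id) he0.le hid)
        h1n)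
    rw [cfc_mul (R := ℝ) id id x, cfc_id ℝ x, map_sum] at h
    have e' : ∑ i, τ (cfc (φ i) x) * s i ^ 2 =
        ∑ i, τ ((id (s i) * id (s i)) • cfc (φ i) x) := Finset.sum_congr rfl fun i _ => by
      rw [map_smul, smul_eq_mul, id, sq, mul_comm]
    rw [e']
    linarith [(abs_le.1 h).1]
  refine ⟨n, fun p => τ (cfc (φ p.1) a * cfc (φ p.2) b), fun p => s p.1, fun p => s p.2,
    fun p => cfc_mul_cfc_nonneg hτ a b ha hb (hφ _) (hφ _) (h0 _) (h0 _), fun v => ?_, ?_, ?_, ?_⟩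
  · have := est (some v)
    simp only [g, Option.elim] at this
    linarith [(abs_le.1 this).2]
  · have := est none
    simp only [g, Option.elim, cfc_id ℝ a, cfc_id ℝ b, id] at this
    linarith [(abs_le.1 this).1]
  · refine le_of_eq_of_le ?_ (sides a ha haR)
    rw [Fintype.sum_prod_type]
    refine Finset.sum_congr rfl fun i _ => ?_
    simp only []
    rw [← Finset.sum_mul, ← map_sum, ← Finset.mul_sum, sum_cfc_eq_one b hb hbR hφ h1, mul_one]
  · refine le_of_eq_of_le ?_ (sides b hb hbR)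
    rw [Fintype.sum_prod_type, Finset.sum_comm]
    refine Finset.sum_congr rfl fun j _ => ?_
    simp only []
    rw [← Finset.sum_mul, ← map_sum, ← Finset.sum_mul, sum_cfc_eq_one a ha haR hφ h1, one_mul]

/-- The joint spectral inequality: functions whose squared differences are dominated by
`C |s - t| (|s| + |t|)` stay so under a tracial positive functional. -/
theorem sum_sq_cfc_sub_le {ι : Type*} [Fintype ι] {a b : E} (ha : IsSelfAdjoint a)
    (hb : IsSelfAdjoint b) {f : ι → ℝ → ℝ} (hf : ∀ v, Continuous (f v)) {C : ℝ} (hC : 0 ≤ C)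
    (hd : ∀ s t, ∑ v, (f v s - f v t) ^ 2 ≤ C * |s - t| * (|s| + |t|)) :
    ∑ v, τ ((cfc (f v) a - cfc (f v) b) * (cfc (f v) a - cfc (f v) b)) ≤
      C * Real.sqrt (τ ((a - b) * (a - b))) *
        (Real.sqrt (τ (a * a)) + Real.sqrt (τ (b * b))) := by
  have main : ∀ η : ℝ, 0 < η →
      ∑ v, τ ((cfc (f v) a - cfc (f v) b) * (cfc (f v) a - cfc (f v) b)) ≤
        (Fintype.card ι : ℝ) * η + C * Real.sqrt (τ ((a - b) * (a - b)) + η) *
          (Real.sqrt (τ (a * a) + η) + Real.sqrt (τ (b * b) + η)) := by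
    intro η hη
    obtain ⟨n, w, p, q, hw, hv, hpq, hp, hq⟩ := exists_weights hτ ha hb hf hη
    calc ∑ v, τ ((cfc (f v) a - cfc (f v) b) * (cfc (f v) a - cfc (f v) b))
        ≤ ∑ v, ((∑ i, w i * (f v (p i) - f v (q i)) ^ 2) + η) :=
          Finset.sum_le_sum fun v _ => hv v
      _ = (Fintype.card ι : ℝ) * η + ∑ i, w i * ∑ v, (f v (p i) - f v (q i)) ^ 2 := by
          rw [Finset.sum_add_distrib, Finset.sum_const, nsmul_eq_mul, Finset.card_univ,
            Finset.sum_comm, add_comm]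
          simp only [Finset.mul_sum]
      _ ≤ (Fintype.card ι : ℝ) * η + C *
            (∑ i, w i * (|p i - q i| * |p i|) + ∑ i, w i * (|p i - q i| * |q i|)) := by
          rw [← Finset.sum_add_distrib, Finset.mul_sum]
          refine add_le_add le_rfl (Finset.sum_le_sum fun i _ => ?_)
          refine (mul_le_mul_of_nonneg_left (hd _ _) (hw i)).trans (le_of_eq ?_)
          ring
      _ ≤ _ := by
          refine add_le_add le_rfl ?_
          rw [mul_assoc]
          refine mul_le_mul_of_nonneg_left ?_ hC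
          rw [mul_add]
          refine add_le_add ?_ ?_
          · exact (sum_sqrt_cs w _ _ hw).trans (mul_le_mul (Real.sqrt_le_sqrt hpq)
              (Real.sqrt_le_sqrt hp) (Real.sqrt_nonneg _) (Real.sqrt_nonneg _))
          · exact (sum_sqrt_cs w _ _ hw).trans (mul_le_mul (Real.sqrt_le_sqrt hpq)
              (Real.sqrt_le_sqrt hq) (Real.sqrt_nonneg _) (Real.sqrt_nonneg _))
  -- let the accuracy tend to zero
  have hcont : Continuous fun η : ℝ => (Fintype.card ι : ℝ) * η + C *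
      Real.sqrt (τ ((a - b) * (a - b)) + η) *
      (Real.sqrt (τ (a * a) + η) + Real.sqrt (τ (b * b) + η)) := by fun_prop
  have hlim := (hcont.tendsto 0).mono_left (nhdsWithin_le_nhds (s := Set.Ioi 0))
  simp only [mul_zero, zero_add, add_zero] at hlim
  refine ge_of_tendsto hlim ?_
  filter_upwards [self_mem_nhdsWithin] with η hη using main η hη

/-- A Lipschitz function is Lipschitz for the trace `L²` seminorm. -/
theorem sq_cfc_sub_le_of_lipschitz {a b : E} (ha : IsSelfAdjoint a) (hb : IsSelfAdjoint b)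
    {f : ℝ → ℝ} (hf : Continuous f) {L : ℝ} (hd : ∀ s t, |f s - f t| ≤ L * |s - t|) :
    τ ((cfc f a - cfc f b) * (cfc f a - cfc f b)) ≤ L ^ 2 * τ ((a - b) * (a - b)) := by
  refine le_of_forall_pos_le_add fun ε hε => ?_
  obtain ⟨n, w, p, q, hw, hv, hpq, -, -⟩ := exists_weights hτ ha hb (f := fun _ : Unit => f)
    (fun _ => hf) (div_pos hε (by positivity : (0 : ℝ) < L ^ 2 + 1))
  have h1 : ∑ i, w i * (f (p i) - f (q i)) ^ 2 ≤ L ^ 2 * ∑ i, w i * (p i - q i) ^ 2 := by
    rw [Finset.mul_sum]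
    refine Finset.sum_le_sum fun i _ => ?_
    rw [mul_left_comm]
    refine mul_le_mul_of_nonneg_left ?_ (hw i)
    rw [← sq_abs, ← sq_abs (p i - q i), ← mul_pow]
    exact pow_le_pow_left₀ (abs_nonneg _) (hd _ _) 2
  have h2 := (hv ()).trans (add_le_add (h1.trans (mul_le_mul_of_nonneg_left hpq (_root_.sq_nonneg L)))
    le_rfl)
  refine h2.trans (le_of_eq ?_)
  field_simp
  ring

end Tr'

end Vale.P095.McDuff
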